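import Vale.Agent.P322.Ineq

open Real

namespace Vale.Agent.P322

/-- The Bellman function of the argument, with `κ = 4/3` and `C = 3/5`. -/
noncomputable def G (a H : ℝ) : ℝ := 2 * log ((3 / 5) / H) - 2 * LL (4 / 3) |a| H

lemma hyp_of_pos {p Hb : ℝ} (hp : 0 ≤ p) (hb : 0 < Hb)
    (hG : LL (4 / 3) p Hb < log ((3 / 5) / Hb)) : Hb < 3 / 5 ∧ Hb ≤ 4 / 3 * (1 - p) := by
  have hLL := LL_nonneg (κ := 4 / 3) (by norm_num) hp hb
  have hlog : 0 < log ((3 / 5) / Hb) := by linarith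
  have h1 : Hb < 3 / 5 := by
    by_contra hcon
    push Not at hcon
    have h2 : (3 / 5) / Hb ≤ 1 := by rw [div_le_one hb]; exact hcon
    have h3 := log_nonpos (by positivity) h2
    linarith
  refine ⟨h1, ?_⟩
  by_contra hcon
  push Not at hcon
  set r := (4 / 3) / Hb with hr
  have hrpos : 0 < r := by positivity
  have hr2 : 20 / 9 < r := by
    rw [hr, lt_div_iff₀ hb]
    linarith
  have hpr2 : r ≤ 1 + p * r := by
    have h4 : (1 - p) * r < 1 := by
      rw [hr]
      have : (1 - p) * (4 / 3 / Hb) = (4 / 3 * (1 - p)) / Hb := by ring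
      rw [this, div_lt_one hb]
      exact hcon
    nlinarith
  have hp1 : 1 - 1 / r ≤ p := by
    have h4 : (1 - p) * r < 1 := by
      rw [hr]
      have : (1 - p) * (4 / 3 / Hb) = (4 / 3 * (1 - p)) / Hb := by ring
      rw [this, div_lt_one hb]
      exact hcon
    have h5 : 1 - p ≤ 1 / r := by
      rw [le_div_iff₀ hrpos]
      exact h4.le
    linarith
  have hlogr : 0 < log r := log_pos (by linarith)
  have hLLeq : LL (4 / 3) p Hb = p * log (1 + p * r) := by
    unfold LL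
    rw [hr]
    congr 3
    field_simp
  have hlow : (1 - 1 / r) * log r ≤ p * log (1 + p * r) := by
    have h6 : log r ≤ log (1 + p * r) := log_le_log hrpos hpr2
    have h7 : (1 - 1 / r) * log r ≤ p * log r := mul_le_mul_of_nonneg_right hp1 hlogr.le
    have h8 : p * log r ≤ p * log (1 + p * r) := mul_le_mul_of_nonneg_left h6 hp
    linarith
  have hCr : (3 / 5) / Hb = r * (9 / 20) := by
    rw [hr]
    field_simp
    ring
  rw [hCr, log_mul hrpos.ne' (by norm_num)] at hG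
  -- `log r ≤ r / 2`
  have hlr : log r ≤ r / 2 := by
    have h9 := Real.log_le_sub_one_of_pos (show 0 < r / 2 by positivity)
    rw [log_div hrpos.ne' (by norm_num)] at h9
    have := Real.log_two_lt_d9
    linarith
  have hl2 : log (9 / 20 : ℝ) ≤ -(11 / 20) := by
    have h9 := Real.log_le_sub_one_of_pos (show (0 : ℝ) < 9 / 20 by norm_num)
    linarith
  have h10 : log r / r ≤ 1 / 2 := by
    rw [div_le_iff₀ hrpos]
    linarith
  have h11 : (1 - 1 / r) * log r = log r - log r / r := by ring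
  rw [hLLeq] at hG
  linarith

/-- The core two-point inequality in normalized position. -/
lemma B1_core {a b H₁ H₂ : ℝ} (ha : a ≤ 1) (hab : |b| ≤ a) (h₁ : 0 < H₁) (h₂ : 0 < H₂)
    (hH₂ : H₂ ≤ 7 / 10)
    (hG : LL (4 / 3) |(a + b) / 2| ((H₁ + H₂) / 2) < log ((3 / 5) / ((H₁ + H₂) / 2))) :
    LL (4 / 3) |a| H₁ + LL (4 / 3) |b| H₂ ≤
      2 * LL (4 / 3) |(a + b) / 2| ((H₁ + H₂) / 2) + 2 * LL (4 / 3) (|a - b| / 2) (√(H₁ * H₂)) +
        2 * (log ((H₁ + H₂) / 2) - log (√(H₁ * H₂))) := by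
  have ha0 : 0 ≤ a := le_trans (abs_nonneg b) hab
  have hb1 : -a ≤ b := (abs_le.mp hab).1
  have hb2 : b ≤ a := (abs_le.mp hab).2
  obtain ⟨hHb, hHb2⟩ := hyp_of_pos (abs_nonneg _) (by positivity) hG
  rw [abs_of_nonneg ha0]
  rcases le_or_gt 0 b with hb | hb
  · -- same sign
    have hm : |(a + b) / 2| = (a + b) / 2 := abs_of_nonneg (by linarith)
    have hd : |a - b| / 2 = (a - b) / 2 := by rw [abs_of_nonneg (by linarith)]
    rw [hm] at hHb2 ⊢
    rw [hd, abs_of_nonneg hb]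
    have := lemmaI (κ := 4 / 3) (p := (a + b) / 2) (q := (a - b) / 2) (H₁ := H₁) (H₂ := H₂)
      (by norm_num) (by linarith) (by linarith) (by linarith) h₁ h₂ hHb2
    have e1 : (a + b) / 2 + (a - b) / 2 = a := by ring
    have e2 : (a + b) / 2 - (a - b) / 2 = b := by ring
    rwa [e1, e2] at this
  · -- opposite sign
    have hm : |(a + b) / 2| = (a + b) / 2 := abs_of_nonneg (by linarith)
    have hd : |a - b| / 2 = (a - b) / 2 := by rw [abs_of_nonneg (by linarith)]
    rw [hm, hd, abs_of_neg hb]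
    have := lemmaII (κ := 4 / 3) (p := (a - b) / 2) (q := (a + b) / 2) (H₁ := H₁) (H₂ := H₂)
      (by norm_num) (by linarith) (by linarith) (by linarith) h₁ h₂ (by linarith) (by linarith)
    have e1 : (a - b) / 2 + (a + b) / 2 = a := by ring
    have e2 : (a - b) / 2 - (a + b) / 2 = -b := by ring
    rwa [e1, e2] at this

/-- The two-point inequality for all signs. -/
lemma B1 {a b H₁ H₂ : ℝ} (ha : |a| ≤ 1) (hb : |b| ≤ 1) (h₁ : 0 < H₁) (h₂ : 0 < H₂)
    (hH₁ : H₁ ≤ 7 / 10) (hH₂ : H₂ ≤ 7 / 10)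
    (hG : LL (4 / 3) |(a + b) / 2| ((H₁ + H₂) / 2) < log ((3 / 5) / ((H₁ + H₂) / 2))) :
    LL (4 / 3) |a| H₁ + LL (4 / 3) |b| H₂ ≤
      2 * LL (4 / 3) |(a + b) / 2| ((H₁ + H₂) / 2) + 2 * LL (4 / 3) (|a - b| / 2) (√(H₁ * H₂)) +
        2 * (log ((H₁ + H₂) / 2) - log (√(H₁ * H₂))) := by
  have hswap1 : (H₂ + H₁) / 2 = (H₁ + H₂) / 2 := by ring
  have hswap2 : H₂ * H₁ = H₁ * H₂ := by ring
  rcases le_total |a| |b| with hle | hle
  · rcases le_total 0 b with hb0 | hb0
    · -- `|a| ≤ b`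
      have h := B1_core (a := b) (b := a) (H₁ := H₂) (H₂ := H₁)
        ((abs_le.mp hb).2) (by rwa [abs_of_nonneg hb0] at hle) h₂ h₁ hH₁
        (by rwa [hswap1, add_comm b a])
      rw [hswap1, hswap2, add_comm b a, abs_sub_comm b a] at h
      linarith
    · -- `|a| ≤ -b`
      have h := B1_core (a := -b) (b := -a) (H₁ := H₂) (H₂ := H₁)
        (by have := (abs_le.mp hb).1; linarith)
        (by rw [abs_neg]; rwa [abs_of_nonpos hb0] at hle) h₂ h₁ hH₁
        (by
          have e : (-b + -a) / 2 = -((a + b) / 2) := by ring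
          rw [e, abs_neg, hswap1]
          exact hG)
      have e : (-b + -a) / 2 = -((a + b) / 2) := by ring
      have e2 : -b - -a = a - b := by ring
      rw [hswap1, hswap2, e, abs_neg, e2, abs_neg, abs_neg] at h
      linarith
  · rcases le_total 0 a with ha0 | ha0
    · exact B1_core ((abs_le.mp ha).2) (by rwa [abs_of_nonneg ha0] at hle) h₁ h₂ hH₂ hG
    · have h := B1_core (a := -a) (b := -b) (H₁ := H₁) (H₂ := H₂)
        (by have := (abs_le.mp ha).1; linarith)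
        (by rw [abs_neg]; rwa [abs_of_nonpos ha0] at hle) h₁ h₂ hH₂
        (by
          have e : (-a + -b) / 2 = -((a + b) / 2) := by ring
          rw [e, abs_neg]
          exact hG)
      have e : (-a + -b) / 2 = -((a + b) / 2) := by ring
      have e2 : -a - -b = -(a - b) := by ring
      rw [e, abs_neg, e2, abs_neg, abs_neg, abs_neg] at h
      exact h

/-- The Bellman step. -/
lemma G_step {a b H₁ H₂ : ℝ} (ha : |a| ≤ 1) (hb : |b| ≤ 1) (h₁ : 0 < H₁) (h₂ : 0 < H₂)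
    (hH₁ : H₁ ≤ 7 / 10) (hH₂ : H₂ ≤ 7 / 10)
    (hG : 0 < G ((a + b) / 2) ((H₁ + H₂) / 2)) :
    G ((a + b) / 2) ((H₁ + H₂) / 2) ≤
      (G a H₁ + G b H₂) / 2 + 2 * LL (4 / 3) (|a - b| / 2) (√(H₁ * H₂)) := by
  have hG' : LL (4 / 3) |(a + b) / 2| ((H₁ + H₂) / 2) < log ((3 / 5) / ((H₁ + H₂) / 2)) := by
    unfold G at hG
    linarith
  have h := B1 ha hb h₁ h₂ hH₁ hH₂ hG'
  unfold G
  have hbpos : 0 < (H₁ + H₂) / 2 := by positivity
  rw [log_div (by norm_num) hbpos.ne', log_div (by norm_num) h₁.ne', log_div (by norm_num) h₂.ne']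
  rw [log_sqrt_mul h₁ h₂] at h
  linarith

end Vale.Agent.P322
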