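import Vale.Agent.P322.Num3

open Real Finset

namespace Vale.Agent.P322

/-- The Bellman function. -/
noncomputable def BB (ε a : ℝ) : ℝ :=
  max (binEntropy ε * (1 - a ^ 2))
    (0.65 * (4 * ε * (1 - ε)) * ent a + 3 / 4 * binEntropy ε * (1 - a ^ 2))

lemma BB_one {ε : ℝ} : BB ε 1 ≤ 0 := by
  unfold BB
  rw [ent_one]
  simp

lemma BB_neg_one {ε : ℝ} : BB ε (-1) ≤ 0 := by
  unfold BB
  rw [ent_neg_one]
  simp

/-- `ent` is even and `ent m` is the binary entropy of the smaller endpoint. -/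
lemma ent_eq_abs (m : ℝ) : ent m = binEntropy ((1 - |m|) / 2) := by
  rcases abs_cases m with ⟨h, _⟩ | ⟨h, _⟩
  · rw [h, ← ent_one_sub_two]
    congr 1
    ring
  · rw [h, ← ent_one_sub_two, ← ent_symm]
    congr 1
    ring

/-- Entropy of two endpoints dominates the binary entropy of the gap. -/
lemma ent_add_ge {a b : ℝ} (ha : |a| ≤ 1) (hb : |b| ≤ 1) :
    binEntropy (1 - |a - b| / 2) ≤ ent a + ent b := by
  have ha' := abs_le.mp ha
  have hb' := abs_le.mp hb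
  have key : ∀ p q : ℝ, |p| ≤ 1 → |q| ≤ 1 → q ≤ p →
      binEntropy (1 - |p - q| / 2) ≤ ent p + ent q := by
    intro p q hp hq hqp
    have hp' := abs_le.mp hp
    have hq' := abs_le.mp hq
    have e0 : |p - q| = p - q := abs_of_nonneg (by linarith)
    rw [e0]
    have e1 : ent p = binEntropy ((1 - p) / 2) := by
      rw [← ent_one_sub_two]
      congr 1
      ring
    have e2 : ent q = binEntropy ((1 + q) / 2) := rfl
    rw [e1, e2]
    have e3 : 1 - (p - q) / 2 = (1 - p) / 2 + (1 + q) / 2 := by ring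
    rw [e3]
    exact be_subadd (by linarith) (by linarith) (by linarith)
  rcases le_total b a with h | h
  · exact key a b ha hb h
  · have := key b a hb ha h
    rw [abs_sub_comm] at this
    linarith

/-- The numerical input of the target `k ent + 3/4 h v`. -/
lemma H2_aux {ε s : ℝ} (h0 : 0 < ε) (hs : ε ≤ 1 / 10 ^ 10) (hs0 : 0 ≤ s) (hs1 : s ≤ 1 / 2)
    (hc : 0.0658 * (4 * ε * (1 - ε)) < binEntropy ε * (4 * (s * (1 - s)))) :
    0.65 * (4 * ε * (1 - ε)) * binEntropy s ≤ binEntropy ε * (s * (1 - s)) := by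
  have hε1 : ε ≤ 1 / 1000 := le_trans hs (by norm_num)
  have hb := h_bounds h0 (by linarith)
  have hL := log_inv_ge_23 h0 hs
  have hh0 : 0 ≤ binEntropy ε := binEntropy_nonneg h0.le (by linarith)
  set L := log ε⁻¹ with hLdef
  have hes : 0 ≤ binEntropy s := binEntropy_nonneg hs0 (by linarith)
  have h1 : 0.65 * (4 * ε * (1 - ε)) * binEntropy s ≤ 2.6 * ε * binEntropy s := by
    apply mul_le_mul_of_nonneg_right _ hes
    nlinarith
  have h2 : ε * L * (s * (1 - s)) ≤ binEntropy ε * (s * (1 - s)) :=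
    mul_le_mul_of_nonneg_right hb.1 (by nlinarith)
  refine le_trans h1 (le_trans ?_ h2)
  have h3 : 2.6 * binEntropy s ≤ L * (s * (1 - s)) := by
    by_cases c : 1 / 10 ≤ s
    · have h4 : binEntropy s ≤ log 2 := binEntropy_le_log_two
      have h5 := log_two_lt_d9
      have h6 : 9 / 100 ≤ s * (1 - s) := by nlinarith
      norm_num at h5 ⊢
      nlinarith
    · push Not at c
      have hx0 : 0 ≤ s * (1 - s) := by nlinarith
      have hs00 : 0 < s := by
        rcases eq_or_lt_of_le hs0 with h | h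
        · rw [← h] at hc
          exfalso
          have : 0 < 4 * ε * (1 - ε) := by nlinarith
          norm_num at hc
          linarith
        · exact h
      have hx1 : 0 < s * (1 - s) := by nlinarith
      obtain ⟨x, hx⟩ : ∃ x, x = s * (1 - s) := ⟨_, rfl⟩
      rw [← hx] at hc hx1 ⊢
      have hxs : x ≤ s := by rw [hx]; nlinarith
      have hxs2 : 9 / 10 * s ≤ x := by rw [hx]; nlinarith
      have h4 := be_le2 hs0 (by linarith)
      have h5 : log s⁻¹ ≤ log x⁻¹ := by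
        apply log_le_log (inv_pos.mpr hs00)
        exact inv_anti₀ hx1 hxs
      -- upper bound of log x⁻¹
      have h6 : 0.0658 * (1 - ε) ≤ (L + 1) * (4 * x) / 4 := by
        have h7 : binEntropy ε * (4 * x) ≤ ε * (L + 1) * (4 * x) :=
          mul_le_mul_of_nonneg_right hb.2 (by positivity)
        have h8 : 0.0658 * (4 * ε * (1 - ε)) < ε * (L + 1) * (4 * x) := lt_of_lt_of_le hc h7
        have h9 : ε * (4 * (0.0658 * (1 - ε))) < ε * ((L + 1) * (4 * x)) := by nlinarith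
        have h10 := lt_of_mul_lt_mul_left h9 h0.le
        linarith
      have h7 : x⁻¹ ≤ 15.3 * (L + 1) := by
        rw [inv_le_comm₀ hx1 (by positivity)]
        rw [inv_eq_one_div, div_le_iff₀ (by positivity)]
        nlinarith
      have h8 := log_le_tangent (y := x⁻¹) (c := 128) (inv_pos.mpr hx1) (by norm_num)
      have h9 : log (128 : ℝ) ≤ 4.8524 := by
        have h := log_two_lt_d9
        have h2 : log (128 : ℝ) = 7 * log 2 := by
          have : (128 : ℝ) = 2 ^ 7 := by norm_num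
          rw [this, log_pow]
          push_cast
          ring
        rw [h2]
        norm_num at h ⊢
        linarith
      have h10 : log x⁻¹ + 1 ≤ 0.12 * L + 5 := by
        have h20 : x⁻¹ / 128 ≤ 15.3 * (L + 1) / 128 := by
          apply div_le_div_of_nonneg_right h7 (by norm_num)
        have h21 : 15.3 * (L + 1) / 128 ≤ 0.12 * L + 0.12 := by
          have : (0 : ℝ) ≤ L + 1 := by linarith
          have h22 : (15.3 : ℝ) / 128 ≤ 0.12 := by norm_num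
          have h23 := mul_le_mul_of_nonneg_right h22 this
          have e : 15.3 * (L + 1) / 128 = 15.3 / 128 * (L + 1) := by ring
          rw [e]
          linarith
        linarith
      have h11 : 0 ≤ log s⁻¹ := by
        apply log_nonneg
        rw [one_le_inv₀ hs00]
        linarith
      have h12 : s * log s⁻¹ + s ≤ s * (log x⁻¹ + 1) := by nlinarith
      have h13 : s * (log x⁻¹ + 1) ≤ s * (0.12 * L + 5) :=
        mul_le_mul_of_nonneg_left h10 hs0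
      have h14 : 2.6 * (s * (0.12 * L + 5)) ≤ L * x := by
        have h15 : 2.6 * (s * (0.12 * L + 5)) ≤ L * (9 / 10 * s) := by nlinarith
        have h16 : L * (9 / 10 * s) ≤ L * x := mul_le_mul_of_nonneg_left hxs2 (by linarith)
        linarith
      linarith
  nlinarith

lemma H2 {ε m : ℝ} (h0 : 0 < ε) (hs : ε ≤ 1 / 10 ^ 10) (hm : |m| ≤ 1)
    (H : 1 / 4 * binEntropy ε * (1 - m ^ 2) < 0.65 * (4 * ε * (1 - ε)) * ent m) :
    3 / 4 * binEntropy ε * (1 - m ^ 2) + 0.65 * (4 * ε * (1 - ε)) * log 2 ≤ 4 * ε * (1 - ε) / 2 := by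
  have hε1 : ε ≤ 1 / 1000 := le_trans hs (by norm_num)
  have hm0 := abs_nonneg m
  obtain ⟨s, hsd⟩ : ∃ s, s = (1 - |m|) / 2 := ⟨_, rfl⟩
  have hv : 1 - m ^ 2 = 4 * (s * (1 - s)) := by
    rw [hsd, ← sq_abs m]
    ring
  rw [ent_eq_abs, ← hsd] at H
  rw [hv] at H ⊢
  by_contra hc
  push Not at hc
  have h5 := log_two_lt_d9
  have hκ : 0 < 4 * ε * (1 - ε) := by nlinarith
  have h6 : 0.65 * (4 * ε * (1 - ε)) * log 2 ≤ 0.65 * (4 * ε * (1 - ε)) * 0.6932 :=
    mul_le_mul_of_nonneg_left (by norm_num at h5 ⊢; linarith) (by positivity)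
  have h7 : 0.0658 * (4 * ε * (1 - ε)) < binEntropy ε * (4 * (s * (1 - s))) := by
    have : 4 * ε * (1 - ε) / 2 - 0.65 * (4 * ε * (1 - ε)) * log 2 <
        3 / 4 * binEntropy ε * (4 * (s * (1 - s))) := by linarith
    nlinarith
  have h8 := H2_aux h0 hs (by rw [hsd]; linarith) (by rw [hsd]; linarith) h7
  linarith

/-- Abstract combination for the target `k ent + 3/4 h v`. -/
lemma target_combine {κ' κ h v δ Hb w em ea l : ℝ} (hv : 0 < v) (hκ' : 0 ≤ κ')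
    (hF2 : κ' * ea + 3 / 4 * h * (v - δ ^ 2) ≤ Hb)
    (hF3 : κ * δ ^ 2 / 2 ≤ (w - Hb) * v)
    (hJ : (em - ea) * v ≤ l * δ ^ 2)
    (hH2 : 3 / 4 * h * v + κ' * l ≤ κ / 2) :
    κ' * em + 3 / 4 * h * v ≤ w := by
  have : (κ' * em + 3 / 4 * h * v) * v ≤ w * v := by
    have a1 := mul_le_mul_of_nonneg_right hF2 hv.le
    have a2 := mul_le_mul_of_nonneg_left hJ hκ'
    have a3 := mul_le_mul_of_nonneg_right hH2 (sq_nonneg δ)
    nlinarith
  exact le_of_mul_le_mul_right this hv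

/-- The hyperbola case of the target `h v`. -/
lemma hv_small {h v δ Hb w : ℝ} (hh : 0 ≤ h) (hv1 : v ≤ 1)
    (hF1 : h * (v - δ ^ 2) ≤ Hb) (hP : Hb + 2 * h * δ * δ ≤ (1 + δ ^ 2) * w) : h * v ≤ w := by
  have h1 : (1 + δ ^ 2) * (h * v) ≤ (1 + δ ^ 2) * w := by
    have h2 : 0 ≤ h * δ ^ 2 * (1 - v) := by
      apply mul_nonneg (by positivity) (by linarith)
    nlinarith
  exact le_of_mul_le_mul_left h1 (by positivity)

/-- The middle case of the target `h v`. -/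
lemma hv_mid {h v δ Hb w q : ℝ} (hh : 0 ≤ h) (hv1 : v ≤ 1)
    (hF1 : h * (v - δ ^ 2) ≤ Hb) (hP : Hb + (5 / 4 * h - q) * δ ≤ 5 / 4 * w)
    (hq : q * δ ≤ h * (1 - δ) * (δ - 1 / 4)) : h * v ≤ w := by
  have h1 : h * v ≤ h := by nlinarith
  nlinarith

/-- Values of the corner pairs. -/
lemma exp_L_sub_one {ε : ℝ} (h0 : 0 < ε) : exp (-(log ε⁻¹ - 1)) = exp 1 * ε := by
  have : -(log ε⁻¹ - 1) = 1 + log ε := by
    rw [log_inv]
    ring
  rw [this, exp_add, exp_log h0]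

lemma two_e_eps {ε : ℝ} (h0 : 0 < ε) : 2 * (exp 1 * ε) ≤ 5.44 * ε := by
  have := exp_one_lt_d9
  nlinarith

/-- The corner case of the target `h v`. -/
lemma hv_large {h κ' v δ s a q ℓ L₁ c es Hb w : ℝ} (hh : 0 ≤ h) (hv1 : v ≤ 1)
    (hs : δ = 1 - s) (hs1 : s ≤ 1 / 3) (hs0 : 0 ≤ s) (ha0 : 0 ≤ a) (haL : a * L₁ = ℓ)
    (hes : s * ℓ ≤ es) (hκL : h ≤ κ' * L₁ / 2) (hq : q = c * s) (hc : c ≤ h / 4) (hκ' : 0 ≤ κ')
    (hF : κ' * (es / 2) + 3 / 4 * h * (v - δ ^ 2) ≤ Hb)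
    (hP : Hb + ((1 + a) * h - q) * δ ≤ (1 + a) * w) : h * v ≤ w := by
  have key : (1 + a) * (h * v) ≤ (1 + a) * w := by
    have a1 : (1 / 4 + a) * h * v ≤ (1 / 4 + a) * h := by
      have : 0 ≤ (1 / 4 + a) * h := by positivity
      nlinarith
    have a2 : κ' * (s * ℓ / 2) ≤ κ' * (es / 2) := by
      apply mul_le_mul_of_nonneg_left _ hκ'
      linarith
    -- the polynomial identity
    have a3 : s * (a * (κ' * L₁ / 2 - h) + (h * (1 / 2 - 3 / 4 * s) - c * (1 - s))) ≥ 0 := by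
      apply mul_nonneg hs0
      have b1 : 0 ≤ a * (κ' * L₁ / 2 - h) := mul_nonneg ha0 (by linarith)
      have b2 : c * (1 - s) ≤ h / 4 := by
        rcases le_or_gt 0 c with h3 | h3
        · nlinarith
        · nlinarith
      nlinarith
    have a4 : s * (a * (κ' * L₁ / 2 - h) + (h * (1 / 2 - 3 / 4 * s) - c * (1 - s))) =
        κ' * (s * ℓ / 2) - 3 / 4 * h * δ ^ 2 + ((1 + a) * h - q) * δ - (1 / 4 + a) * h := by
      rw [hs, hq, ← haL]
      ring
    nlinarith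
  exact le_of_mul_le_mul_left key (by linarith)

/-- Pairs are non-negative slopes. -/
lemma corner_b_nonneg {ε a : ℝ} (h0 : 0 < ε) (hs : ε ≤ 1 / 10 ^ 10) (ha : 0 ≤ a) :
    0 ≤ (1 + a) * binEntropy ε - 2 * exp (-((1 + a) * (log ε⁻¹ - 1))) := by
  have hh := h_ge_of_L h0 hs
  have hL := log_inv_ge_23 h0 hs
  have h1 : exp (-((1 + a) * (log ε⁻¹ - 1))) ≤ exp (-(log ε⁻¹ - 1)) := by
    apply exp_le_exp.mpr
    nlinarith
  rw [exp_L_sub_one h0] at h1
  have h2 := two_e_eps h0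
  have h3 : binEntropy ε ≤ (1 + a) * binEntropy ε := by
    have : 0 ≤ a * binEntropy ε := mul_nonneg ha (by linarith)
    linarith
  linarith

/-- The lower bound `w ≥ h δ`. -/
lemma avg_WW_ge {ε : ℝ} (h0 : 0 < ε) (h1 : ε ≤ 1) {n : ℕ} (X Y : Cube n → ℝ)
    (hX : ∀ y, |X y| ≤ 1) (hY : ∀ y, |Y y| ≤ 1) :
    binEntropy ε * (|avg X - avg Y| / 2) ≤ avg (fun y => WW (1 - 2 * ε) (X y) (Y y)) := by
  have h2 : avg (fun y => binEntropy ε * |(X y - Y y) / 2|) ≤
      avg (fun y => WW (1 - 2 * ε) (X y) (Y y)) := by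
    apply avg_le_avg
    intro y
    have hU0 := abs_nonneg ((X y - Y y) / 2)
    have hU1 : |(X y - Y y) / 2| ≤ 1 := by
      have h3 := abs_mid_le (hX y) (hY y)
      have h4 := abs_nonneg ((X y + Y y) / 2)
      linarith
    exact le_trans (w0_ge_mul h0.le h1 hU0 hU1) (w0_le_WW h0.le h1 (hX y) (hY y))
  rw [avg_mul_left] at h2
  have h3 : |avg X - avg Y| / 2 ≤ avg (fun y => |(X y - Y y) / 2|) := by
    have := abs_avg_le (fun y => (X y - Y y) / 2)
    rw [avg_half_diff, abs_div, abs_two] at this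
    exact this
  have h4 := mul_le_mul_of_nonneg_left h3 (binEntropy_nonneg h0.le h1)
  linarith

lemma kappa_L_bound {ε L₁ : ℝ} (h0 : 0 < ε) (hs : ε ≤ 1 / 10 ^ 10) (hL₁ : L₁ = log ε⁻¹ - 1) :
    binEntropy ε ≤ 0.65 * (4 * ε * (1 - ε)) * L₁ / 2 := by
  have hε1 : ε ≤ 1 / 1000 := le_trans hs (by norm_num)
  have hb := h_bounds h0 (by linarith)
  have hL := log_inv_ge_23 h0 hs
  have h3 : binEntropy ε ≤ ε * (L₁ + 2) := by
    rw [hL₁]
    have := hb.2
    linarith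
  have h4 : 22 ≤ L₁ := by
    rw [hL₁]
    linarith
  have h5 : L₁ + 2 ≤ 0.65 * (4 * (1 - ε)) * L₁ / 2 := by
    have h6 : 1.29 ≤ 0.65 * (4 * (1 - ε)) / 2 := by linarith
    have h7 := mul_le_mul_of_nonneg_right h6 (by linarith : 0 ≤ L₁)
    nlinarith
  have h8 := mul_le_mul_of_nonneg_left h5 h0.le
  calc _ ≤ _ := h3
    _ ≤ _ := h8
    _ = _ := by ring

lemma s_small {L₁ s : ℝ} (hL₁ : 22 ≤ L₁) (c2 : s < exp (-(L₁ / 4))) : s ≤ 1 / 3 := by
  have h4 : exp (-1) ≤ 1 / 2.7 := by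
    rw [exp_neg, inv_eq_one_div]
    apply one_div_le_one_div_of_le (by norm_num)
    have := exp_one_gt_d9
    linarith
  have h7 : exp (-(L₁ / 4)) ≤ exp (-1 * 2) := by
    apply exp_le_exp.mpr
    linarith
  have h8 : exp (-1 * 2) = (exp (-1)) ^ 2 := by
    rw [exp_mul]
    rw [rpow_two]
  have h9 : exp (-1) ^ 2 ≤ (1 / 2.7) ^ 2 := pow_le_pow_left₀ (exp_pos _).le h4 2
  rw [h8] at h7
  have h10 := le_trans h7 h9
  have h11 : (1 / 2.7 : ℝ) ^ 2 ≤ 1 / 3 := by norm_num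
  linarith

/-- Middle case of the target `h v`. -/
lemma closure_mid {ε δ v Hb w L₁ : ℝ} (h0 : 0 < ε) (hs : ε ≤ 1 / 10 ^ 10) (hL₁ : L₁ = log ε⁻¹ - 1)
    (hv1 : v ≤ 1) (hδ1 : δ ≤ 1) (c1 : 1 / 2 < δ) (c2 : exp (-(L₁ / 4)) ≤ 1 - δ)
    (hF1 : binEntropy ε * (v - δ ^ 2) ≤ Hb)
    (hP : Hb + ((1 + 1 / 4) * binEntropy ε - 2 * exp (-((1 + 1 / 4) * L₁))) * δ ≤ (1 + 1 / 4) * w) :
    binEntropy ε * v ≤ w := by
  have hε1 : ε ≤ 1 / 1000 := le_trans hs (by norm_num)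
  have hh0 : 0 ≤ binEntropy ε := binEntropy_nonneg h0.le (by linarith)
  have hh23 := h_ge_of_L h0 hs
  have e : (1 + (1 / 4 : ℝ)) = 5 / 4 := by norm_num
  rw [e] at hP
  refine hv_mid hh0 hv1 hF1 hP ?_
  have e2 : exp (-(5 / 4 * L₁)) = exp (-L₁) * exp (-(L₁ / 4)) := by
    rw [← exp_add]
    congr 1
    ring
  rw [e2, hL₁, exp_L_sub_one h0, ← hL₁]
  have h3 := two_e_eps h0
  have h4 : 0 < exp (-(L₁ / 4)) := exp_pos _
  have h5 : 2 * (exp 1 * ε * exp (-(L₁ / 4))) ≤ binEntropy ε / 2 * (1 - δ) := by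
    have : 2 * (exp 1 * ε) ≤ binEntropy ε / 2 := by linarith
    calc 2 * (exp 1 * ε * exp (-(L₁ / 4))) = 2 * (exp 1 * ε) * exp (-(L₁ / 4)) := by ring
      _ ≤ binEntropy ε / 2 * exp (-(L₁ / 4)) := mul_le_mul_of_nonneg_right this h4.le
      _ ≤ _ := mul_le_mul_of_nonneg_left c2 (by positivity)
  have h7 : binEntropy ε / 2 * (1 - δ) * δ ≤ binEntropy ε * (1 - δ) * (δ - 1 / 4) := by
    have : 0 ≤ binEntropy ε * (1 - δ) := by
      have : 0 ≤ 1 - δ := by linarith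
      positivity
    nlinarith
  calc 2 * (exp 1 * ε * exp (-(L₁ / 4))) * δ ≤ binEntropy ε / 2 * (1 - δ) * δ :=
        mul_le_mul_of_nonneg_right h5 (by linarith)
    _ ≤ _ := h7

/-- Corner case of the target `h v`. -/
lemma closure_corner {ε δ v Hb w L₁ : ℝ} (h0 : 0 < ε) (hs : ε ≤ 1 / 10 ^ 10)
    (hL₁ : L₁ = log ε⁻¹ - 1) (hv1 : v ≤ 1) (hδ1 : δ ≤ 1)
    (c2 : 1 - δ < exp (-(L₁ / 4))) (hW : binEntropy ε * δ ≤ w)
    (hF2 : 0.65 * (4 * ε * (1 - ε)) * (binEntropy (1 - δ) / 2) +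
      3 / 4 * binEntropy ε * (v - δ ^ 2) ≤ Hb)
    (hp : ∀ a, 1 / 4 ≤ a →
      Hb + ((1 + a) * binEntropy ε - 2 * exp (-((1 + a) * L₁))) * δ ≤ (1 + a) * w) :
    binEntropy ε * v ≤ w := by
  have hε1 : ε ≤ 1 / 1000 := le_trans hs (by norm_num)
  have hh0 : 0 ≤ binEntropy ε := binEntropy_nonneg h0.le (by linarith)
  have hh23 := h_ge_of_L h0 hs
  have hL := log_inv_ge_23 h0 hs
  have hL22 : 22 ≤ L₁ := by
    rw [hL₁]
    linarith
  have hL1 : 0 < L₁ := by linarith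
  obtain ⟨s, hsd⟩ : ∃ s, s = 1 - δ := ⟨_, rfl⟩
  rw [← hsd] at c2 hF2
  have hs0 : 0 ≤ s := by rw [hsd]; linarith
  have hs3 : s ≤ 1 / 3 := s_small hL22 c2
  rcases eq_or_lt_of_le hs0 with hs00 | hs00
  · -- δ = 1
    have hδe : δ = 1 := by rw [hsd] at hs00; linarith
    rw [hδe] at hW
    nlinarith
  have hlog : L₁ / 4 < log s⁻¹ := by
    rw [log_inv]
    have : log s < -(L₁ / 4) := (log_lt_iff_lt_exp hs00).mpr c2
    linarith
  obtain ⟨ℓ, hℓ⟩ : ∃ ℓ, ℓ = log s⁻¹ := ⟨_, rfl⟩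
  rw [← hℓ] at hlog
  obtain ⟨a, ha⟩ : ∃ a, a = ℓ / L₁ := ⟨_, rfl⟩
  have haL : a * L₁ = ℓ := by
    rw [ha]
    field_simp
  have ha14 : 1 / 4 ≤ a := by
    rw [ha, le_div_iff₀ hL1]
    linarith
  have hP := hp a ha14
  have hq : 2 * exp (-((1 + a) * L₁)) = (2 * (exp 1 * ε)) * s := by
    have e1 : -((1 + a) * L₁) = -L₁ + -ℓ := by
      rw [← haL]
      ring
    rw [e1, exp_add, hℓ, log_inv, neg_neg, exp_log hs00, hL₁, exp_L_sub_one h0]
    ring
  have hc := two_e_eps h0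
  have hδs : δ = 1 - s := by rw [hsd]; ring
  refine hv_large (κ' := 0.65 * (4 * ε * (1 - ε))) (s := s) (a := a) (ℓ := ℓ) (L₁ := L₁)
    (es := binEntropy s) (c := 2 * (exp 1 * ε)) hh0 hv1 hδs hs3 hs0 (by linarith) haL ?_ ?_ hq ?_ ?_
    hF2 hP
  · rw [hℓ]
    exact be_ge_mul_log hs0 (by linarith)
  · exact kappa_L_bound h0 hs hL₁
  · linarith
  · have : 0 < 1 - ε := by linarith
    positivity

/-- Target `h v`. -/
theorem closure_h {ε : ℝ} (h0 : 0 < ε) (hs : ε ≤ 1 / 10 ^ 10) {n : ℕ} (X Y : Cube n → ℝ)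
    (hX : ∀ y, |X y| ≤ 1) (hY : ∀ y, |Y y| ≤ 1)
    (hF1 : binEntropy ε * ((1 - ((avg X + avg Y) / 2) ^ 2) - (|avg X - avg Y| / 2) ^ 2) ≤
      (avg (fun y => ent (X y)) + avg (fun y => ent (Y y))) / 2)
    (hF2 : 0.65 * (4 * ε * (1 - ε)) * (binEntropy (1 - |avg X - avg Y| / 2) / 2) +
        3 / 4 * binEntropy ε * ((1 - ((avg X + avg Y) / 2) ^ 2) - (|avg X - avg Y| / 2) ^ 2) ≤
      (avg (fun y => ent (X y)) + avg (fun y => ent (Y y))) / 2) :
    binEntropy ε * (1 - ((avg X + avg Y) / 2) ^ 2) ≤ avg (fun y => WW (1 - 2 * ε) (X y) (Y y)) := by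
  have hε1 : ε ≤ 1 / 1000 := le_trans hs (by norm_num)
  have hh0 : 0 ≤ binEntropy ε := binEntropy_nonneg h0.le (by linarith)
  have hW := avg_WW_ge h0 (by linarith) X Y hX hY
  have a1 := abs_le.mp (abs_avg_le_one hX)
  have a2 := abs_le.mp (abs_avg_le_one hY)
  have hδ1 : |avg X - avg Y| / 2 ≤ 1 := by
    rw [div_le_iff₀ (by norm_num), abs_le]
    constructor <;> linarith
  have hδ0 : 0 ≤ |avg X - avg Y| / 2 := by positivity
  have hp := fun a b (hV : Valid (1 - 2 * ε) a b) (hb : 0 ≤ b) => avg_of_valid hV hb X Y hX hY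
  have hv1 : 1 - ((avg X + avg Y) / 2) ^ 2 ≤ 1 := by
    nlinarith [sq_nonneg ((avg X + avg Y) / 2)]
  by_cases c1 : |avg X - avg Y| / 2 ≤ 1 / 2
  · have := hp _ _ (pair_hyper h0 hs c1) (by positivity)
    exact hv_small hh0 hv1 hF1 this
  push Not at c1
  have hpc : ∀ a, 1 / 4 ≤ a → (avg (fun y => ent (X y)) + avg (fun y => ent (Y y))) / 2 +
      ((1 + a) * binEntropy ε - 2 * exp (-((1 + a) * (log ε⁻¹ - 1)))) * (|avg X - avg Y| / 2) ≤
      (1 + a) * avg (fun y => WW (1 - 2 * ε) (X y) (Y y)) := fun a ha =>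
    hp _ _ (pair_corner (a := a) h0 hs ha) (corner_b_nonneg h0 hs (by linarith))
  by_cases c2 : exp (-((log ε⁻¹ - 1) / 4)) ≤ 1 - |avg X - avg Y| / 2
  · exact closure_mid h0 hs rfl hv1 hδ1 c1 c2 hF1 (hpc _ (le_refl _))
  · push Not at c2
    exact closure_corner h0 hs rfl hv1 hδ1 c2 hW hF2 hpc

/-- The closure property of the Bellman function. -/
theorem closure_BB {ε : ℝ} (h0 : 0 < ε) (hs : ε ≤ 1 / 10 ^ 10) {n : ℕ} (X Y : Cube n → ℝ)
    (hX : ∀ y, |X y| ≤ 1) (hY : ∀ y, |Y y| ≤ 1)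
    (hA : BB ε (avg X) ≤ avg (fun y => ent (X y)))
    (hB : BB ε (avg Y) ≤ avg (fun y => ent (Y y))) :
    BB ε ((avg X + avg Y) / 2) ≤ avg (fun y => WW (1 - 2 * ε) (X y) (Y y)) := by
  have hε1 : ε ≤ 1 / 1000 := le_trans hs (by norm_num)
  have hκ0 : 0 ≤ 0.65 * (4 * ε * (1 - ε)) := by
    have : 0 < 1 - ε := by linarith
    positivity
  have a1 := abs_avg_le_one hX
  have a2 := abs_avg_le_one hY
  have hmid := abs_mid_le a1 a2
  have hA1 := le_trans (le_max_left _ _) hA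
  have hA2 := le_trans (le_max_right _ _) hA
  have hB1 := le_trans (le_max_left _ _) hB
  have hB2 := le_trans (le_max_right _ _) hB
  have e1 : (1 - avg X ^ 2 + (1 - avg Y ^ 2)) / 2 =
      (1 - ((avg X + avg Y) / 2) ^ 2) - (|avg X - avg Y| / 2) ^ 2 := by
    rw [div_pow, div_pow, sq_abs]
    ring
  have hg := ent_add_ge a1 a2
  have hF1 : binEntropy ε * ((1 - ((avg X + avg Y) / 2) ^ 2) - (|avg X - avg Y| / 2) ^ 2) ≤
      (avg (fun y => ent (X y)) + avg (fun y => ent (Y y))) / 2 := by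
    rw [← e1]
    linarith
  have hF2' : 0.65 * (4 * ε * (1 - ε)) * ((ent (avg X) + ent (avg Y)) / 2) +
        3 / 4 * binEntropy ε * ((1 - ((avg X + avg Y) / 2) ^ 2) - (|avg X - avg Y| / 2) ^ 2) ≤
      (avg (fun y => ent (X y)) + avg (fun y => ent (Y y))) / 2 := by
    rw [← e1]
    linarith
  have hF2 : 0.65 * (4 * ε * (1 - ε)) * (binEntropy (1 - |avg X - avg Y| / 2) / 2) +
        3 / 4 * binEntropy ε * ((1 - ((avg X + avg Y) / 2) ^ 2) - (|avg X - avg Y| / 2) ^ 2) ≤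
      (avg (fun y => ent (X y)) + avg (fun y => ent (Y y))) / 2 := by
    have := mul_le_mul_of_nonneg_left (div_le_div_of_nonneg_right hg (by norm_num : (0 : ℝ) ≤ 2)) hκ0
    linarith
  have hcl := closure_h h0 hs X Y hX hY hF1 hF2
  unfold BB
  apply max_le hcl
  -- the second target
  have hT3 := avg_T3 (ρ := 1 - 2 * ε) (by linarith) (by linarith) X Y hX hY
  have hκ : 1 - (1 - 2 * ε) ^ 2 = 4 * ε * (1 - ε) := by ring
  rw [hκ] at hT3
  have hδ0 : 0 ≤ |avg X - avg Y| / 2 := by positivity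
  have e2 : |(avg X - avg Y) / 2| = |avg X - avg Y| / 2 := by
    rw [abs_div, abs_two]
  rw [e2] at hmid
  have hea := ent_add_eq_abs (avg X) (avg Y)
  rw [e2] at hea
  obtain ⟨m, hm⟩ : ∃ m, m = (avg X + avg Y) / 2 := ⟨_, rfl⟩
  obtain ⟨δ, hδ⟩ : ∃ δ, δ = |avg X - avg Y| / 2 := ⟨_, rfl⟩
  rw [← hm, ← hδ] at hea hmid hF2' hT3
  rw [← hm] at hcl ⊢
  rw [← hδ] at hδ0
  by_cases H : 1 / 4 * binEntropy ε * (1 - m ^ 2) < 0.65 * (4 * ε * (1 - ε)) * ent m
  · have hm1 : |m| < 1 := by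
      by_contra hc
      push Not at hc
      have hm2 : |m| = 1 := le_antisymm (by linarith) hc
      have hm3 : m ^ 2 = 1 := by
        rw [← sq_abs, hm2]
        norm_num
      have hm4 : ent m = 0 := by
        rw [ent_eq_abs, hm2]
        norm_num
      rw [hm3, hm4] at H
      norm_num at H
    have hv0 : 0 < 1 - m ^ 2 := by
      have h3 : m ^ 2 < 1 := by
        rw [← sq_abs]
        have := abs_nonneg m
        nlinarith
      linarith
    have hH2 := H2 h0 hs (le_of_lt hm1) H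
    have hJ := J_bound hm1 hδ0 hmid
    refine target_combine (κ := 4 * ε * (1 - ε)) (ea := (ent (m + δ) + ent (m - δ)) / 2) (l := log 2)
      (δ := δ) (Hb := (avg (fun y => ent (X y)) + avg (fun y => ent (Y y))) / 2) hv0 hκ0 ?_ hT3 hJ hH2
    rw [← hea]
    exact hF2'
  · push Not at H
    have h3 : 0.65 * (4 * ε * (1 - ε)) * ent m + 3 / 4 * binEntropy ε * (1 - m ^ 2) ≤
        binEntropy ε * (1 - m ^ 2) := by
      nlinarith
    exact le_trans h3 hcl

/-- Conditional entropy bound for Boolean functions. -/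
theorem BB_le_Hn {ε : ℝ} (h0 : 0 < ε) (hs : ε ≤ 1 / 10 ^ 10) {n : ℕ} (F : Cube n → ℝ)
    (hF : ∀ x, F x = 1 ∨ F x = -1) : BB ε (avg F) ≤ Hn F (1 - 2 * ε) := by
  have hε1 : ε ≤ 1 / 1000 := le_trans hs (by norm_num)
  have hρ : |1 - 2 * ε| < 1 := by
    rw [abs_lt]
    constructor <;> linarith
  exact main_of_closure hρ BB_one BB_neg_one
    (fun n X Y hX hY hA hB => closure_BB h0 hs X Y hX hY hA hB) n F hF

/-- The exact Courtade-Kumar bound for tiny noise. -/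
theorem mutualInfo_le_tiny {n : ℕ} (f : (Fin n → Bool) → Bool) {ε : ℝ} (h0 : 0 < ε)
    (hs : ε ≤ 1 / 10 ^ 10) : mutualInfo f ε ≤ 1 - binEntropy ε / log 2 := by
  have hε1 : ε ≤ 1 / 1000 := le_trans hs (by norm_num)
  have hl : 0 < log 2 := log_pos (by norm_num)
  have h1 := mutualInfo_eq f h0 (by linarith)
  have h2 := BB_le_Hn h0 hs (sgnF f) (sgnF_cases f)
  have h3 := le_trans (le_max_left _ _) h2
  have h4 := ent_upper (avg_sgnF_abs f)
  have h5 : binEntropy ε ≤ 1 / 2 := by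
    have h6 := (h_bounds h0 (by linarith)).2
    have h7 := eps_mul_log_le h0 hs
    linarith
  have h8 : mutualInfo f ε * log 2 ≤ log 2 - binEntropy ε := by
    rw [h1]
    have h9 : 0 ≤ avg (sgnF f) ^ 2 := sq_nonneg _
    nlinarith
  have e : (1 - binEntropy ε / log 2) = (log 2 - binEntropy ε) / log 2 := by
    field_simp
  rw [e, le_div_iff₀ hl]
  exact h8

end Vale.Agent.P322
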