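import Vale.Agent.P322.Ent

open Real Finset

namespace Vale.Agent.P322

/-- The discrete cube. -/
abbrev Cube (n : ℕ) := Fin n → Bool

/-- Flip one coordinate. -/
def flipAt {n : ℕ} (i : Fin n) (x : Cube n) : Cube n := Function.update x i (!x i)

/-- Average over the cube. -/
noncomputable def avg {n : ℕ} (f : Cube n → ℝ) : ℝ := (∑ x, f x) / 2 ^ n

/-- The entropic Dirichlet form. -/
noncomputable def Dir {n : ℕ} (w : Cube n → ℝ) : ℝ :=
  ∑ i, avg (fun x => K (w x) (w (flipAt i x)))

/-- Prepend a coordinate. -/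
def cons' {n : ℕ} (b : Bool) (y : Cube n) : Cube (n + 1) := Fin.cons b y

lemma sum_succ {n : ℕ} (f : Cube (n + 1) → ℝ) :
    ∑ x, f x = ∑ y, f (cons' true y) + ∑ y, f (cons' false y) := by
  rw [← (Fin.consEquiv (fun _ => Bool)).sum_comp f, Fintype.sum_prod_type, Fintype.sum_bool]
  rfl

lemma avg_succ {n : ℕ} (f : Cube (n + 1) → ℝ) :
    avg f = (avg (fun y => f (cons' true y)) + avg (fun y => f (cons' false y))) / 2 := by
  unfold avg
  rw [sum_succ]
  rw [pow_succ]
  have : (2 : ℝ) ^ n ≠ 0 := by positivity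
  field_simp

lemma flipAt_cons_zero {n : ℕ} (b : Bool) (y : Cube n) :
    flipAt 0 (cons' b y) = cons' (!b) y := by
  unfold flipAt cons'
  simp

lemma flipAt_cons_succ {n : ℕ} (i : Fin n) (b : Bool) (y : Cube n) :
    flipAt i.succ (cons' b y) = cons' b (flipAt i y) := by
  unfold flipAt cons'
  simp [Fin.cons_update]

lemma Dir_succ {n : ℕ} (w : Cube (n + 1) → ℝ) :
    Dir w = (Dir (fun y => w (cons' true y)) + Dir (fun y => w (cons' false y))) / 2 +
      avg (fun y => K (w (cons' true y)) (w (cons' false y))) := by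
  unfold Dir
  rw [Fin.sum_univ_succ]
  have h0 : avg (fun x => K (w x) (w (flipAt 0 x))) =
      avg (fun y => K (w (cons' true y)) (w (cons' false y))) := by
    rw [avg_succ]
    simp only [flipAt_cons_zero]
    have : (fun y : Cube n => K (w (cons' false y)) (w (cons' (!false) y))) =
        fun y => K (w (cons' true y)) (w (cons' false y)) := by
      funext y
      rw [K_symm]
      rfl
    rw [this]
    have : (fun y : Cube n => K (w (cons' true y)) (w (cons' (!true) y))) =
        fun y => K (w (cons' true y)) (w (cons' false y)) := by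
      funext y
      rfl
    rw [this]
    ring
  rw [h0]
  have h1 : ∀ i : Fin n, avg (fun x => K (w x) (w (flipAt i.succ x))) =
      (avg (fun y => K (w (cons' true y)) (w (cons' true (flipAt i y)))) +
        avg (fun y => K (w (cons' false y)) (w (cons' false (flipAt i y))))) / 2 := by
    intro i
    rw [avg_succ]
    simp only [flipAt_cons_succ]
  simp only [h1]
  rw [← Finset.sum_div, Finset.sum_add_distrib]
  ring

lemma avg_nonneg {n : ℕ} {f : Cube n → ℝ} (h : ∀ x, 0 ≤ f x) : 0 ≤ avg f := by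
  unfold avg
  exact div_nonneg (sum_nonneg fun x _ => h x) (by positivity)

lemma avg_pos {n : ℕ} {f : Cube n → ℝ} (h : ∀ x, 0 < f x) : 0 < avg f := by
  unfold avg
  exact div_pos (sum_pos (fun x _ => h x) univ_nonempty) (by positivity)

lemma avg_le_avg {n : ℕ} {f g : Cube n → ℝ} (h : ∀ x, f x ≤ g x) : avg f ≤ avg g := by
  unfold avg
  exact div_le_div_of_nonneg_right (sum_le_sum fun x _ => h x) (by positivity)

lemma avg_const {n : ℕ} (c : ℝ) : avg (fun _ : Cube n => c) = c := by
  unfold avg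
  simp [Finset.card_univ]

lemma abs_avg_le {n : ℕ} (f : Cube n → ℝ) : |avg f| ≤ avg (fun x => |f x|) := by
  unfold avg
  rw [abs_div, abs_of_pos (by positivity : (0 : ℝ) < 2 ^ n)]
  exact div_le_div_of_nonneg_right (Finset.abs_sum_le_sum_abs _ _) (by positivity)

lemma avg_sub {n : ℕ} (f g : Cube n → ℝ) : avg (fun x => f x - g x) = avg f - avg g := by
  unfold avg
  rw [sum_sub_distrib, sub_div]

lemma avg_add {n : ℕ} (f g : Cube n → ℝ) : avg (fun x => f x + g x) = avg f + avg g := by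
  unfold avg
  rw [sum_add_distrib, add_div]

lemma avg_mul_left {n : ℕ} (c : ℝ) (f : Cube n → ℝ) : avg (fun x => c * f x) = c * avg f := by
  unfold avg
  rw [← mul_sum, mul_div_assoc]

lemma abs_avg_lt_one {n : ℕ} {w : Cube n → ℝ} (hw : ∀ x, |w x| < 1) : |avg w| ≤ 1 := by
  refine le_trans (abs_avg_le w) ?_
  rw [← avg_const (n := n) 1]
  exact avg_le_avg fun x => (hw x).le

lemma Dir_nonneg {n : ℕ} {w : Cube n → ℝ} (hw : ∀ x, |w x| < 1) : 0 ≤ Dir w := by
  unfold Dir
  exact sum_nonneg fun i _ => avg_nonneg fun x => K_nonneg (hw x) (hw _)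

/-- Superadditivity of the perspective function. -/
lemma LL_sum_le {ι : Type*} (s : Finset ι) (hs : s.Nonempty) {κ : ℝ} (hκ : 0 < κ) (W Z : ι → ℝ)
    (hW : ∀ i ∈ s, 0 ≤ W i) (hZ : ∀ i ∈ s, 0 < Z i) :
    LL κ (∑ i ∈ s, W i) (∑ i ∈ s, Z i) ≤ ∑ i ∈ s, LL κ (W i) (Z i) := by
  set Ws := ∑ i ∈ s, W i with hWsdef
  set Zs := ∑ i ∈ s, Z i with hZsdef
  have hZs : 0 < Zs := sum_pos hZ hs
  have hWs : 0 ≤ Ws := sum_nonneg hW
  set v₀ := Ws / Zs with hv₀def
  have hv₀ : 0 ≤ v₀ := div_nonneg hWs hZs.le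
  set L := log (1 + κ * v₀) with hL
  set c := L + κ * v₀ / (1 + κ * v₀) with hc
  have hpt : ∀ i ∈ s, Z i * (v₀ * L) + c * (W i - v₀ * Z i) ≤ LL κ (W i) (Z i) := by
    intro i hi
    have hZi := hZ i hi
    have ht := tangent_ineq hκ (div_nonneg (hW i hi) hZi.le) hv₀
    have hm := mul_le_mul_of_nonneg_left ht hZi.le
    have e1 : Z i * (v₀ * log (1 + κ * v₀) + (log (1 + κ * v₀) + κ * v₀ / (1 + κ * v₀)) * (W i / Z i - v₀))
        = Z i * (v₀ * L) + c * (W i - v₀ * Z i) := by
      rw [← hL, ← hc]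
      field_simp
    have e2 : Z i * (W i / Z i * log (1 + κ * (W i / Z i))) = LL κ (W i) (Z i) := by
      unfold LL
      rw [mul_div_assoc']
      field_simp
    rwa [e1, e2] at hm
  have hsum := Finset.sum_le_sum hpt
  have e3 : ∑ i ∈ s, (Z i * (v₀ * L) + c * (W i - v₀ * Z i)) =
      Zs * (v₀ * L) + c * (Ws - v₀ * Zs) := by
    rw [sum_add_distrib, ← sum_mul, ← mul_sum, sum_sub_distrib, ← mul_sum]
  rw [e3] at hsum
  have e4 : v₀ * Zs = Ws := div_mul_cancel₀ _ hZs.ne'
  have e5 : LL κ Ws Zs = Zs * (v₀ * L) + c * (Ws - v₀ * Zs) := by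
    rw [e4, sub_self, mul_zero, add_zero]
    unfold LL
    rw [hL, hv₀def, mul_div_assoc]
    field_simp
  rw [e5]
  exact hsum

lemma LL_smul {κ c t H : ℝ} (hc : 0 < c) (hH : 0 < H) : LL κ (c * t) (c * H) = c * LL κ t H := by
  unfold LL
  have : κ * (c * t) / (c * H) = κ * t / H := by field_simp
  rw [this]
  ring

lemma LL_mono {κ t t' H H' : ℝ} (hκ : 0 < κ) (ht : 0 ≤ t) (htt : t ≤ t') (hH' : 0 < H')
    (hHH : H' ≤ H) : LL κ t H ≤ LL κ t' H' := by
  unfold LL
  have hH : 0 < H := lt_of_lt_of_le hH' hHH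
  have h1 : κ * t / H ≤ κ * t' / H' := by
    have ht' : 0 ≤ t' := le_trans ht htt
    apply div_le_div₀ (mul_nonneg hκ.le ht') (mul_le_mul_of_nonneg_left htt hκ.le) hH' hHH
  have h2 : 0 ≤ κ * t / H := by positivity
  have h3 : log (1 + κ * t / H) ≤ log (1 + κ * t' / H') :=
    log_le_log (by linarith) (by linarith)
  have h4 : 0 ≤ log (1 + κ * t / H) := log_nonneg (by linarith)
  exact mul_le_mul htt h3 h4 (le_trans ht htt)

/-- Jensen step: the averaged lower bound for `K`. -/
lemma avg_K_lower {n : ℕ} (X Y : Cube n → ℝ) (hX : ∀ y, |X y| < 1) (hY : ∀ y, |Y y| < 1) :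
    2 * LL (4 / 3) (|avg X - avg Y| / 2) (√(avg (fun y => ent (X y)) * avg (fun y => ent (Y y)))) ≤
      avg (fun y => K (X y) (Y y)) := by
  have hκ : (0 : ℝ) < 4 / 3 := by norm_num
  have hN : (0 : ℝ) < 2 ^ n := by positivity
  set c : ℝ := (2 ^ n)⁻¹ with hc
  have hcpos : 0 < c := by positivity
  set W : Cube n → ℝ := fun y => |X y - Y y| / 2 with hW
  set Z : Cube n → ℝ := fun y => √(ent (X y) * ent (Y y)) with hZ
  have hZpos : ∀ y, 0 < Z y := fun y =>
    Real.sqrt_pos.mpr (mul_pos (ent_pos (hX y)) (ent_pos (hY y)))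
  have hWnn : ∀ y, 0 ≤ W y := fun y => by positivity
  have hpt : ∀ y, 2 * LL (4 / 3) (W y) (Z y) ≤ K (X y) (Y y) := fun y => K_lower (hX y) (hY y)
  have hsum : LL (4 / 3) (∑ y, W y) (∑ y, Z y) ≤ ∑ y, LL (4 / 3) (W y) (Z y) :=
    LL_sum_le univ univ_nonempty hκ W Z (fun y _ => hWnn y) (fun y _ => hZpos y)
  have hZs : 0 < ∑ y, Z y := sum_pos (fun y _ => hZpos y) univ_nonempty
  -- pass to averages
  have havgW : avg W = c * ∑ y, W y := by
    unfold avg
    rw [hc]
    field_simp
  have havgZ : avg Z = c * ∑ y, Z y := by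
    unfold avg
    rw [hc]
    field_simp
  have h1 : LL (4 / 3) (avg W) (avg Z) ≤ avg (fun y => LL (4 / 3) (W y) (Z y)) := by
    rw [havgW, havgZ, LL_smul hcpos hZs]
    have : avg (fun y => LL (4 / 3) (W y) (Z y)) = c * ∑ y, LL (4 / 3) (W y) (Z y) := by
      unfold avg
      rw [hc]
      field_simp
    rw [this]
    exact mul_le_mul_of_nonneg_left hsum hcpos.le
  have h2 : 2 * avg (fun y => LL (4 / 3) (W y) (Z y)) ≤ avg (fun y => K (X y) (Y y)) := by
    rw [← avg_mul_left]
    exact avg_le_avg hpt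
  -- comparison of the arguments
  have hδ : |avg X - avg Y| / 2 ≤ avg W := by
    have h3 : avg W = avg (fun y => |X y - Y y|) / 2 := by
      have : W = fun y => (1 / 2) * |X y - Y y| := by
        funext y
        rw [hW]
        ring
      rw [this, avg_mul_left]
      ring
    rw [h3, ← avg_sub]
    have := abs_avg_le (fun y => X y - Y y)
    linarith
  have hZle : avg Z ≤ √(avg (fun y => ent (X y)) * avg (fun y => ent (Y y))) := by
    have hcs := Real.sum_sqrt_mul_sqrt_le (univ : Finset (Cube n))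
      (f := fun y => ent (X y)) (g := fun y => ent (Y y))
      (fun y => (ent_pos (hX y)).le) (fun y => (ent_pos (hY y)).le)
    have hZeq : ∀ y, Z y = √(ent (X y)) * √(ent (Y y)) := fun y =>
      Real.sqrt_mul (ent_pos (hX y)).le _
    have e1 : ∑ y, Z y = ∑ y, √(ent (X y)) * √(ent (Y y)) := sum_congr rfl fun y _ => hZeq y
    have hfn : 0 ≤ ∑ y, ent (X y) := sum_nonneg fun y _ => (ent_pos (hX y)).le
    have hgn : 0 ≤ ∑ y, ent (Y y) := sum_nonneg fun y _ => (ent_pos (hY y)).le
    have e2 : √(avg (fun y => ent (X y)) * avg (fun y => ent (Y y))) =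
        c * (√(∑ y, ent (X y)) * √(∑ y, ent (Y y))) := by
      have : avg (fun y => ent (X y)) * avg (fun y => ent (Y y)) =
          c ^ 2 * ((∑ y, ent (X y)) * (∑ y, ent (Y y))) := by
        unfold avg
        rw [hc]
        field_simp
      rw [this, Real.sqrt_mul (by positivity), Real.sqrt_sq hcpos.le, Real.sqrt_mul hfn]
    rw [e2, havgZ, e1]
    exact mul_le_mul_of_nonneg_left hcs hcpos.le
  have hZavgpos : 0 < avg Z := avg_pos hZpos
  have h3 := LL_mono hκ (by positivity) hδ hZavgpos hZle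
  linarith

/-- **The Bellman inequality.** -/
theorem bellman : ∀ (n : ℕ) (w : Cube n → ℝ), (∀ x, |w x| < 1) →
    G (avg w) (avg (fun x => ent (w x))) ≤ Dir w := by
  intro n
  induction n with
  | zero =>
    intro w hw
    have h1 : avg w = w default := by
      unfold avg
      simp
      exact congrArg w (Subsingleton.elim _ _)
    have h2 : avg (fun x => ent (w x)) = ent (w default) := by
      unfold avg
      simp
      exact congrArg (fun z => ent (w z)) (Subsingleton.elim _ _)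
    have h3 : Dir w = 0 := by
      unfold Dir
      simp
    rw [h1, h2, h3]
    exact G_base (hw _)
  | succ n ih =>
    intro w hw
    set w₁ : Cube n → ℝ := fun y => w (cons' true y) with hw₁
    set w₂ : Cube n → ℝ := fun y => w (cons' false y) with hw₂
    have hw₁b : ∀ y, |w₁ y| < 1 := fun y => hw _
    have hw₂b : ∀ y, |w₂ y| < 1 := fun y => hw _
    have ih₁ := ih w₁ hw₁b
    have ih₂ := ih w₂ hw₂b
    have hD := Dir_succ w
    rw [← hw₁, ← hw₂] at hD
    have hmean : avg w = (avg w₁ + avg w₂) / 2 := avg_succ w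
    have hent : avg (fun x => ent (w x)) =
        (avg (fun y => ent (w₁ y)) + avg (fun y => ent (w₂ y))) / 2 := avg_succ _
    rw [hmean, hent]
    set H₁ := avg (fun y => ent (w₁ y)) with hH₁
    set H₂ := avg (fun y => ent (w₂ y)) with hH₂
    have hH₁pos : 0 < H₁ := avg_pos fun y => ent_pos (hw₁b y)
    have hH₂pos : 0 < H₂ := avg_pos fun y => ent_pos (hw₂b y)
    have hH₁le : H₁ ≤ 7 / 10 := by
      rw [← avg_const (n := n) (7 / 10)]
      exact avg_le_avg fun y => ent_le _
    have hH₂le : H₂ ≤ 7 / 10 := by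
      rw [← avg_const (n := n) (7 / 10)]
      exact avg_le_avg fun y => ent_le _
    by_cases hpos : 0 < G ((avg w₁ + avg w₂) / 2) ((H₁ + H₂) / 2)
    · have hstep := G_step (abs_avg_lt_one hw₁b) (abs_avg_lt_one hw₂b) hH₁pos hH₂pos hH₁le hH₂le hpos
      have hK := avg_K_lower w₁ w₂ hw₁b hw₂b
      rw [← hH₁, ← hH₂] at hK
      rw [hD]
      linarith
    · have := Dir_nonneg hw
      linarith

end Vale.Agent.P322
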