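import Vale.Agent.P322.Bellman

open Real

namespace Vale.Agent.P322

/-- Entropy (in nats) of a `±1` variable with mean `x`. -/
noncomputable def ent (x : ℝ) : ℝ := binEntropy ((1 + x) / 2)

/-- The inverse hyperbolic tangent. -/
noncomputable def A (x : ℝ) : ℝ := (log (1 + x) - log (1 - x)) / 2

/-- The Dirichlet integrand. -/
noncomputable def K (x y : ℝ) : ℝ := (A x - A y) * (x - y)

lemma K_symm (x y : ℝ) : K x y = K y x := by
  unfold K
  ring

lemma ent_pos {x : ℝ} (hx : |x| < 1) : 0 < ent x := by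
  have h := abs_lt.mp hx
  exact binEntropy_pos (by linarith) (by linarith)

lemma ent_le (x : ℝ) : ent x ≤ 7 / 10 := by
  have h1 : ent x ≤ log 2 := binEntropy_le_log_two
  have h2 := Real.log_two_lt_d9
  linarith

lemma log_inv_lower {p : ℝ} (hp : 0 < p) (hp1 : p < 1) :
    2 * (1 - p) / (1 + p) ≤ log p⁻¹ := by
  have h := Real.le_log_one_add_of_nonneg (x := (1 - p) / p) (by
    apply div_nonneg <;> linarith)
  have e1 : 1 + (1 - p) / p = p⁻¹ := by field_simp; ring
  have e2 : 2 * ((1 - p) / p) / ((1 - p) / p + 2) = 2 * (1 - p) / (1 + p) := by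
    have e3 : (1 - p) / p + 2 = (1 + p) / p := by field_simp; ring
    rw [e3]
    field_simp
  rwa [e1, e2] at h

lemma binEntropy_lower {p : ℝ} (hp : 0 < p) (hp1 : p < 1) :
    8 / 3 * (p * (1 - p)) ≤ binEntropy p := by
  have h1 := log_inv_lower hp hp1
  have h2 := log_inv_lower (p := 1 - p) (by linarith) (by linarith)
  have h3 := mul_le_mul_of_nonneg_left h1 hp.le
  have h4 := mul_le_mul_of_nonneg_left h2 (by linarith : 0 ≤ 1 - p)
  unfold binEntropy
  have e1 : p * (2 * (1 - p) / (1 + p)) + (1 - p) * (2 * (1 - (1 - p)) / (1 + (1 - p)))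
      = (p * (1 - p)) * (6 / ((1 + p) * (2 - p))) := by
    have h5 : (1 + (1 - p)) = 2 - p := by ring
    have h6 : (2 - p) ≠ 0 := by linarith
    have h7 : (1 + p) ≠ 0 := by linarith
    rw [h5]
    field_simp
    ring
  have h8 : 8 / 3 ≤ 6 / ((1 + p) * (2 - p)) := by
    have h9 : 0 < (1 + p) * (2 - p) := mul_pos (by linarith) (by linarith)
    rw [le_div_iff₀ h9]
    nlinarith [sq_nonneg (p - 1 / 2)]
  have h10 : 0 ≤ p * (1 - p) := mul_nonneg hp.le (by linarith)
  have h11 := mul_le_mul_of_nonneg_left h8 h10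
  linarith

lemma ent_lower {x : ℝ} (hx : |x| < 1) : 2 / 3 * (1 - x ^ 2) ≤ ent x := by
  have h := abs_lt.mp hx
  have h1 := binEntropy_lower (p := (1 + x) / 2) (by linarith) (by linarith)
  unfold ent
  have e : 8 / 3 * ((1 + x) / 2 * (1 - (1 + x) / 2)) = 2 / 3 * (1 - x ^ 2) := by ring
  linarith

/-- Pointwise lower bound for `K` when `y < x`. -/
lemma K_lower_aux {x y : ℝ} (hx : |x| < 1) (hy : |y| < 1) (hxy : y < x) :
    2 * LL (4 / 3) (|x - y| / 2) (√(ent x * ent y)) ≤ K x y := by
  have hx' := abs_lt.mp hx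
  have hy' := abs_lt.mp hy
  have hd : |x - y| / 2 = (x - y) / 2 := by rw [abs_of_pos (by linarith)]
  rw [hd]
  set P := (1 + x) * (1 - y) with hP
  set Q := (1 - x) * (1 + y) with hQ
  have hPpos : 0 < P := mul_pos (by linarith) (by linarith)
  have hQpos : 0 < Q := mul_pos (by linarith) (by linarith)
  set n := √(P * Q) with hn
  have hnpos : 0 < n := Real.sqrt_pos.mpr (by positivity)
  have hnsq : n * n = P * Q := Real.mul_self_sqrt (by positivity)
  have hA : A x - A y = log P - log n := by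
    unfold A
    rw [hn, log_sqrt_mul hPpos hQpos, hP, hQ, log_mul (by linarith) (by linarith),
      log_mul (by linarith) (by linarith)]
    ring
  -- `n ≤ 1 - x y`
  have hn1 : n ≤ 1 - x * y := by
    rw [hn, Real.sqrt_le_iff]
    constructor
    · nlinarith
    · rw [hP, hQ]
      nlinarith [sq_nonneg (x - y)]
  have hPn : n + (x - y) ≤ P := by
    rw [hP]
    nlinarith
  -- lower bound for `z`
  have hex := ent_lower hx
  have hey := ent_lower hy
  have hexp := ent_pos hx
  have heyp := ent_pos hy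
  set z := √(ent x * ent y) with hz
  have hzpos : 0 < z := Real.sqrt_pos.mpr (by positivity)
  have hzn : 2 / 3 * n ≤ z := by
    rw [hz]
    apply Real.le_sqrt_of_sq_le
    have e : (2 / 3 * n) ^ 2 = (2 / 3 * (1 - x ^ 2)) * (2 / 3 * (1 - y ^ 2)) := by
      have : n ^ 2 = P * Q := by rw [sq]; exact hnsq
      rw [mul_pow, this, hP, hQ]
      ring
    rw [e]
    apply mul_le_mul hex hey _ hexp.le
    nlinarith
  -- the logarithm comparison
  have hlog : log (1 + 4 / 3 * ((x - y) / 2) / z) ≤ log P - log n := by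
    rw [← log_div hPpos.ne' hnpos.ne']
    apply log_le_log (by
      have : 0 ≤ 4 / 3 * ((x - y) / 2) / z := by
        apply div_nonneg _ hzpos.le
        linarith
      linarith)
    have h1 : 4 / 3 * ((x - y) / 2) / z ≤ (x - y) / n := by
      rw [div_le_div_iff₀ hzpos hnpos]
      nlinarith
    have h2 : 1 + (x - y) / n ≤ P / n := by
      rw [le_div_iff₀ hnpos]
      have : (1 + (x - y) / n) * n = n + (x - y) := by
        field_simp
      rw [this]
      exact hPn
    linarith
  unfold K LL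
  rw [hA]
  have h3 := mul_le_mul_of_nonneg_left hlog (by linarith : 0 ≤ x - y)
  linarith

/-- Pointwise lower bound for `K`. -/
lemma K_lower {x y : ℝ} (hx : |x| < 1) (hy : |y| < 1) :
    2 * LL (4 / 3) (|x - y| / 2) (√(ent x * ent y)) ≤ K x y := by
  rcases lt_trichotomy x y with h | h | h
  · have := K_lower_aux hy hx h
    rw [K_symm, abs_sub_comm, mul_comm (ent x)]
    exact this
  · subst h
    simp [LL, K]
  · exact K_lower_aux hx hy h

lemma K_nonneg {x y : ℝ} (hx : |x| < 1) (hy : |y| < 1) : 0 ≤ K x y := by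
  have h := K_lower hx hy
  have h2 : 0 ≤ LL (4 / 3) (|x - y| / 2) (√(ent x * ent y)) :=
    LL_nonneg (by norm_num) (by positivity)
      (Real.sqrt_pos.mpr (mul_pos (ent_pos hx) (ent_pos hy)))
  linarith

/-- Base case of the induction: `G x (ent x) ≤ 0`. -/
lemma G_base {x : ℝ} (hx : |x| < 1) : G x (ent x) ≤ 0 := by
  have hpos := ent_pos hx
  have hlow := ent_lower hx
  set H := ent x with hH
  set s := |x| with hs
  have hs0 : 0 ≤ s := abs_nonneg x
  have hsq : x ^ 2 = s ^ 2 := by rw [hs, sq_abs]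
  rw [hsq] at hlow
  have hs2 : 0 < 1 - s ^ 2 := by nlinarith
  unfold G
  rw [← hs]
  -- reduce to the real inequality
  suffices hmain : log ((3 / 5) / H) ≤ LL (4 / 3) s H by linarith
  set v := 1 - s ^ 2 with hv
  -- `r = κ / H`, `R = 2 / v`, `τ = r / R = (2/3) v / H ≤ 1`
  set τ := (2 / 3 * v) / H with hτ
  have hτpos : 0 < τ := by positivity
  have hτ1 : τ ≤ 1 := by
    rw [hτ, div_le_one hpos]
    exact hlow
  have hτlog : log τ ≤ 0 := log_nonpos hτpos.le hτ1
  have hCH : (3 / 5) / H = τ * (9 / 10 / v) := by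
    rw [hτ]
    field_simp
    ring
  have hlogCH : log ((3 / 5) / H) ≤ log τ - log v := by
    rw [hCH, log_mul hτpos.ne' (by positivity), log_div (by norm_num) hs2.ne']
    · have : log (9 / 10 : ℝ) ≤ 0 := log_nonpos (by norm_num) (by norm_num)
      linarith
  -- the LL side
  have hLL : LL (4 / 3) s H = s * log (1 + 4 / 3 * s / H) := rfl
  have h1 : 1 + 4 / 3 * s / H = 1 + τ * (2 * s / v) := by
    rw [hτ]
    field_simp
    ring
  have hq : 0 ≤ 2 * s / v := by positivity
  have h2 : τ * (1 + 2 * s / v) ≤ 1 + τ * (2 * s / v) := by nlinarith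
  have h3 : log τ + log (1 + 2 * s / v) ≤ log (1 + 4 / 3 * s / H) := by
    rw [h1, ← log_mul hτpos.ne' (by positivity)]
    exact log_le_log (by positivity) h2
  have hs1 : s ≤ 1 := by nlinarith
  have h4 := mul_le_mul_of_nonneg_left h3 hs0
  have h5 : log τ ≤ s * log τ := by nlinarith
  -- `s log (1 + 2 s / v) ≥ - log v`
  have e6 : 1 + 2 * s / v = (v + 2 * s) / v := by field_simp
  have hw : 0 < v + 2 * s := by positivity
  have h7 : 1 - (v + 2 * s)⁻¹ ≤ log (v + 2 * s) := Real.one_sub_inv_le_log_of_pos hw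
  have h8 : 1 - v⁻¹ ≤ log v := Real.one_sub_inv_le_log_of_pos hs2
  have h9 : -log v ≤ s * log (1 + 2 * s / v) := by
    rw [e6, log_div hw.ne' hs2.ne']
    have h10 : 0 ≤ 1 - s := by linarith
    have h11 := mul_le_mul_of_nonneg_left h7 hs0
    have h12 := mul_le_mul_of_nonneg_left h8 h10
    have h13 : 0 ≤ s * (1 - (v + 2 * s)⁻¹) + (1 - s) * (1 - v⁻¹) := by
      have hv' : v = (1 - s) * (1 + s) := by rw [hv]; ring
      have h1s : 0 < 1 - s := by
        by_contra h0
        have h00 : 1 - s ≤ 0 := not_lt.mp h0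
        rw [hv'] at hs2
        nlinarith
      have h1s' : 0 < 1 + s := by linarith
      have e : s * (1 - (v + 2 * s)⁻¹) + (1 - s) * (1 - v⁻¹) =
          s ^ 2 * (1 - s) / ((1 + s) * (v + 2 * s)) := by
        have hw' : (1 - s) * (1 + s) + 2 * s ≠ 0 := by
          rw [← hv']
          exact hw.ne'
        rw [hv']
        field_simp
        ring
      rw [e]
      positivity
    linarith
  rw [hLL]
  linarith

end Vale.Agent.P322
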