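import Vale.Agent.P322.Noise

open Real Finset

namespace Vale.Agent.P322

/-- Transition probability of `n` independent binary symmetric channels with crossover `ε`. -/
noncomputable def channel {n : ℕ} (ε : ℝ) (x y : Fin n → Bool) : ℝ :=
  ∏ i, if x i = y i then 1 - ε else ε

/-- Joint law of `(f X, Y)`, with `X` uniform on the cube and `Y` the channel output. -/
noncomputable def jointLaw {n : ℕ} (f : (Fin n → Bool) → Bool) (ε : ℝ) (b : Bool)
    (y : Fin n → Bool) : ℝ :=
  ∑ x, if f x = b then (1 / 2 ^ n) * channel ε x y else 0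

/-- The mutual information `I(f X; Y)` in bits. -/
noncomputable def mutualInfo {n : ℕ} (f : (Fin n → Bool) → Bool) (ε : ℝ) : ℝ :=
  ∑ b, ∑ y, jointLaw f ε b y *
    logb 2 (jointLaw f ε b y / ((∑ y', jointLaw f ε b y') * (∑ b', jointLaw f ε b' y)))

/-- The `±1` version of a Boolean function. -/
noncomputable def sgnF {n : ℕ} (f : (Fin n → Bool) → Bool) (x : Fin n → Bool) : ℝ :=
  if f x then 1 else -1

lemma sgnF_cases {n : ℕ} (f : (Fin n → Bool) → Bool) (x : Fin n → Bool) :
    sgnF f x = 1 ∨ sgnF f x = -1 := by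
  unfold sgnF
  split_ifs <;> simp

lemma channel_eq {n : ℕ} (ε : ℝ) (x y : Fin n → Bool) : channel ε x y = kernel (1 - 2 * ε) x y := by
  unfold channel kernel fac
  apply prod_congr rfl
  intro i _
  split_ifs <;> ring

lemma abs_noise_le {n : ℕ} {F : Cube n → ℝ} (hF : ∀ x, F x = 1 ∨ F x = -1) {ρ : ℝ} (hρ : |ρ| < 1)
    (y : Cube n) : |noise F ρ y| ≤ 1 := by
  unfold noise
  calc |∑ x, F x * kernel ρ x y| ≤ ∑ x, |F x * kernel ρ x y| := abs_sum_le_sum_abs _ _
    _ = ∑ x, kernel ρ x y := by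
      apply sum_congr rfl
      intro x _
      rw [abs_mul, abs_of_pos (kernel_pos hρ x y)]
      rcases hF x with h | h <;> simp [h]
    _ = 1 := kernel_sum_left ρ y

/-- conditional law of `f X` given `Y = y`. -/
noncomputable def qLaw {n : ℕ} (f : (Fin n → Bool) → Bool) (ε : ℝ) (b : Bool)
    (y : Fin n → Bool) : ℝ :=
  if b then (1 + noise (sgnF f) (1 - 2 * ε) y) / 2 else (1 - noise (sgnF f) (1 - 2 * ε) y) / 2

lemma half_plus {n : ℕ} (F : Cube n → ℝ) (ρ : ℝ) (y : Cube n) :
    (1 + noise F ρ y) / 2 = ∑ x, (1 + F x) / 2 * kernel ρ x y := by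
  have e : ∑ x, (1 + F x) / 2 * kernel ρ x y =
      (∑ x, kernel ρ x y + ∑ x, F x * kernel ρ x y) / 2 := by
    rw [← sum_add_distrib, sum_div]
    apply sum_congr rfl
    intro x _
    ring
  rw [e, kernel_sum_left]
  rfl

lemma half_minus {n : ℕ} (F : Cube n → ℝ) (ρ : ℝ) (y : Cube n) :
    (1 - noise F ρ y) / 2 = ∑ x, (1 - F x) / 2 * kernel ρ x y := by
  have e : ∑ x, (1 - F x) / 2 * kernel ρ x y =
      (∑ x, kernel ρ x y - ∑ x, F x * kernel ρ x y) / 2 := by
    rw [← sum_sub_distrib, sum_div]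
    apply sum_congr rfl
    intro x _
    ring
  rw [e, kernel_sum_left]
  rfl

lemma jointLaw_eq {n : ℕ} (f : (Fin n → Bool) → Bool) (ε : ℝ) (b : Bool) (y : Fin n → Bool) :
    jointLaw f ε b y = (1 / 2 ^ n) * qLaw f ε b y := by
  unfold jointLaw qLaw
  cases b
  · simp only [Bool.false_eq_true, if_false]
    rw [half_minus, mul_sum]
    apply sum_congr rfl
    intro x _
    rw [channel_eq]
    unfold sgnF
    cases f x <;> simp
  · simp only [if_true]
    rw [half_plus, mul_sum]
    apply sum_congr rfl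
    intro x _
    rw [channel_eq]
    unfold sgnF
    cases f x <;> simp <;> ring

lemma sum_joint_b {n : ℕ} (f : (Fin n → Bool) → Bool) (ε : ℝ) (y : Fin n → Bool) :
    ∑ b, jointLaw f ε b y = 1 / 2 ^ n := by
  rw [Fintype.sum_bool]
  simp only [jointLaw_eq, qLaw]
  simp only [if_true, Bool.false_eq_true, if_false]
  ring

lemma sum_one_div {n : ℕ} (g : Cube n → ℝ) : ∑ y, (1 / 2 ^ n : ℝ) * g y = avg g := by
  unfold avg
  rw [← mul_sum]
  ring

lemma avg_one {n : ℕ} : avg (fun _ : Cube n => (1 : ℝ)) = 1 := avg_const 1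

lemma sum_joint_true {n : ℕ} (f : (Fin n → Bool) → Bool) (ε : ℝ) :
    ∑ y, jointLaw f ε true y = (1 + avg (sgnF f)) / 2 := by
  simp only [jointLaw_eq]
  rw [sum_one_div]
  have : qLaw f ε true = fun y => (1 / 2) * (1 + noise (sgnF f) (1 - 2 * ε) y) := by
    funext y
    simp [qLaw]
    ring
  rw [this, avg_mul_left, avg_add (fun _ => 1) (noise (sgnF f) (1 - 2 * ε)), avg_one, avg_noise]
  ring

lemma sum_joint_false {n : ℕ} (f : (Fin n → Bool) → Bool) (ε : ℝ) :
    ∑ y, jointLaw f ε false y = (1 - avg (sgnF f)) / 2 := by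
  simp only [jointLaw_eq]
  rw [sum_one_div]
  have : qLaw f ε false = fun y => (1 / 2) * (1 - noise (sgnF f) (1 - 2 * ε) y) := by
    funext y
    simp [qLaw]
    ring
  rw [this, avg_mul_left, avg_sub (fun _ => 1) (noise (sgnF f) (1 - 2 * ε)), avg_one, avg_noise]
  ring

/-- The single term of the mutual information. -/
lemma term_eq {c q P : ℝ} (hc : 0 < c) (hP : q ≠ 0 → P ≠ 0) :
    (c * q) * logb 2 ((c * q) / (P * c)) * log 2 = c * (q * log q - q * log P) := by
  by_cases hq : q = 0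
  · subst hq
    simp
  · have hP' := hP hq
    have e : (c * q) / (P * c) = q / P := by field_simp
    rw [e]
    have hlog2 : log 2 ≠ 0 := (Real.log_pos (by norm_num)).ne'
    unfold logb
    rw [log_div hq hP']
    field_simp

lemma ent_eq (u : ℝ) :
    ent u = -((1 + u) / 2 * log ((1 + u) / 2) + (1 - u) / 2 * log ((1 - u) / 2)) := by
  unfold ent binEntropy
  have e : 1 - (1 + u) / 2 = (1 - u) / 2 := by ring
  rw [e, log_inv, log_inv]
  ring

lemma avg_sgnF_abs {n : ℕ} (f : (Fin n → Bool) → Bool) : |avg (sgnF f)| ≤ 1 := by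
  refine le_trans (abs_avg_le _) ?_
  rw [← avg_const (n := n) 1]
  apply avg_le_avg
  intro x
  rcases sgnF_cases f x with h | h <;> simp [h]

/-- The chain rule: `I(f X; Y) · log 2 = H(f X) - H(f X | Y)`. -/
lemma mutualInfo_eq {n : ℕ} (f : (Fin n → Bool) → Bool) {ε : ℝ} (h0 : 0 < ε) (h1 : ε < 1) :
    mutualInfo f ε * log 2 = ent (avg (sgnF f)) - Hn (sgnF f) (1 - 2 * ε) := by
  set ρ := 1 - 2 * ε with hρdef
  have hρ : |ρ| < 1 := by
    rw [abs_lt]
    constructor <;> linarith
  set w := noise (sgnF f) ρ with hw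
  have hwb : ∀ y, |w y| ≤ 1 := fun y => abs_noise_le (sgnF_cases f) hρ y
  set a := avg (sgnF f) with ha
  set c : ℝ := 1 / 2 ^ n with hc
  have hcpos : 0 < c := by positivity
  -- nonvanishing of the marginals
  have hPt : ∀ y, (1 + w y) / 2 ≠ 0 → (1 + a) / 2 ≠ 0 := by
    intro y hy h2
    have h3 : ∑ y, jointLaw f ε true y = 0 := by rw [sum_joint_true, ← ha, h2]
    have h4 := (Finset.sum_eq_zero_iff_of_nonneg (fun y _ => by
      rw [jointLaw_eq]
      have := (abs_le.mp (hwb y)).1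
      simp only [qLaw, if_true]
      have h5 : 0 ≤ (1 + w y) / 2 := by linarith
      positivity)).mp h3 y (mem_univ y)
    rw [jointLaw_eq] at h4
    simp only [qLaw, if_true] at h4
    have h6 := (mul_eq_zero.mp h4).resolve_left hcpos.ne'
    exact hy h6
  have hPf : ∀ y, (1 - w y) / 2 ≠ 0 → (1 - a) / 2 ≠ 0 := by
    intro y hy h2
    have h3 : ∑ y, jointLaw f ε false y = 0 := by rw [sum_joint_false, ← ha, h2]
    have h4 := (Finset.sum_eq_zero_iff_of_nonneg (fun y _ => by
      rw [jointLaw_eq]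
      have := (abs_le.mp (hwb y)).2
      simp only [qLaw, Bool.false_eq_true, if_false]
      have h5 : 0 ≤ (1 - w y) / 2 := by linarith
      positivity)).mp h3 y (mem_univ y)
    rw [jointLaw_eq] at h4
    simp only [qLaw, Bool.false_eq_true, if_false] at h4
    have h6 := (mul_eq_zero.mp h4).resolve_left hcpos.ne'
    exact hy h6
  -- expand
  unfold mutualInfo
  rw [Fintype.sum_bool, add_mul, sum_mul, sum_mul]
  simp only [sum_joint_b, sum_joint_true, sum_joint_false]
  simp only [jointLaw_eq, qLaw, if_true, Bool.false_eq_true, if_false]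
  rw [← hρdef, ← hw, ← ha, ← hc]
  have ht : ∀ y, c * ((1 + w y) / 2) * logb 2 (c * ((1 + w y) / 2) / ((1 + a) / 2 * c)) * log 2 =
      c * ((1 + w y) / 2 * log ((1 + w y) / 2) - (1 + w y) / 2 * log ((1 + a) / 2)) :=
    fun y => term_eq hcpos (hPt y)
  have hf : ∀ y, c * ((1 - w y) / 2) * logb 2 (c * ((1 - w y) / 2) / ((1 - a) / 2 * c)) * log 2 =
      c * ((1 - w y) / 2 * log ((1 - w y) / 2) - (1 - w y) / 2 * log ((1 - a) / 2)) :=
    fun y => term_eq hcpos (hPf y)
  simp only [ht, hf]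
  -- average form
  rw [sum_one_div, sum_one_div]
  have e1 : avg (fun y => (1 + w y) / 2 * log ((1 + w y) / 2) - (1 + w y) / 2 * log ((1 + a) / 2)) =
      avg (fun y => (1 + w y) / 2 * log ((1 + w y) / 2)) - (1 + a) / 2 * log ((1 + a) / 2) := by
    rw [avg_sub]
    congr 1
    have : (fun y => (1 + w y) / 2 * log ((1 + a) / 2)) =
        fun y => (log ((1 + a) / 2) / 2) * (1 + w y) := by
      funext y
      ring
    rw [this, avg_mul_left, avg_add (fun _ => 1) w, avg_one, hw, avg_noise]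
    ring
  have e2 : avg (fun y => (1 - w y) / 2 * log ((1 - w y) / 2) - (1 - w y) / 2 * log ((1 - a) / 2)) =
      avg (fun y => (1 - w y) / 2 * log ((1 - w y) / 2)) - (1 - a) / 2 * log ((1 - a) / 2) := by
    rw [avg_sub]
    congr 1
    have : (fun y => (1 - w y) / 2 * log ((1 - a) / 2)) =
        fun y => (log ((1 - a) / 2) / 2) * (1 - w y) := by
      funext y
      ring
    rw [this, avg_mul_left, avg_sub (fun _ => 1) w, avg_one, hw, avg_noise]
    ring
  have e3 : Hn (sgnF f) ρ = -(avg (fun y => (1 + w y) / 2 * log ((1 + w y) / 2)) +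
      avg (fun y => (1 - w y) / 2 * log ((1 - w y) / 2))) := by
    unfold Hn
    rw [← avg_add, ← neg_one_mul, ← avg_mul_left]
    congr 1
    funext y
    rw [ent_eq]
    ring
  rw [e1, e2, e3, ent_eq]
  ring

lemma A_ge_self {c : ℝ} (h0 : 0 ≤ c) (h1 : c < 1) : c ≤ A c := by
  unfold A
  have h2 := Real.le_log_one_add_of_nonneg (x := 2 * c / (1 - c)) (by
    apply div_nonneg <;> linarith)
  have h3 : 0 < 1 - c := by linarith
  have e1 : 1 + 2 * c / (1 - c) = (1 + c) / (1 - c) := by field_simp; ring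
  have e2 : 2 * (2 * c / (1 - c)) / (2 * c / (1 - c) + 2) = 2 * c := by
    field_simp
    ring
  rw [e1, e2, log_div (by linarith) h3.ne'] at h2
  linarith

lemma ent_symm (a : ℝ) : ent (-a) = ent a := by
  unfold ent
  have : (1 + -a) / 2 = 1 - (1 + a) / 2 := by ring
  rw [this, binEntropy_one_sub]

/-- Quadratic upper bound of the entropy for `0 ≤ a < 1`. -/
lemma ent_upper_aux {a : ℝ} (h0 : 0 < a) (h1 : a < 1) : ent a ≤ log 2 - a ^ 2 / 2 := by
  set φ : ℝ → ℝ := fun t => log 2 - ent t - t ^ 2 / 2 with hφ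
  have hcont : Continuous φ := by
    have : Continuous ent := by
      unfold ent
      exact binEntropy_continuous.comp ((continuous_const.add continuous_id).div_const 2)
    rw [hφ]
    exact (continuous_const.sub this).sub ((continuous_pow 2).div_const 2)
  have hderiv : ∀ t ∈ Set.Ioo 0 a, HasDerivAt φ (A t - t) t := by
    intro t ht
    have hta : |t| < 1 := by
      rw [abs_of_pos ht.1]
      exact lt_trans ht.2 h1
    have h2 := hasDerivAt_ent hta
    have h3 : HasDerivAt (fun t : ℝ => t ^ 2 / 2) t t :=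
      ((hasDerivAt_pow 2 t).div_const 2).congr_deriv (by norm_num)
    have h4 := ((hasDerivAt_const t (log 2)).fun_sub h2).fun_sub h3
    exact h4.congr_deriv (by ring)
  obtain ⟨c, hc, hc'⟩ := exists_hasDerivAt_eq_slope φ (fun t => A t - t) h0 hcont.continuousOn hderiv
  have hφ0 : φ 0 = 0 := by
    simp only [hφ]
    unfold ent
    have : (1 + (0 : ℝ)) / 2 = 2⁻¹ := by norm_num
    rw [this, binEntropy_two_inv]
    norm_num
  rw [hφ0, sub_zero, sub_zero] at hc'
  have hA := A_ge_self hc.1.le (lt_trans hc.2 h1)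
  have h5 : 0 ≤ φ a / a := by
    rw [← hc']
    linarith
  have h6 : 0 ≤ φ a := by
    by_contra hneg
    push Not at hneg
    have := div_neg_of_neg_of_pos hneg h0
    linarith
  simp only [hφ] at h6
  linarith

lemma ent_upper {a : ℝ} (h : |a| ≤ 1) : ent a ≤ log 2 - a ^ 2 / 2 := by
  have hl := Real.log_two_gt_d9
  have key : ∀ b : ℝ, 0 ≤ b → b ≤ 1 → ent b ≤ log 2 - b ^ 2 / 2 := by
    intro b hb0 hb1
    rcases eq_or_lt_of_le hb0 with h0 | h0
    · subst h0
      unfold ent
      have : (1 + (0 : ℝ)) / 2 = 2⁻¹ := by norm_num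
      rw [this, binEntropy_two_inv]
      norm_num
    rcases eq_or_lt_of_le hb1 with h1 | h1
    · subst h1
      unfold ent
      norm_num
      linarith
    exact ent_upper_aux h0 h1
  rcases le_total 0 a with h0 | h0
  · exact key a h0 (abs_le.mp h).2
  · have := key (-a) (by linarith) (by have := (abs_le.mp h).1; linarith)
    rw [ent_symm] at this
    have e : (-a) ^ 2 = a ^ 2 := by ring
    rwa [e] at this

lemma exists_both {n : ℕ} (f : (Fin n → Bool) → Bool) (h : |avg (sgnF f)| < 1) :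
    ∃ x₀ x₁, sgnF f x₀ = 1 ∧ sgnF f x₁ = -1 := by
  have h1 : ∃ x₀, sgnF f x₀ = 1 := by
    by_contra hcon
    push Not at hcon
    have hall : ∀ x, sgnF f x = -1 := fun x => (sgnF_cases f x).resolve_left (hcon x)
    have : avg (sgnF f) = -1 := by
      have e : sgnF f = fun _ => -1 := funext hall
      rw [e, avg_const]
    rw [this] at h
    norm_num at h
  have h2 : ∃ x₁, sgnF f x₁ = -1 := by
    by_contra hcon
    push Not at hcon
    have hall : ∀ x, sgnF f x = 1 := fun x => (sgnF_cases f x).resolve_right (hcon x)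
    have : avg (sgnF f) = 1 := by
      have e : sgnF f = fun _ => 1 := funext hall
      rw [e, avg_const]
    rw [this] at h
    norm_num at h
  obtain ⟨x₀, h₀⟩ := h1
  obtain ⟨x₁, h₁⟩ := h2
  exact ⟨x₀, x₁, h₀, h₁⟩

lemma exp_neg_one_lt : exp (-1) < 1 / 2 := by
  rw [Real.exp_neg, inv_eq_one_div]
  apply one_div_lt_one_div_of_lt (by norm_num)
  have := Real.exp_one_gt_d9
  linarith

lemma eps_log_le {ε : ℝ} (h0 : 0 < ε) : ε * log (1 / ε) ≤ exp (-1) := by
  have hx : 0 < (1 / ε) * exp (-1) := by positivity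
  have h1 := Real.log_le_sub_one_of_pos hx
  rw [log_mul (by positivity) (exp_pos _).ne', log_exp] at h1
  have h2 : log (1 / ε) ≤ (1 / ε) * exp (-1) := by linarith
  calc ε * log (1 / ε) ≤ ε * ((1 / ε) * exp (-1)) := mul_le_mul_of_nonneg_left h2 h0.le
    _ = exp (-1) := by field_simp

lemma log_inv_ge_one {ε : ℝ} (h0 : 0 < ε) (h1 : ε ≤ exp (-1)) : 1 ≤ log (1 / ε) := by
  rw [Real.le_log_iff_exp_le (by positivity), le_div_iff₀ h0]
  have : exp 1 * exp (-1) = 1 := by rw [← exp_add]; simp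
  calc exp 1 * ε ≤ exp 1 * exp (-1) := mul_le_mul_of_nonneg_left h1 (exp_pos _).le
    _ = 1 := this

lemma Hn_sgnF_nonneg {n : ℕ} (f : (Fin n → Bool) → Bool) {ρ : ℝ} (hρ : |ρ| < 1) :
    0 ≤ Hn (sgnF f) ρ := by
  unfold Hn
  apply avg_nonneg
  intro y
  have := abs_le.mp (abs_noise_le (sgnF_cases f) hρ y)
  exact binEntropy_nonneg (by linarith) (by linarith)

lemma Hn_sgnF_pos {n : ℕ} (f : (Fin n → Bool) → Bool) {x₀ x₁ : Fin n → Bool}
    (h₀ : sgnF f x₀ = 1) (h₁ : sgnF f x₁ = -1) {ρ : ℝ} (hρ : |ρ| < 1) :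
    0 < Hn (sgnF f) ρ := by
  unfold Hn
  exact avg_pos fun y => ent_pos (abs_noise_lt (sgnF_cases f) h₀ h₁ hρ y)

/-- Low noise bound for all Boolean functions. -/
theorem low_noise_all {n : ℕ} (f : (Fin n → Bool) → Bool) {ε : ℝ} (h0 : 0 < ε)
    (h1 : ε ≤ exp (-1)) :
    mutualInfo f ε ≤ 1 - ε / log 2 * (log (1 / ε) - log (log (1 / ε)) - 10 / 3) := by
  have hlt : ε < 1 / 2 := lt_of_le_of_lt h1 exp_neg_one_lt
  have hlog2 : 0 < log 2 := Real.log_pos (by norm_num)
  have hid := mutualInfo_eq f h0 (by linarith)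
  set ρ := 1 - 2 * ε with hρdef
  have hρ0 : 0 < ρ := by rw [hρdef]; linarith
  have hρ1 : ρ < 1 := by rw [hρdef]; linarith
  have hρ : |ρ| < 1 := by rw [abs_of_pos hρ0]; exact hρ1
  set a := avg (sgnF f) with ha
  set H := Hn (sgnF f) ρ with hH
  set L := log (1 / ε) with hL
  have hL1 : 1 ≤ L := log_inv_ge_one h0 h1
  have hlogL : 0 ≤ log L := log_nonneg hL1
  have hLpos : 0 < L := by linarith
  have hE : 0 < ε * L := by positivity
  have hEle : ε * L < 1 / 2 := lt_of_le_of_lt (eps_log_le h0) exp_neg_one_lt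
  have hH0 : 0 ≤ H := Hn_sgnF_nonneg f hρ
  have habs : |a| ≤ 1 := avg_sgnF_abs f
  have hup := ent_upper habs
  -- reduce to the multiplied form
  suffices hmain : mutualInfo f ε * log 2 ≤ log 2 - ε * (L - log L - 10 / 3) by
    have h2 : mutualInfo f ε ≤ (log 2 - ε * (L - log L - 10 / 3)) / log 2 := by
      rwa [le_div_iff₀ hlog2]
    have h3 : (log 2 - ε * (L - log L - 10 / 3)) / log 2 = 1 - ε / log 2 * (L - log L - 10 / 3) := by
      field_simp
    rwa [h3] at h2
  rw [hid]
  have hX : ε * (L - log L - 10 / 3) ≤ ε * L := by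
    apply mul_le_mul_of_nonneg_left _ h0.le
    linarith
  by_cases hcase : ε * L ≤ a ^ 2 / 2
  · linarith
  · push Not at hcase
    have ha2 : a ^ 2 < 1 := by linarith
    have habs' : |a| < 1 := by
      rw [← sq_lt_one_iff_abs_lt_one]
      exact ha2
    obtain ⟨x₀, x₁, h₀, h₁⟩ := exists_both f habs'
    have himp := main_implicit (sgnF_cases f) h₀ h₁ hρ0 hρ1
    rw [← ha, ← hH] at himp
    have hHpos : 0 < H := Hn_sgnF_pos f h₀ h₁ hρ
    have hsq : 0 ≤ a ^ 2 / 2 := by positivity
    suffices hB : ε * (L - log L - 10 / 3) ≤ H by linarith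
    by_contra hcon
    push Not at hcon
    have hHE : H ≤ ε * L := by linarith
    have hG := G_antitone habs hHpos hHE
    have hGE : 2 * (log (3 / 5) + L - log L) - 2 * (8 / 3) ≤ G a (ε * L) := by
      unfold G
      have e1 : log ((3 / 5) / (ε * L)) = log (3 / 5) + L - log L := by
        rw [log_div (by norm_num) hE.ne', log_mul h0.ne' hLpos.ne', hL, one_div, log_inv]
        ring
      rw [e1]
      have h2 : LL (4 / 3) |a| (ε * L) ≤ 8 / 3 := by
        unfold LL
        have h3 : 0 ≤ 4 / 3 * |a| / (ε * L) := by positivity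
        have h4 : log (1 + 4 / 3 * |a| / (ε * L)) ≤ 4 / 3 * |a| / (ε * L) := by
          have := Real.log_le_sub_one_of_pos (show 0 < 1 + 4 / 3 * |a| / (ε * L) by linarith)
          linarith
        have h5 := mul_le_mul_of_nonneg_left h4 (abs_nonneg a)
        have h6 : |a| * (4 / 3 * |a| / (ε * L)) ≤ 8 / 3 := by
          have e : |a| * (4 / 3 * |a| / (ε * L)) = 4 / 3 * (a ^ 2 / (ε * L)) := by
            rw [← sq_abs a]
            ring
          rw [e]
          have h7 : a ^ 2 / (ε * L) ≤ 2 := by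
            rw [div_le_iff₀ hE]
            linarith
          linarith
        linarith
      linarith
    have hlog35 : -(2 / 3) ≤ log (3 / 5 : ℝ) := by
      have := Real.one_sub_inv_le_log_of_pos (show (0 : ℝ) < 3 / 5 by norm_num)
      norm_num at this ⊢
      linarith
    have hfinal : (1 - ρ) / 4 * (2 * (log (3 / 5) + L - log L) - 2 * (8 / 3)) ≤ H := by
      have h8 : 0 ≤ (1 - ρ) / 4 := by linarith
      have h9 := mul_le_mul_of_nonneg_left (le_trans hGE hG) h8
      linarith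
    have e2 : (1 - ρ) / 4 = ε / 2 := by rw [hρdef]; ring
    rw [e2] at hfinal
    have e3 : ε / 2 * (2 * (log (3 / 5) + L - log L) - 2 * (8 / 3)) =
        ε * (log (3 / 5) + L - log L - 8 / 3) := by ring
    rw [e3] at hfinal
    have h10 : ε * (L - log L - 10 / 3) ≤ ε * (log (3 / 5) + L - log L - 8 / 3) := by
      apply mul_le_mul_of_nonneg_left _ h0.le
      linarith
    linarith

/-- The implicit bound for balanced functions. -/
theorem balanced_implicit {n : ℕ} (f : (Fin n → Bool) → Bool) (hf : ∑ x, sgnF f x = 0) {ε : ℝ}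
    (h0 : 0 < ε) (h1 : ε < 1 / 2) :
    mutualInfo f ε = 1 - Hn (sgnF f) (1 - 2 * ε) / log 2 ∧ 0 < Hn (sgnF f) (1 - 2 * ε) ∧
      ε * log ((3 / 5) / Hn (sgnF f) (1 - 2 * ε)) ≤ Hn (sgnF f) (1 - 2 * ε) := by
  have hlog2 : 0 < log 2 := Real.log_pos (by norm_num)
  have hid := mutualInfo_eq f h0 (by linarith)
  set ρ := 1 - 2 * ε with hρdef
  have hρ0 : 0 < ρ := by rw [hρdef]; linarith
  have hρ1 : ρ < 1 := by rw [hρdef]; linarith
  have hρ : |ρ| < 1 := by rw [abs_of_pos hρ0]; exact hρ1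
  have ha : avg (sgnF f) = 0 := by
    unfold avg
    rw [hf, zero_div]
  rw [ha] at hid
  have hent0 : ent 0 = log 2 := by
    unfold ent
    have : (1 + (0 : ℝ)) / 2 = 2⁻¹ := by norm_num
    rw [this, binEntropy_two_inv]
  rw [hent0] at hid
  obtain ⟨x₀, x₁, h₀, h₁⟩ := exists_both f (by rw [ha]; norm_num)
  have himp := main_implicit (sgnF_cases f) h₀ h₁ hρ0 hρ1
  rw [ha] at himp
  have hHpos : 0 < Hn (sgnF f) ρ := Hn_sgnF_pos f h₀ h₁ hρ
  refine ⟨?_, hHpos, ?_⟩
  · rw [eq_sub_iff_add_eq]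
    have : mutualInfo f ε = (log 2 - Hn (sgnF f) ρ) / log 2 := by
      rw [eq_div_iff hlog2.ne']
      exact hid
    rw [this]
    field_simp
    ring
  · unfold G at himp
    have hLL : LL (4 / 3) |(0 : ℝ)| (Hn (sgnF f) ρ) = 0 := by
      unfold LL
      simp
    rw [hLL] at himp
    have e2 : (1 - ρ) / 4 = ε / 2 := by rw [hρdef]; ring
    rw [e2] at himp
    linarith

/-- Explicit low noise bound for balanced functions. -/
theorem low_noise_balanced {n : ℕ} (f : (Fin n → Bool) → Bool) (hf : ∑ x, sgnF f x = 0) {ε : ℝ}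
    (h0 : 0 < ε) (h1 : ε ≤ exp (-1)) :
    mutualInfo f ε ≤ 1 - ε / log 2 * (log (1 / ε) - log (log (1 / ε)) + log (3 / 5)) := by
  have hlt : ε < 1 / 2 := lt_of_le_of_lt h1 exp_neg_one_lt
  have hlog2 : 0 < log 2 := Real.log_pos (by norm_num)
  obtain ⟨hI, hHpos, himp⟩ := balanced_implicit f hf h0 hlt
  set H := Hn (sgnF f) (1 - 2 * ε) with hH
  set L := log (1 / ε) with hL
  have hL1 : 1 ≤ L := log_inv_ge_one h0 h1
  have hlogL : 0 ≤ log L := log_nonneg hL1
  have hLpos : 0 < L := by linarith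
  have hE : 0 < ε * L := by positivity
  have hlog35 : log (3 / 5 : ℝ) ≤ 0 := log_nonpos (by norm_num) (by norm_num)
  suffices hB : ε * (L - log L + log (3 / 5)) ≤ H by
    rw [hI]
    have h2 : ε / log 2 * (L - log L + log (3 / 5)) = ε * (L - log L + log (3 / 5)) / log 2 := by
      ring
    rw [h2]
    have := div_le_div_of_nonneg_right hB hlog2.le
    linarith
  by_contra hcon
  push Not at hcon
  have hHE : H ≤ ε * L := by
    have : ε * (L - log L + log (3 / 5)) ≤ ε * L := by
      apply mul_le_mul_of_nonneg_left _ h0.le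
      linarith
    linarith
  have h3 : log ((3 / 5) / (ε * L)) ≤ log ((3 / 5) / H) := by
    apply log_le_log (by positivity)
    exact div_le_div_of_nonneg_left (by norm_num) hHpos hHE
  have e1 : log ((3 / 5) / (ε * L)) = log (3 / 5) + L - log L := by
    rw [log_div (by norm_num) hE.ne', log_mul h0.ne' hLpos.ne', hL, one_div, log_inv]
    ring
  rw [e1] at h3
  have h4 := mul_le_mul_of_nonneg_left h3 h0.le
  have e3 : ε * (log (3 / 5) + L - log L) = ε * (L - log L + log (3 / 5)) := by ring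
  rw [e3] at h4
  linarith

end Vale.Agent.P322
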