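import Vale.Agent.P322.Real

open Real

namespace Vale.Agent.P322

lemma J_step {p q u₁ u₃ : ℝ} (hq : 0 ≤ q) (hqp : q ≤ p) (h1 : 0 < u₁) (h3 : 0 < u₃) :
    -(q * (u₁ - u₃) / ((u₁ + u₃) / 2)) ≤
      2 * p * log ((u₁ + u₃) / 2) - (p + q) * log u₁ - (p - q) * log u₃ := by
  set ū := (u₁ + u₃) / 2 with hū
  have hūpos : 0 < ū := by positivity
  have t1 : log u₁ - log ū ≤ (u₁ - ū) / ū := by
    have := Real.log_le_sub_one_of_pos (div_pos h1 hūpos)
    rw [log_div h1.ne' hūpos.ne'] at this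
    have e : u₁ / ū - 1 = (u₁ - ū) / ū := by field_simp
    linarith
  have t3 : log u₃ - log ū ≤ (u₃ - ū) / ū := by
    have := Real.log_le_sub_one_of_pos (div_pos h3 hūpos)
    rw [log_div h3.ne' hūpos.ne'] at this
    have e : u₃ / ū - 1 = (u₃ - ū) / ū := by field_simp
    linarith
  have m1 := mul_le_mul_of_nonneg_left t1 (by linarith : 0 ≤ p + q)
  have m3 := mul_le_mul_of_nonneg_left t3 (by linarith : 0 ≤ p - q)
  have e : (p + q) * ((u₁ - ū) / ū) + (p - q) * ((u₃ - ū) / ū) = q * (u₁ - u₃) / ū := by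
    have : (u₁ - ū) = (u₁ - u₃) / 2 := by rw [hū]; ring
    have h2 : (u₃ - ū) = -((u₁ - u₃) / 2) := by rw [hū]; ring
    rw [this, h2]
    field_simp
    ring
  nlinarith

lemma bracket_bound {A H₂ ū : ℝ} (h : H₂ ≤ A) (hū : A ≤ ū) (hH₂ : 0 < H₂) :
    (A - H₂) / ū ≤ log A - log H₂ := by
  have hA : 0 < A := lt_of_lt_of_le hH₂ h
  have hūp : 0 < ū := lt_of_lt_of_le hA hū
  have h1 : (A - H₂) / ū ≤ (A - H₂) / A :=
    div_le_div_of_nonneg_left (by linarith) hA hū
  have h2 := Real.one_sub_inv_le_log_of_pos (div_pos hA hH₂)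
  rw [log_div hA.ne' hH₂.ne', inv_div] at h2
  have h3 : (A - H₂) / A = 1 - H₂ / A := by field_simp
  linarith

lemma sqrt_le_mean {H₁ H₂ : ℝ} (h₁ : 0 < H₁) (h₂ : 0 < H₂) :
    √(H₁ * H₂) ≤ (H₁ + H₂) / 2 := by
  rw [Real.sqrt_le_iff]
  constructor
  · positivity
  · nlinarith [sq_nonneg (H₁ - H₂)]

lemma cosh_bound {κ q H₁ H₂ : ℝ} (hκ : 0 < κ) (hq : 0 ≤ q) (h₁ : 0 < H₁) (h₂ : 0 < H₂) :
    q * (log H₂ - log (√(H₁ * H₂) + κ * q)) ≤ ((H₁ + H₂) / 2 - √(H₁ * H₂)) / κ := by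
  set h := √(H₁ * H₂) with hh
  have hpos : 0 < h := Real.sqrt_pos.mpr (by positivity)
  have hsq : h * h = H₁ * H₂ := Real.mul_self_sqrt (by positivity)
  have hcosh := aux_cosh (x := κ * q / h) (E := H₂ / h) (by positivity) (by positivity)
  have e1 : 1 + κ * q / h = (h + κ * q) / h := by field_simp
  rw [e1, log_div h₂.ne' hpos.ne', log_div (by positivity) hpos.ne'] at hcosh
  have hinv : (H₂ / h)⁻¹ = H₁ / h := by
    rw [inv_div]
    field_simp
    nlinarith
  rw [hinv] at hcosh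
  have e2 : κ * q / h * (log H₂ - log h - (log (h + κ * q) - log h)) =
      (κ / h) * (q * (log H₂ - log (h + κ * q))) := by
    field_simp
    ring
  rw [e2] at hcosh
  have hκh : 0 < κ / h := by positivity
  have e3 : (H₂ / h + H₁ / h) / 2 - 1 = (κ / h) * (((H₁ + H₂) / 2 - h) / κ) := by
    field_simp
    ring
  rw [e3] at hcosh
  exact le_of_mul_le_mul_left hcosh hκh

lemma log_gap {H₁ H₂ : ℝ} (h₁ : 0 < H₁) (h₂ : 0 < H₂) :
    ((H₁ + H₂) / 2 - √(H₁ * H₂)) / ((H₁ + H₂) / 2) ≤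
      log ((H₁ + H₂) / 2) - log (√(H₁ * H₂)) := by
  set h := √(H₁ * H₂) with hh
  set Hb := (H₁ + H₂) / 2 with hHb
  have hpos : 0 < h := Real.sqrt_pos.mpr (by positivity)
  have hbpos : 0 < Hb := by positivity
  have := Real.one_sub_inv_le_log_of_pos (div_pos hbpos hpos)
  rw [log_div hbpos.ne' hpos.ne', inv_div] at this
  have e : (Hb - h) / Hb = 1 - h / Hb := by field_simp
  linarith

lemma log_sqrt_mul {H₁ H₂ : ℝ} (h₁ : 0 < H₁) (h₂ : 0 < H₂) :
    log (√(H₁ * H₂)) = (log H₁ + log H₂) / 2 := by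
  rw [Real.log_sqrt (by positivity), Real.log_mul h₁.ne' h₂.ne']

/-- Same sign case. -/
lemma lemmaI {κ p q H₁ H₂ : ℝ} (hκ : 0 < κ) (hq : 0 ≤ q) (hqp : q ≤ p) (hpq : p + q ≤ 1)
    (h₁ : 0 < H₁) (h₂ : 0 < H₂) (hyp : (H₁ + H₂) / 2 ≤ κ * (1 - p)) :
    LL κ (p + q) H₁ + LL κ (p - q) H₂ ≤
      2 * LL κ p ((H₁ + H₂) / 2) + 2 * LL κ q (√(H₁ * H₂)) +
        2 * (log ((H₁ + H₂) / 2) - log (√(H₁ * H₂))) := by
  have hp : 0 ≤ p := le_trans hq hqp
  set h := √(H₁ * H₂) with hh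
  set Hb := (H₁ + H₂) / 2 with hHb
  have hpos : 0 < h := Real.sqrt_pos.mpr (by positivity)
  have hbpos : 0 < Hb := by positivity
  have hle : h ≤ Hb := sqrt_le_mean h₁ h₂
  have hlogh : log h = (log H₁ + log H₂) / 2 := log_sqrt_mul h₁ h₂
  rw [LL_eq hκ (by linarith) h₁, LL_eq hκ (by linarith) h₂, LL_eq hκ hp hbpos,
    LL_eq hκ hq hpos]
  set u₁ := H₁ + κ * (p + q) with hu₁
  set u₃ := H₂ + κ * (p - q) with hu₃
  have hu₁pos : 0 < u₁ := by rw [hu₁]; nlinarith
  have hu₃pos : 0 < u₃ := by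
    rw [hu₃]
    have : 0 ≤ κ * (p - q) := mul_nonneg hκ.le (by linarith)
    linarith
  have hū : Hb + κ * p = (u₁ + u₃) / 2 := by rw [hu₁, hu₃, hHb]; ring
  have hJ := J_step hq hqp hu₁pos hu₃pos
  rw [← hū] at hJ
  have hūpos : 0 < Hb + κ * p := by nlinarith
  have hgap := log_gap h₁ h₂
  rw [← hh, ← hHb] at hgap
  -- reduce to `(1-p) Δ + q P ≥ 0`
  suffices hmain : 0 ≤ (1 - p) * (log Hb - log h) + q * (log (h + κ * q) - log H₂) +
      -(q * (u₁ - u₃) / (Hb + κ * p)) / 2 by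
    rw [hlogh] at hmain ⊢
    linarith
  have hdiff : u₁ - u₃ = 2 * (κ * q - (H₂ - H₁) / 2) := by rw [hu₁, hu₃]; ring
  rcases le_or_gt ((H₂ - H₁) / 2) (κ * q) with hcase | hcase
  · -- case `κ q ≥ η`
    have hA : H₂ ≤ Hb + κ * q := by rw [hHb]; linarith
    have hAū : Hb + κ * q ≤ Hb + κ * p := by nlinarith
    have hbr := bracket_bound hA hAū h₂
    have e1 : q * (u₁ - u₃) / (Hb + κ * p) / 2 =
        q * ((Hb + κ * q - H₂) / (Hb + κ * p)) := by
      rw [hdiff, hHb]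
      field_simp
      ring
    have e2 : -(q * (u₁ - u₃) / (Hb + κ * p)) / 2 = -(q * ((Hb + κ * q - H₂) / (Hb + κ * p))) := by
      rw [← e1]; ring
    rw [e2]
    -- key: `log (h + κ q) - log A ≥ -(Δ)`
    have hkey : log (Hb + κ * q) ≤ log (h + κ * q) + log Hb - log h := by
      have hA' : 0 < Hb + κ * q := by nlinarith
      have hh' : 0 < h + κ * q := by nlinarith
      have h3 : log h + log (Hb + κ * q) ≤ log (h + κ * q) + log Hb := by
        rw [← log_mul hpos.ne' hA'.ne', ← log_mul hh'.ne' hbpos.ne']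
        apply log_le_log (by positivity)
        nlinarith [mul_nonneg (mul_nonneg hκ.le hq) (sub_nonneg.mpr hle)]
      linarith
    have hΔ : 0 ≤ log Hb - log h := by
      have := log_le_log hpos hle
      linarith
    have hm := mul_le_mul_of_nonneg_left hbr hq
    have h1pq : 0 ≤ 1 - p - q := by linarith
    have := mul_nonneg h1pq hΔ
    have hm2 := mul_le_mul_of_nonneg_left hkey hq
    linarith
  · -- case `κ q < η`
    have hneg : 0 ≤ -(q * (u₁ - u₃) / (Hb + κ * p)) / 2 := by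
      have : q * (u₁ - u₃) / (Hb + κ * p) ≤ 0 := by
        apply div_nonpos_of_nonpos_of_nonneg _ hūpos.le
        rw [hdiff]
        nlinarith
      linarith
    have hc := cosh_bound hκ hq h₁ h₂
    rw [← hh, ← hHb] at hc
    have h5 : (Hb - h) / κ ≤ (1 - p) * (log Hb - log h) := by
      have h1p : 0 ≤ 1 - p := by linarith
      have h6 : (Hb - h) / κ ≤ (1 - p) * ((Hb - h) / Hb) := by
        rw [div_le_iff₀ hκ]
        have h7 : (1 - p) * ((Hb - h) / Hb) * κ = (Hb - h) * ((κ * (1 - p)) / Hb) := by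
          field_simp
        rw [h7]
        have h8 : 1 ≤ (κ * (1 - p)) / Hb := by
          rwa [one_le_div hbpos]
        exact le_mul_of_one_le_right (sub_nonneg.mpr hle) h8
      exact le_trans h6 (mul_le_mul_of_nonneg_left hgap h1p)
    linarith

/-- Opposite sign case. -/
lemma lemmaII {κ p q H₁ H₂ : ℝ} (hκ : 0 < κ) (hq : 0 ≤ q) (hqp : q ≤ p) (hpq : p + q ≤ 1)
    (h₁ : 0 < H₁) (h₂ : 0 < H₂) (hyp1 : H₁ + H₂ ≤ κ) (hyp2 : 3 * H₂ + H₁ ≤ 2 * κ) :
    LL κ (p + q) H₁ + LL κ (p - q) H₂ ≤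
      2 * LL κ q ((H₁ + H₂) / 2) + 2 * LL κ p (√(H₁ * H₂)) +
        2 * (log ((H₁ + H₂) / 2) - log (√(H₁ * H₂))) := by
  have hp : 0 ≤ p := le_trans hq hqp
  set h := √(H₁ * H₂) with hh
  set Hb := (H₁ + H₂) / 2 with hHb
  have hpos : 0 < h := Real.sqrt_pos.mpr (by positivity)
  have hbpos : 0 < Hb := by positivity
  have hle : h ≤ Hb := sqrt_le_mean h₁ h₂
  have hlogh : log h = (log H₁ + log H₂) / 2 := log_sqrt_mul h₁ h₂
  rw [LL_eq hκ (by linarith) h₁, LL_eq hκ (by linarith) h₂, LL_eq hκ hq hbpos,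
    LL_eq hκ hp hpos]
  set u₁ := H₁ + κ * (p + q) with hu₁
  set u₃ := H₂ + κ * (p - q) with hu₃
  have hu₁pos : 0 < u₁ := by rw [hu₁]; nlinarith
  have hu₃pos : 0 < u₃ := by
    rw [hu₃]
    have : 0 ≤ κ * (p - q) := mul_nonneg hκ.le (by linarith)
    linarith
  have hū : Hb + κ * p = (u₁ + u₃) / 2 := by rw [hu₁, hu₃, hHb]; ring
  have hJ := J_step hq hqp hu₁pos hu₃pos
  rw [← hū] at hJ
  have hūpos : 0 < Hb + κ * p := by nlinarith
  have hgap := log_gap h₁ h₂
  rw [← hh, ← hHb] at hgap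
  have hΔ : 0 ≤ log Hb - log h := by
    have := log_le_log hpos hle
    linarith
  -- the term `p (log ū - log (h + κ p)) ≤ (Hb - h)/κ`
  have hterm : p * (log (Hb + κ * p) - log (h + κ * p)) ≤ (Hb - h) / κ := by
    have hhp : 0 < h + κ * p := by nlinarith
    have h1 := Real.log_le_sub_one_of_pos (div_pos hūpos hhp)
    rw [log_div hūpos.ne' hhp.ne'] at h1
    have e : (Hb + κ * p) / (h + κ * p) - 1 = (Hb - h) / (h + κ * p) := by
      field_simp
      ring
    rw [e] at h1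
    have h2 := mul_le_mul_of_nonneg_left h1 hp
    have h3 : p * ((Hb - h) / (h + κ * p)) ≤ (Hb - h) / κ := by
      rw [mul_div_assoc', div_le_div_iff₀ hhp hκ]
      nlinarith [sub_nonneg.mpr hle, mul_nonneg (sub_nonneg.mpr hle) hpos.le]
    linarith
  -- reduce
  suffices hmain : 0 ≤ (1 - q) * (log Hb - log h) + q * (log (Hb + κ * q) - log H₂) +
      -(q * (u₁ - u₃) / (Hb + κ * p)) / 2 - p * (log (Hb + κ * p) - log (h + κ * p)) by
    rw [hlogh] at hmain ⊢
    linarith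
  have hdiff : u₁ - u₃ = 2 * (κ * q - (H₂ - H₁) / 2) := by rw [hu₁, hu₃]; ring
  have hqhalf : q ≤ 1 / 2 := by linarith
  rcases le_or_gt ((H₂ - H₁) / 2) (κ * q) with hcase | hcase
  · -- case `κ q ≥ η`
    have hA : H₂ ≤ Hb + κ * q := by rw [hHb]; linarith
    have hAū : Hb + κ * q ≤ Hb + κ * p := by nlinarith
    have hbr := bracket_bound hA hAū h₂
    have e1 : q * (u₁ - u₃) / (Hb + κ * p) / 2 =
        q * ((Hb + κ * q - H₂) / (Hb + κ * p)) := by
      rw [hdiff, hHb]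
      field_simp
      ring
    have e2 : -(q * (u₁ - u₃) / (Hb + κ * p)) / 2 = -(q * ((Hb + κ * q - H₂) / (Hb + κ * p))) := by
      rw [← e1]; ring
    rw [e2]
    have hm := mul_le_mul_of_nonneg_left hbr hq
    -- `(1-q) Δ ≥ (Hb - h)/κ`
    have h5 : (Hb - h) / κ ≤ (1 - q) * (log Hb - log h) := by
      have h1q : 0 ≤ 1 - q := by linarith
      have h6 : (Hb - h) / κ ≤ (1 - q) * ((Hb - h) / Hb) := by
        rw [div_le_iff₀ hκ]
        have h7 : (1 - q) * ((Hb - h) / Hb) * κ = (Hb - h) * ((κ * (1 - q)) / Hb) := by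
          field_simp
        rw [h7]
        have h8 : 1 ≤ (κ * (1 - q)) / Hb := by
          rw [one_le_div hbpos, hHb]
          have h9 := mul_le_mul_of_nonneg_left hqhalf hκ.le
          linarith only [h9, hyp1]
        exact le_mul_of_one_le_right (sub_nonneg.mpr hle) h8
      exact le_trans h6 (mul_le_mul_of_nonneg_left hgap h1q)
    linarith
  · -- case `κ q < η`
    have hneg : 0 ≤ -(q * (u₁ - u₃) / (Hb + κ * p)) / 2 := by
      have : q * (u₁ - u₃) / (Hb + κ * p) ≤ 0 := by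
        apply div_nonpos_of_nonpos_of_nonneg _ hūpos.le
        rw [hdiff]
        nlinarith
      linarith
    have hc := cosh_bound hκ hq h₁ h₂
    rw [← hh, ← hHb] at hc
    have hmono : log (h + κ * q) ≤ log (Hb + κ * q) := by
      apply log_le_log (by nlinarith)
      linarith
    have hm := mul_le_mul_of_nonneg_left hmono hq
    have h5 : 2 * ((Hb - h) / κ) ≤ (1 - q) * (log Hb - log h) := by
      have h1q : 0 ≤ 1 - q := by linarith
      have h6 : 2 * ((Hb - h) / κ) ≤ (1 - q) * ((Hb - h) / Hb) := by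
        have hk : 2 * Hb ≤ κ * (1 - q) := by
          have h9 : κ * q < (H₂ - H₁) / 2 := hcase
          rw [hHb]
          linarith only [h9, hyp2]
        have h7 : (1 - q) * ((Hb - h) / Hb) - 2 * ((Hb - h) / κ) =
            (Hb - h) * (κ * (1 - q) - 2 * Hb) / (Hb * κ) := by
          field_simp
        have h8 : 0 ≤ (Hb - h) * (κ * (1 - q) - 2 * Hb) / (Hb * κ) := by
          apply div_nonneg
          · exact mul_nonneg (sub_nonneg.mpr hle) (by linarith)
          · positivity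
        linarith
      exact le_trans h6 (mul_le_mul_of_nonneg_left hgap h1q)
    linarith

end Vale.Agent.P322
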