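import Vale.Agent.P322.Cube

open Real Finset

namespace Vale.Agent.P322

/-- One-coordinate noise kernel, with correlation `ρ`. -/
noncomputable def fac (ρ : ℝ) (a b : Bool) : ℝ := if a = b then (1 + ρ) / 2 else (1 - ρ) / 2

/-- Derivative of `fac` in `ρ`. -/
noncomputable def dfac (a b : Bool) : ℝ := if a = b then 1 / 2 else -(1 / 2)

/-- The noise kernel on the cube. -/
noncomputable def kernel {n : ℕ} (ρ : ℝ) (x y : Cube n) : ℝ := ∏ i, fac ρ (x i) (y i)

/-- The noise operator. -/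
noncomputable def noise {n : ℕ} (F : Cube n → ℝ) (ρ : ℝ) (y : Cube n) : ℝ :=
  ∑ x, F x * kernel ρ x y

/-- The conditional entropy functional. -/
noncomputable def Hn {n : ℕ} (F : Cube n → ℝ) (ρ : ℝ) : ℝ := avg (fun y => ent (noise F ρ y))

lemma fac_sum_left (ρ : ℝ) (b : Bool) : ∑ a, fac ρ a b = 1 := by
  cases b <;> simp [fac, Fintype.sum_bool] <;> ring

lemma fac_sum_right (ρ : ℝ) (a : Bool) : ∑ b, fac ρ a b = 1 := by
  cases a <;> simp [fac, Fintype.sum_bool] <;> ring

lemma kernel_sum_left {n : ℕ} (ρ : ℝ) (y : Cube n) : ∑ x, kernel ρ x y = 1 := by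
  unfold kernel
  have h := Finset.prod_univ_sum (fun _ : Fin n => (univ : Finset Bool))
    (fun i a => fac ρ a (y i))
  rw [Fintype.piFinset_univ] at h
  rw [← h]
  simp only [fac_sum_left, prod_const_one]

lemma kernel_sum_right {n : ℕ} (ρ : ℝ) (x : Cube n) : ∑ y, kernel ρ x y = 1 := by
  unfold kernel
  have h := Finset.prod_univ_sum (fun _ : Fin n => (univ : Finset Bool))
    (fun i b => fac ρ (x i) b)
  rw [Fintype.piFinset_univ] at h
  rw [← h]
  simp only [fac_sum_right, prod_const_one]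

lemma fac_pos {ρ : ℝ} (hρ : |ρ| < 1) (a b : Bool) : 0 < fac ρ a b := by
  have h := abs_lt.mp hρ
  unfold fac
  split_ifs <;> linarith

lemma kernel_pos {n : ℕ} {ρ : ℝ} (hρ : |ρ| < 1) (x y : Cube n) : 0 < kernel ρ x y :=
  prod_pos fun i _ => fac_pos hρ _ _

lemma hasDerivAt_fac (ρ : ℝ) (a b : Bool) : HasDerivAt (fun r => fac r a b) (dfac a b) ρ := by
  unfold fac dfac
  by_cases h : a = b
  · simp only [h, if_true]
    have := ((hasDerivAt_id' ρ).const_add 1).div_const 2
    simpa using this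
  · simp only [h, if_false]
    have := ((hasDerivAt_id' ρ).const_sub 1).div_const 2
    have e : -(1 / 2 : ℝ) = -1 / 2 := by norm_num
    rw [e]
    exact this

lemma rho_dfac (ρ : ℝ) (a b : Bool) : ρ * dfac a b = (fac ρ a b - fac ρ a (!b)) / 2 := by
  cases a <;> cases b <;> simp [fac, dfac] <;> ring

lemma flipAt_self {n : ℕ} (i : Fin n) (y : Cube n) : flipAt i y i = !y i := by
  simp [flipAt]

lemma flipAt_ne {n : ℕ} {i j : Fin n} (h : j ≠ i) (y : Cube n) : flipAt i y j = y j := by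
  simp [flipAt, Function.update_of_ne h]

lemma flipAt_flipAt {n : ℕ} (i : Fin n) (y : Cube n) : flipAt i (flipAt i y) = y := by
  funext j
  by_cases h : j = i
  · subst h
    simp [flipAt_self]
  · rw [flipAt_ne h, flipAt_ne h]

lemma kernel_flip {n : ℕ} (ρ : ℝ) (x y : Cube n) (i : Fin n) :
    kernel ρ x (flipAt i y) = fac ρ (x i) (!y i) * ∏ j ∈ univ.erase i, fac ρ (x j) (y j) := by
  unfold kernel
  rw [← Finset.mul_prod_erase univ _ (mem_univ i), flipAt_self]
  congr 1
  apply prod_congr rfl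
  intro j hj
  rw [flipAt_ne (ne_of_mem_erase hj)]

lemma kernel_split {n : ℕ} (ρ : ℝ) (x y : Cube n) (i : Fin n) :
    kernel ρ x y = fac ρ (x i) (y i) * ∏ j ∈ univ.erase i, fac ρ (x j) (y j) := by
  unfold kernel
  rw [← Finset.mul_prod_erase univ _ (mem_univ i)]

lemma hasDerivAt_kernel {n : ℕ} (ρ : ℝ) (x y : Cube n) :
    ∃ d, HasDerivAt (fun r => kernel r x y) d ρ ∧
      ρ * d = ∑ i, (kernel ρ x y - kernel ρ x (flipAt i y)) / 2 := by
  refine ⟨_, HasDerivAt.fun_finsetProd (u := univ) (f := fun i r => fac r (x i) (y i))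
    (f' := fun i => dfac (x i) (y i)) (fun i _ => hasDerivAt_fac ρ _ _), ?_⟩
  rw [mul_sum]
  apply sum_congr rfl
  intro i _
  rw [kernel_flip, kernel_split ρ x y i, smul_eq_mul]
  have := rho_dfac ρ (x i) (y i)
  calc ρ * ((∏ j ∈ univ.erase i, fac ρ (x j) (y j)) * dfac (x i) (y i))
      = (ρ * dfac (x i) (y i)) * (∏ j ∈ univ.erase i, fac ρ (x j) (y j)) := by ring
    _ = _ := by rw [this]; ring

lemma hasDerivAt_noise {n : ℕ} (F : Cube n → ℝ) (ρ : ℝ) (y : Cube n) :
    ∃ d, HasDerivAt (fun r => noise F r y) d ρ ∧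
      ρ * d = ∑ i, (noise F ρ y - noise F ρ (flipAt i y)) / 2 := by
  choose D hD hD' using fun x => hasDerivAt_kernel (n := n) ρ x y
  refine ⟨∑ x, F x * D x, HasDerivAt.fun_sum fun x _ => (hD x).const_mul (F x), ?_⟩
  rw [mul_sum]
  have h1 : ∀ x, ρ * (F x * D x) = ∑ i, F x * ((kernel ρ x y - kernel ρ x (flipAt i y)) / 2) := by
    intro x
    rw [← mul_sum, ← hD' x]
    ring
  simp only [h1]
  rw [sum_comm]
  apply sum_congr rfl
  intro i _
  unfold noise
  rw [← sum_sub_distrib, sum_div]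
  apply sum_congr rfl
  intro x _
  ring

lemma hasDerivAt_ent {u : ℝ} (hu : |u| < 1) : HasDerivAt ent (-A u) u := by
  have hu' := abs_lt.mp hu
  have h1 : HasDerivAt (fun v : ℝ => (1 + v) / 2) (1 / 2) u := by
    have := ((hasDerivAt_id u).const_add 1).div_const 2
    simpa using this
  have h2 := hasDerivAt_binEntropy (p := (1 + u) / 2) (by linarith) (by linarith)
  have h3 : HasDerivAt ent ((log (1 - (1 + u) / 2) - log ((1 + u) / 2)) * (1 / 2)) u :=
    h2.comp u h1
  convert h3 using 1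
  unfold A
  have e : 1 - (1 + u) / 2 = (1 - u) / 2 := by ring
  rw [e, log_div (by linarith) (by norm_num), log_div (by linarith) (by norm_num)]
  ring

lemma avg_flip {n : ℕ} (i : Fin n) (g : Cube n → ℝ) : avg (fun y => g (flipAt i y)) = avg g := by
  unfold avg
  congr 1
  exact Equiv.sum_comp (Function.Involutive.toPerm (flipAt i) (flipAt_flipAt i)) g

lemma avg_A_sym {n : ℕ} (w : Cube n → ℝ) (i : Fin n) :
    avg (fun y => A (w y) * (w y - w (flipAt i y))) =
      avg (fun y => K (w y) (w (flipAt i y))) / 2 := by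
  set g : Cube n → ℝ := fun y => A (w y) * (w y - w (flipAt i y)) with hg
  have h1 : avg (fun y => g (flipAt i y)) = avg g := avg_flip i g
  have h2 : avg (fun y => K (w y) (w (flipAt i y))) = avg g + avg (fun y => g (flipAt i y)) := by
    rw [← avg_add]
    congr 1
    funext y
    simp only [hg, flipAt_flipAt, K]
    ring
  rw [h2, h1]
  ring

lemma hasDerivAt_Hn {n : ℕ} (F : Cube n → ℝ) {ρ : ℝ} (hb : ∀ y, |noise F ρ y| < 1) :
    ∃ d, HasDerivAt (Hn F) d ρ ∧ ρ * d = -(Dir (noise F ρ) / 4) := by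
  choose D hD hD' using fun y => hasDerivAt_noise F ρ y
  have h1 : ∀ y, HasDerivAt (ent ∘ fun r => noise F r y) (-A (noise F ρ y) * D y) ρ := fun y =>
    HasDerivAt.comp ρ (hasDerivAt_ent (hb y)) (hD y)
  refine ⟨(∑ y, -A (noise F ρ y) * D y) / 2 ^ n,
    (HasDerivAt.fun_sum fun y _ => h1 y).div_const _, ?_⟩
  set w := noise F ρ with hw
  have h2 : ρ * ((∑ y, -A (w y) * D y) / 2 ^ n) =
      ∑ i, (-(1 / 2)) * avg (fun y => A (w y) * (w y - w (flipAt i y))) := by
    unfold avg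
    rw [mul_div_assoc', mul_sum]
    have h3 : ∀ y, ρ * (-A (w y) * D y) =
        ∑ i, (-(1 / 2)) * (A (w y) * (w y - w (flipAt i y))) := by
      intro y
      calc ρ * (-A (w y) * D y) = -A (w y) * (ρ * D y) := by ring
        _ = -A (w y) * ∑ i, (w y - w (flipAt i y)) / 2 := by rw [hD' y]
        _ = _ := by
          rw [mul_sum]
          apply sum_congr rfl
          intro i _
          ring
    simp only [h3]
    rw [sum_comm, sum_div]
    apply sum_congr rfl
    intro i _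
    rw [← mul_sum]
    ring
  rw [h2]
  simp only [avg_A_sym]
  unfold Dir
  rw [sum_div, ← sum_neg_distrib]
  apply sum_congr rfl
  intro i _
  ring

lemma avg_noise {n : ℕ} (F : Cube n → ℝ) (ρ : ℝ) : avg (noise F ρ) = avg F := by
  unfold avg noise
  congr 1
  rw [sum_comm]
  apply sum_congr rfl
  intro x _
  rw [← mul_sum, kernel_sum_right, mul_one]

lemma abs_noise_lt {n : ℕ} {F : Cube n → ℝ} (hF : ∀ x, F x = 1 ∨ F x = -1) {x₀ x₁ : Cube n}
    (h₀ : F x₀ = 1) (h₁ : F x₁ = -1) {ρ : ℝ} (hρ : |ρ| < 1) (y : Cube n) :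
    |noise F ρ y| < 1 := by
  have hk := kernel_sum_left ρ y
  have hF1 : ∀ x, |F x| ≤ 1 := fun x => by
    rcases hF x with h | h <;> simp [h]
  rw [abs_lt]
  constructor
  · have h : 0 < ∑ x, (1 + F x) * kernel ρ x y := by
      apply sum_pos'
      · intro x _
        have := (abs_le.mp (hF1 x)).1
        exact mul_nonneg (by linarith) (kernel_pos hρ x y).le
      · refine ⟨x₀, mem_univ _, ?_⟩
        rw [h₀]
        have := kernel_pos hρ x₀ y
        positivity
    have e : ∑ x, (1 + F x) * kernel ρ x y = 1 + noise F ρ y := by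
      unfold noise
      simp only [add_mul, one_mul]
      rw [sum_add_distrib, hk]
    linarith
  · have h : 0 < ∑ x, (1 - F x) * kernel ρ x y := by
      apply sum_pos'
      · intro x _
        have := (abs_le.mp (hF1 x)).2
        exact mul_nonneg (by linarith) (kernel_pos hρ x y).le
      · refine ⟨x₁, mem_univ _, ?_⟩
        rw [h₁]
        have := kernel_pos hρ x₁ y
        have e : (1 - (-1 : ℝ)) = 2 := by norm_num
        rw [e]
        positivity
    have e : ∑ x, (1 - F x) * kernel ρ x y = 1 - noise F ρ y := by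
      unfold noise
      simp only [sub_mul, one_mul]
      rw [sum_sub_distrib, hk]
    linarith

lemma noise_one {n : ℕ} (F : Cube n → ℝ) (y : Cube n) : noise F 1 y = F y := by
  unfold noise
  have h : ∀ x, kernel 1 x y = if x = y then 1 else 0 := by
    intro x
    unfold kernel fac
    by_cases hxy : x = y
    · subst hxy
      simp
    · rw [if_neg hxy]
      obtain ⟨i, hi⟩ := Function.ne_iff.mp hxy
      apply prod_eq_zero (mem_univ i)
      rw [if_neg hi]
      norm_num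
  simp [h]

lemma Hn_one {n : ℕ} {F : Cube n → ℝ} (hF : ∀ x, F x = 1 ∨ F x = -1) : Hn F 1 = 0 := by
  unfold Hn avg
  have h : ∀ y, ent (noise F 1 y) = 0 := by
    intro y
    rw [noise_one]
    unfold ent
    rcases hF y with h | h <;> rw [h] <;> norm_num
  simp [h]

lemma continuous_noise {n : ℕ} (F : Cube n → ℝ) (y : Cube n) :
    Continuous (fun r => noise F r y) := by
  rw [continuous_iff_continuousAt]
  intro ρ
  obtain ⟨d, hd, -⟩ := hasDerivAt_noise F ρ y
  exact hd.continuousAt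

lemma continuous_Hn {n : ℕ} (F : Cube n → ℝ) : Continuous (Hn F) := by
  have h : ∀ y, Continuous (fun r => ent (noise F r y)) := by
    intro y
    unfold ent
    exact binEntropy_continuous.comp ((continuous_const.add (continuous_noise F y)).div_const 2)
  unfold Hn avg
  exact (continuous_finsetSum _ fun y _ => h y).div_const _

/-- The derivative of the entropy along the noise semigroup. -/
lemma hasDerivAt_Hn' {n : ℕ} {F : Cube n → ℝ} (hF : ∀ x, F x = 1 ∨ F x = -1) {x₀ x₁ : Cube n}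
    (h₀ : F x₀ = 1) (h₁ : F x₁ = -1) {ρ : ℝ} (hρ0 : 0 < ρ) (hρ1 : ρ < 1) :
    HasDerivAt (Hn F) (-(Dir (noise F ρ) / 4) / ρ) ρ := by
  have hρ : |ρ| < 1 := by rw [abs_of_pos hρ0]; exact hρ1
  obtain ⟨d, hd, hd'⟩ := hasDerivAt_Hn F (fun y => abs_noise_lt hF h₀ h₁ hρ y)
  have : -(Dir (noise F ρ) / 4) / ρ = d := by
    rw [← hd']
    field_simp
  rw [this]
  exact hd

lemma Hn_antitone {n : ℕ} {F : Cube n → ℝ} (hF : ∀ x, F x = 1 ∨ F x = -1) {x₀ x₁ : Cube n}
    (h₀ : F x₀ = 1) (h₁ : F x₁ = -1) {ρ ξ : ℝ} (hρ0 : 0 < ρ) (hρξ : ρ ≤ ξ) (hξ1 : ξ < 1) :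
    Hn F ξ ≤ Hn F ρ := by
  rcases eq_or_lt_of_le hρξ with h | h
  · rw [h]
  obtain ⟨c, hc, hc'⟩ := exists_hasDerivAt_eq_slope (Hn F)
    (fun r => -(Dir (noise F r) / 4) / r) h (continuous_Hn F).continuousOn
    (fun r hr => hasDerivAt_Hn' hF h₀ h₁ (lt_trans hρ0 hr.1) (lt_trans hr.2 hξ1))
  have hc0 : 0 < c := lt_trans hρ0 hc.1
  have hc1 : c < 1 := lt_trans hc.2 hξ1
  have hcabs : |c| < 1 := by rw [abs_of_pos hc0]; exact hc1
  have hD : 0 ≤ Dir (noise F c) := Dir_nonneg fun y => abs_noise_lt hF h₀ h₁ hcabs y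
  have hneg : -(Dir (noise F c) / 4) / c ≤ 0 := by
    apply div_nonpos_of_nonpos_of_nonneg _ hc0.le
    linarith
  rw [hc'] at hneg
  have hpos : 0 < ξ - ρ := by linarith
  have := (div_nonpos_iff.mp hneg)
  rcases this with ⟨_, h2⟩ | ⟨h1, _⟩
  · linarith
  · linarith

lemma G_antitone {a H H' : ℝ} (ha : |a| ≤ 1) (hH' : 0 < H') (hHH : H' ≤ H) : G a H ≤ G a H' := by
  unfold G
  have hH : 0 < H := lt_of_lt_of_le hH' hHH
  have hκ : (0 : ℝ) < 4 / 3 := by norm_num
  rw [LL_eq hκ (abs_nonneg a) hH, LL_eq hκ (abs_nonneg a) hH',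
    log_div (by norm_num) hH.ne', log_div (by norm_num) hH'.ne']
  have h1 : log H' ≤ log H := log_le_log hH' hHH
  have h2 : log (H' + 4 / 3 * |a|) ≤ log (H + 4 / 3 * |a|) :=
    log_le_log (by positivity) (by linarith)
  have h3 := mul_le_mul_of_nonneg_left h2 (abs_nonneg a)
  have h4 := mul_le_mul_of_nonneg_right ha (sub_nonneg.mpr h1)
  linarith

/-- **Main implicit inequality.** -/
theorem main_implicit {n : ℕ} {F : Cube n → ℝ} (hF : ∀ x, F x = 1 ∨ F x = -1) {x₀ x₁ : Cube n}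
    (h₀ : F x₀ = 1) (h₁ : F x₁ = -1) {ρ : ℝ} (hρ0 : 0 < ρ) (hρ1 : ρ < 1) :
    (1 - ρ) / 4 * G (avg F) (Hn F ρ) ≤ Hn F ρ := by
  obtain ⟨c, hc, hc'⟩ := exists_hasDerivAt_eq_slope (Hn F)
    (fun r => -(Dir (noise F r) / 4) / r) hρ1 (continuous_Hn F).continuousOn
    (fun r hr => hasDerivAt_Hn' hF h₀ h₁ (lt_trans hρ0 hr.1) hr.2)
  have hc0 : 0 < c := lt_trans hρ0 hc.1
  have hc1 : c < 1 := hc.2
  have hcabs : |c| < 1 := by rw [abs_of_pos hc0]; exact hc1
  have hbc : ∀ y, |noise F c y| < 1 := fun y => abs_noise_lt hF h₀ h₁ hcabs y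
  have hD : 0 ≤ Dir (noise F c) := Dir_nonneg hbc
  rw [Hn_one hF] at hc'
  have hslope : 0 < 1 - ρ := by linarith
  have hH : Hn F ρ = (1 - ρ) * (Dir (noise F c) / 4 / c) := by
    have e : (0 - Hn F ρ) / (1 - ρ) = -(Hn F ρ / (1 - ρ)) := by
      rw [zero_sub, neg_div]
    rw [e] at hc'
    have e2 : -(Dir (noise F c) / 4) / c = -(Dir (noise F c) / 4 / c) := by
      rw [neg_div]
    rw [e2, neg_inj] at hc'
    rw [hc']
    field_simp
  have hbell := bellman n (noise F c) hbc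
  rw [avg_noise] at hbell
  -- monotonicity
  have hmono : Hn F c ≤ Hn F ρ := Hn_antitone hF h₀ h₁ hρ0 hc.1.le hc1
  have hHcpos : 0 < Hn F c := by
    unfold Hn
    exact avg_pos fun y => ent_pos (hbc y)
  have hFbd : |avg F| ≤ 1 := by
    refine le_trans (abs_avg_le F) ?_
    rw [← avg_const (n := n) 1]
    apply avg_le_avg
    intro x
    rcases hF x with h | h <;> simp [h]
  have hG := G_antitone hFbd hHcpos hmono
  have h5 : G (avg F) (Hn F ρ) ≤ Dir (noise F c) := le_trans hG hbell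
  have h6 : Dir (noise F c) / 4 ≤ Dir (noise F c) / 4 / c := by
    rw [le_div_iff₀ hc0]
    have : 0 ≤ Dir (noise F c) / 4 := by positivity
    nlinarith
  have h7 : (1 - ρ) / 4 * G (avg F) (Hn F ρ) ≤ (1 - ρ) * (Dir (noise F c) / 4 / c) := by
    have h8 := mul_le_mul_of_nonneg_left h5 hslope.le
    have h9 := mul_le_mul_of_nonneg_left h6 hslope.le
    linarith
  exact le_of_le_of_eq h7 hH.symm

end Vale.Agent.P322
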