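import Vale.Agent.P322.Tools

open Real Finset

namespace Vale.Agent.P322

lemma be_second_le {q : ℝ} (_h0 : 0 ≤ q) (h1 : q ≤ 1) : (1 - q) * log (1 - q)⁻¹ ≤ q := by
  rcases eq_or_lt_of_le h1 with h | h
  · rw [h]
    simp
  · have hp : 0 < 1 - q := by linarith
    have := log_le_sub_one_of_pos (inv_pos.mpr hp)
    have h2 := mul_le_mul_of_nonneg_left this hp.le
    have e : (1 - q) * ((1 - q)⁻¹ - 1) = q := by
      field_simp
      ring
    linarith

lemma be_second_ge {q : ℝ} (_h0 : 0 ≤ q) (h1 : q ≤ 1) : (1 - q) * q ≤ (1 - q) * log (1 - q)⁻¹ := by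
  rcases eq_or_lt_of_le h1 with h | h
  · rw [h]
    simp
  · have hp : 0 < 1 - q := by linarith
    have := one_sub_inv_le_log_of_pos (inv_pos.mpr hp)
    rw [inv_inv] at this
    apply mul_le_mul_of_nonneg_left _ hp.le
    linarith

lemma be_first_nonneg {q : ℝ} (h0 : 0 ≤ q) (h1 : q ≤ 1) : 0 ≤ q * log q⁻¹ := by
  rcases eq_or_lt_of_le h0 with h | h
  · rw [← h]
    simp
  · apply mul_nonneg h0
    rw [log_inv]
    have := log_nonpos h0 h1
    linarith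

lemma be_ge_mul_log {q : ℝ} (h0 : 0 ≤ q) (h1 : q ≤ 1) : q * log q⁻¹ ≤ binEntropy q := by
  unfold binEntropy
  have := be_second_ge h0 h1
  have : 0 ≤ (1 - q) * q := mul_nonneg (by linarith) h0
  linarith

lemma be_ge2 {q : ℝ} (h0 : 0 ≤ q) (h1 : q ≤ 1) : q * log q⁻¹ + q * (1 - q) ≤ binEntropy q := by
  unfold binEntropy
  have := be_second_ge h0 h1
  linarith

lemma be_le2 {q : ℝ} (h0 : 0 ≤ q) (h1 : q ≤ 1) : binEntropy q ≤ q * log q⁻¹ + q := by
  unfold binEntropy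
  have := be_second_le h0 h1
  linarith

/-- Tangent-line upper bound of the binary entropy. -/
lemma be_le_tangent {q T : ℝ} (h0 : 0 ≤ q) (h1 : q ≤ 1) (hT : 0 < T) :
    binEntropy q ≤ q * log T + 1 / T := by
  have h2 := be_le2 h0 h1
  rcases eq_or_lt_of_le h0 with h | h
  · rw [← h]
    simp
    positivity
  · have hqT : 0 < q * T := mul_pos h hT
    have h3 := log_le_sub_one_of_pos (inv_pos.mpr hqT)
    rw [log_inv, log_mul h.ne' hT.ne'] at h3
    rw [log_inv] at h2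
    have h4 := mul_le_mul_of_nonneg_left h3 h0
    have e : q * ((q * T)⁻¹ - 1) = 1 / T - q := by
      field_simp
    rw [e] at h4
    nlinarith

/-- Subadditivity of the binary entropy. -/
lemma be_subadd {s t : ℝ} (hs : 0 ≤ s) (ht : 0 ≤ t) (hst : s + t ≤ 1) :
    binEntropy (s + t) ≤ binEntropy s + binEntropy t := by
  rcases eq_or_lt_of_le (add_nonneg hs ht) with h | h
  · have hs0 : s = 0 := by linarith
    have ht0 : t = 0 := by linarith
    rw [hs0, ht0]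
    simp
  have key : ∀ u : ℝ, 0 ≤ u → u ≤ s + t → u / (s + t) * binEntropy (s + t) ≤ binEntropy u := by
    intro u hu0 hut
    have hθ0 : 0 ≤ u / (s + t) := div_nonneg hu0 h.le
    have hθ1 : u / (s + t) ≤ 1 := (div_le_one h).mpr hut
    have := binEntropy_concave_ineq (x := s + t) (y := 0) (a := u / (s + t)) (b := 1 - u / (s + t))
      ⟨h.le, hst⟩ ⟨le_rfl, by norm_num⟩ hθ0 (by linarith) (by ring)
    simp only [mul_zero, add_zero, binEntropy_zero] at this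
    have e : u / (s + t) * (s + t) = u := by field_simp
    rwa [e] at this
  have k1 := key s hs (by linarith)
  have k2 := key t ht (by linarith)
  have e : s / (s + t) + t / (s + t) = 1 := by field_simp
  have : binEntropy (s + t) = (s / (s + t) + t / (s + t)) * binEntropy (s + t) := by
    rw [e, one_mul]
  rw [this]
  linarith

/-- Concavity of `w0`. -/
lemma w0_concave {ε U₁ U₂ θ : ℝ} (h0 : 0 ≤ ε) (h1 : ε ≤ 1) (hU₁ : U₁ ∈ Set.Icc (0 : ℝ) 1)
    (hU₂ : U₂ ∈ Set.Icc (0 : ℝ) 1) (hθ0 : 0 ≤ θ) (hθ1 : θ ≤ 1) :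
    θ * w0 ε U₁ + (1 - θ) * w0 ε U₂ ≤ w0 ε (θ * U₁ + (1 - θ) * U₂) := by
  have m1 : ∀ c U : ℝ, 0 ≤ c → c ≤ 1 → U ∈ Set.Icc (0 : ℝ) 1 → c * U ∈ Set.Icc (0 : ℝ) 1 := by
    intro c U hc0 hc1 hU
    exact ⟨mul_nonneg hc0 hU.1, by nlinarith [hU.1, hU.2]⟩
  have a1 := binEntropy_concave_ineq (a := θ) (b := 1 - θ) (m1 ε U₁ h0 h1 hU₁) (m1 ε U₂ h0 h1 hU₂)
    hθ0 (by linarith) (by ring)
  have a2 := binEntropy_concave_ineq (a := θ) (b := 1 - θ)
    (m1 (1 - ε) U₁ (by linarith) (by linarith) hU₁)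
    (m1 (1 - ε) U₂ (by linarith) (by linarith) hU₂) hθ0 (by linarith) (by ring)
  unfold w0
  have e1 : ε * (θ * U₁ + (1 - θ) * U₂) = θ * (ε * U₁) + (1 - θ) * (ε * U₂) := by ring
  have e2 : (1 - ε) * (θ * U₁ + (1 - θ) * U₂) = θ * ((1 - ε) * U₁) + (1 - θ) * ((1 - ε) * U₂) := by
    ring
  rw [e1, e2]
  linarith

lemma w0_zero (ε : ℝ) : w0 ε 0 = 0 := by
  unfold w0
  simp

lemma w0_one (ε : ℝ) : w0 ε 1 = binEntropy ε := by
  unfold w0
  simp

/-- Chord through the origin. -/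
lemma w0_chord_zero {ε U V : ℝ} (h0 : 0 ≤ ε) (h1 : ε ≤ 1) (hU : 0 ≤ U) (hUV : U ≤ V) (hV : V ≤ 1)
    (hV0 : 0 < V) : U * w0 ε V ≤ V * w0 ε U := by
  have hθ0 : 0 ≤ U / V := div_nonneg hU hV0.le
  have hθ1 : U / V ≤ 1 := (div_le_one hV0).mpr hUV
  have := w0_concave (θ := U / V) h0 h1 (U₁ := V) (U₂ := 0) ⟨hV0.le, hV⟩ ⟨le_rfl, by norm_num⟩ hθ0 hθ1
  rw [w0_zero] at this
  have e : U / V * V + (1 - U / V) * 0 = U := by field_simp; ring
  rw [e] at this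
  have h2 := mul_le_mul_of_nonneg_left this hV0.le
  have e2 : V * (U / V * w0 ε V + (1 - U / V) * 0) = U * w0 ε V := by
    field_simp
    ring
  rwa [e2] at h2

/-- `w0 ≥ h U`. -/
lemma w0_ge_mul {ε U : ℝ} (h0 : 0 ≤ ε) (h1 : ε ≤ 1) (hU : 0 ≤ U) (hU1 : U ≤ 1) :
    binEntropy ε * U ≤ w0 ε U := by
  have := w0_chord_zero h0 h1 hU hU1 le_rfl (by norm_num)
  rw [w0_one] at this
  linarith

/-- Chord near the corner. -/
lemma w0_chord_one {ε σ τ : ℝ} (h0 : 0 ≤ ε) (h1 : ε ≤ 1) (hσ : 0 ≤ σ) (hστ : σ ≤ τ) (hτ : τ ≤ 1)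
    (hτ0 : 0 < τ) : (τ - σ) * binEntropy ε + σ * w0 ε (1 - τ) ≤ τ * w0 ε (1 - σ) := by
  have hθ0 : 0 ≤ σ / τ := div_nonneg hσ hτ0.le
  have hθ1 : σ / τ ≤ 1 := (div_le_one hτ0).mpr hστ
  have := w0_concave (θ := σ / τ) h0 h1 (U₁ := 1 - τ) (U₂ := 1)
    ⟨by linarith, by linarith⟩ ⟨by norm_num, le_rfl⟩ hθ0 hθ1
  rw [w0_one] at this
  have e : σ / τ * (1 - τ) + (1 - σ / τ) * 1 = 1 - σ := by
    field_simp
    ring
  rw [e] at this
  have h2 := mul_le_mul_of_nonneg_left this hτ0.le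
  have e2 : τ * (σ / τ * w0 ε (1 - τ) + (1 - σ / τ) * binEntropy ε) =
      (τ - σ) * binEntropy ε + σ * w0 ε (1 - τ) := by
    field_simp
    ring
  rwa [e2] at h2

/-- Interior lower bound from the endpoints. -/
lemma w0_ge_of_endpoints {ε U₁ U₂ U c : ℝ} (h0 : 0 ≤ ε) (h1 : ε ≤ 1) (hU₁ : 0 ≤ U₁) (hU₂ : U₂ ≤ 1)
    (h1U : U₁ ≤ U) (hU2 : U ≤ U₂) (c1 : c ≤ w0 ε U₁) (c2 : c ≤ w0 ε U₂) : c ≤ w0 ε U := by
  rcases eq_or_lt_of_le (le_trans h1U hU2) with h | h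
  · have : U = U₁ := by linarith
    rw [this]
    exact c1
  have hd : 0 < U₂ - U₁ := by linarith
  set θ := (U₂ - U) / (U₂ - U₁) with hθ
  have hθ0 : 0 ≤ θ := div_nonneg (by linarith) hd.le
  have hθ1 : θ ≤ 1 := (div_le_one hd).mpr (by linarith)
  have := w0_concave (θ := θ) h0 h1 (U₁ := U₁) (U₂ := U₂) ⟨hU₁, by linarith⟩ ⟨by linarith, hU₂⟩
    hθ0 hθ1
  have e : θ * U₁ + (1 - θ) * U₂ = U := by
    rw [hθ]
    field_simp
    ring
  rw [e] at this
  have : θ * c + (1 - θ) * c ≤ w0 ε U := by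
    have a1 := mul_le_mul_of_nonneg_left c1 hθ0
    have a2 := mul_le_mul_of_nonneg_left c2 (by linarith : 0 ≤ 1 - θ)
    linarith
  have e2 : θ * c + (1 - θ) * c = c := by ring
  linarith

/-- `W` on the antidiagonal. -/
lemma w0_le_ent {ε U : ℝ} (h0 : 0 ≤ ε) (h1 : ε ≤ 1) (hU0 : 0 ≤ U) (hU1 : U ≤ 1) :
    w0 ε U ≤ ent ((1 - 2 * ε) * U) := by
  have hx : |U| ≤ 1 := by
    rw [abs_le]
    constructor <;> linarith
  have hy : |-U| ≤ 1 := by rwa [abs_neg]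
  have := w0_le_WW h0 h1 hx hy
  have e1 : (U - -U) / 2 = U := by ring
  rw [e1, abs_of_nonneg hU0] at this
  rw [WW_eq_abs] at this
  have e2 : (U - -U) / 2 = U := by ring
  have e3 : (U + -U) / 2 = 0 := by ring
  rw [e2, e3, abs_of_nonneg hU0, zero_add, zero_sub, ent_symm] at this
  linarith

/-- Tangent lower bound for the antidiagonal difference. -/
lemma d_ge_tangent {ε U : ℝ} (h0 : 0 < ε) (h1 : ε ≤ 1 / 2) (hU0 : 0 ≤ U) (hU1 : U ≤ 1) :
    2 * ε * U * A ((1 - 2 * ε) * U) ≤ ent ((1 - 2 * ε) * U) - ent U := by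
  have hp : |(1 - 2 * ε) * U| < 1 := by
    rw [abs_lt]
    constructor <;> nlinarith
  have hq : |U| ≤ 1 := by
    rw [abs_le]
    constructor <;> linarith
  have := ent_tangent hp hq
  have e : U - (1 - 2 * ε) * U = 2 * ε * U := by ring
  rw [e] at this
  linarith

/-- Lower bound on `2 A p` near `p = 1`. -/
lemma two_A_ge {p t : ℝ} (hp0 : 0 ≤ p) (hp1 : p < 1) (ht : 1 - p ≤ t) : -log t ≤ 2 * A p := by
  unfold A
  have h1 : 0 ≤ log (1 + p) := log_nonneg (by linarith)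
  have h2 : log (1 - p) ≤ log t := log_le_log (by linarith) ht
  linarith

/-- The tiny-noise numerical facts. -/
lemma log_inv_ge_23 {ε : ℝ} (h0 : 0 < ε) (hs : ε ≤ 1 / 10 ^ 10) : 23 ≤ log ε⁻¹ := by
  have h1 : (10 : ℝ) ^ 10 ≤ ε⁻¹ := by
    rw [le_inv_comm₀ (by positivity) h0]
    simpa using hs
  have h2 : log ((10 : ℝ) ^ 10) ≤ log ε⁻¹ := log_le_log (by positivity) h1
  have h3 : (23 : ℝ) ≤ log ((10 : ℝ) ^ 10) := by
    rw [le_log_iff_exp_le (by positivity)]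
    have e1 : exp 23 = exp 1 ^ 23 := by
      rw [← exp_nat_mul]
      norm_num
    rw [e1]
    have h4 := exp_one_lt_d9
    have h5 : exp 1 ^ 23 ≤ (2.7182818286 : ℝ) ^ 23 :=
      pow_le_pow_left₀ (exp_pos 1).le h4.le 23
    refine le_trans h5 ?_
    norm_num
  exact le_trans h3 h2

lemma exp_neg_log_inv {ε : ℝ} (h0 : 0 < ε) : exp (-log ε⁻¹) = ε := by
  rw [log_inv, neg_neg, exp_log h0]

lemma eps_mul_log_le {ε : ℝ} (h0 : 0 < ε) (hs : ε ≤ 1 / 10 ^ 10) : ε * log ε⁻¹ ≤ 1 / 50000 := by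
  set L := log ε⁻¹ with hL
  have hL0 : 0 ≤ L := by
    have := log_inv_ge_23 h0 hs
    linarith
  have h1 : 1 + L / 2 ≤ exp (L / 2) := by
    have := add_one_le_exp (L / 2)
    linarith
  have h2 : (1 + L / 2) ^ 2 ≤ exp L := by
    have e : exp L = exp (L / 2) ^ 2 := by
      rw [← exp_nat_mul]
      congr 1
      push_cast
      ring
    rw [e]
    exact pow_le_pow_left₀ (by positivity) h1 2
  have h3 : exp L = ε⁻¹ := by
    rw [hL, exp_log (inv_pos.mpr h0)]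
  rw [h3] at h2
  have h4 : ε * (1 + L / 2) ^ 2 ≤ 1 := by
    have := mul_le_mul_of_nonneg_left h2 h0.le
    rwa [mul_inv_cancel₀ h0.ne'] at this
  -- (ε (1 + L/2))² ≤ ε
  have h5 : (ε * (1 + L / 2)) ^ 2 ≤ (1 / 100000) ^ 2 := by
    have : (ε * (1 + L / 2)) ^ 2 = ε * (ε * (1 + L / 2) ^ 2) := by ring
    rw [this]
    have h6 : ε * (ε * (1 + L / 2) ^ 2) ≤ ε * 1 := mul_le_mul_of_nonneg_left h4 h0.le
    have h7 : ε ≤ (1 / 100000 : ℝ) ^ 2 := by
      refine le_trans hs ?_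
      norm_num
    linarith
  have h8 : ε * (1 + L / 2) ≤ 1 / 100000 := by
    exact abs_le_of_sq_le_sq' h5 (by norm_num) |>.2
  nlinarith

lemma h_bounds {ε : ℝ} (h0 : 0 < ε) (h1 : ε ≤ 1) :
    ε * log ε⁻¹ ≤ binEntropy ε ∧ binEntropy ε ≤ ε * (log ε⁻¹ + 1) := by
  constructor
  · exact be_ge_mul_log h0.le h1
  · have := be_le2 h0.le h1
    linarith

/-- The logarithm of a small quantity. -/
lemma log_inv_ge_sub {ε q c : ℝ} (h0 : 0 < ε) (hc : 0 < c) (hq : 0 < q) (hqc : q ≤ c * ε) :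
    log ε⁻¹ - log c ≤ log q⁻¹ := by
  have := log_le_log hq hqc
  rw [log_mul hc.ne' h0.ne'] at this
  rw [log_inv, log_inv]
  linarith

lemma log_thirteen_le : log 13 ≤ 2.59 := by
  have h := log_two_lt_d9
  have h1 : log (13 / 16) ≤ 13 / 16 - 1 := log_le_sub_one_of_pos (by norm_num)
  have h2 : log (13 / 16 : ℝ) = log 13 - 4 * log 2 := by
    rw [log_div (by norm_num) (by norm_num)]
    have : (16 : ℝ) = 2 ^ 4 := by norm_num
    rw [this, log_pow]
    push_cast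
    ring
  rw [h2] at h1
  norm_num at h1 ⊢
  linarith

lemma log_fourteen_le : log 14 ≤ 2.65 := by
  have h := log_two_lt_d9
  have h1 : log (14 / 16) ≤ 14 / 16 - 1 := log_le_sub_one_of_pos (by norm_num)
  have h2 : log (14 / 16 : ℝ) = log 14 - 4 * log 2 := by
    rw [log_div (by norm_num) (by norm_num)]
    have : (16 : ℝ) = 2 ^ 4 := by norm_num
    rw [this, log_pow]
    push_cast
    ring
  rw [h2] at h1
  norm_num at h1 ⊢
  linarith

lemma log_four_le : log 4 ≤ 1.3864 := by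
  have h := log_two_lt_d9
  have h2 : log (4 : ℝ) = 2 * log 2 := by
    have : (4 : ℝ) = 2 ^ 2 := by norm_num
    rw [this, log_pow]
    push_cast
    ring
  rw [h2]
  norm_num at h ⊢
  linarith

/-- First numerical input: `w0` at distance `12 ε` from the corner is large. -/
lemma N1 {ε : ℝ} (h0 : 0 < ε) (hs : ε ≤ 1 / 10 ^ 10) :
    5 * binEntropy ε ≤ w0 ε (1 - 12 * ε) := by
  have hL := log_inv_ge_23 h0 hs
  have hε : ε ≤ 1 / 10 ^ 10 := hs
  have hε1 : ε ≤ 1 / 1000 := le_trans hs (by norm_num)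
  set q := 13 * ε - 12 * ε ^ 2 with hq
  have hq0 : 12 * ε ≤ q := by
    rw [hq]
    nlinarith
  have hq1 : q ≤ 13 * ε := by
    rw [hq]
    nlinarith [sq_nonneg ε]
  have hqpos : 0 < q := by linarith
  have hq2 : q ≤ 1 := by linarith
  have e1 : (1 - ε) * (1 - 12 * ε) = 1 - q := by
    rw [hq]
    ring
  have h1 : 0 ≤ binEntropy (ε * (1 - 12 * ε)) := by
    apply binEntropy_nonneg
    · apply mul_nonneg h0.le
      linarith
    · nlinarith
  have h2 := be_ge_mul_log hqpos.le hq2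
  have h3 := log_inv_ge_sub h0 (by norm_num) hqpos hq1
  have h4 := log_thirteen_le
  have h5 := (h_bounds h0 (by linarith)).2
  unfold w0
  rw [e1, binEntropy_one_sub]
  set L := log ε⁻¹ with hLdef
  have h6 : 12 * ε * (L - 2.59) ≤ q * log q⁻¹ := by
    have a1 : L - 2.59 ≤ log q⁻¹ := by linarith
    have a2 : 0 ≤ L - 2.59 := by linarith
    exact le_trans (mul_le_mul_of_nonneg_right hq0 a2) (mul_le_mul_of_nonneg_left a1 hqpos.le)
  nlinarith

end Vale.Agent.P322
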