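import Vale.Agent.P322.Num1

open Real Finset

namespace Vale.Agent.P322

/-- Reduction of validity to one variable. -/
lemma valid_of_1d {ε a b : ℝ} (h0 : 0 ≤ ε) (h1 : ε ≤ 1 / 2) (ha : 0 ≤ a)
    (H : ∀ U, 0 ≤ U → U ≤ 1 → b * U ≤ a * w0 ε U + (ent ((1 - 2 * ε) * U) - ent U)) :
    Valid (1 - 2 * ε) a b := by
  intro x y hx hy
  have U0 := abs_nonneg ((x - y) / 2)
  have hU1 : |(x - y) / 2| ≤ 1 := by
    have h2 := abs_mid_le hx hy
    have h3 := abs_nonneg ((x + y) / 2)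
    linarith
  have h4 := H _ U0 hU1
  have h5 := w0_le_WW h0 (by linarith) hx hy
  have h6 := d_le_DD (ρ := 1 - 2 * ε) (by linarith) (by linarith) hx hy
  have h7 := mul_le_mul_of_nonneg_left h5 ha
  linarith

lemma log_le_tangent {y c : ℝ} (hy : 0 < y) (hc : 0 < c) : log y ≤ y / c - 1 + log c := by
  have h1 := log_le_sub_one_of_pos (div_pos hy hc)
  rw [log_div hy.ne' hc.ne'] at h1
  linarith

lemma log_sixtyfour_le : log 64 ≤ 4.159 := by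
  have h := log_two_lt_d9
  have h2 : log (64 : ℝ) = 6 * log 2 := by
    have : (64 : ℝ) = 2 ^ 6 := by norm_num
    rw [this, log_pow]
    push_cast
    ring
  rw [h2]
  norm_num at h ⊢
  linarith

/-- `d ≥ 0`. -/
lemma A_nonneg {x : ℝ} (h0 : 0 ≤ x) (h1 : x < 1) : 0 ≤ A x := by
  have := A_ge_self h0 h1
  linarith

lemma d_nonneg {ε U : ℝ} (h0 : 0 < ε) (h1 : ε ≤ 1 / 2) (hU0 : 0 ≤ U) (hU1 : U ≤ 1) :
    0 ≤ ent ((1 - 2 * ε) * U) - ent U := by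
  have h2 := d_ge_tangent h0 h1 hU0 hU1
  have hp0 : 0 ≤ (1 - 2 * ε) * U := mul_nonneg (by linarith) hU0
  have hp1 : (1 - 2 * ε) * U < 1 := by nlinarith
  have h3 := A_nonneg hp0 hp1
  have h4 : 0 ≤ 2 * ε * U * A ((1 - 2 * ε) * U) := by positivity
  linarith

/-- The `1 - 3 ε` value. -/
lemma N34 {ε : ℝ} (h0 : 0 < ε) (hs : ε ≤ 1 / 10 ^ 10) :
    5 / 2 * ε * log ε⁻¹ - 0.2728 * ε - ε ^ 2 * (3 * log ε⁻¹ + 10) ≤ w0 ε (1 - 3 * ε) := by
  have hL := log_inv_ge_23 h0 hs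
  set L := log ε⁻¹ with hLdef
  have hε1 : ε ≤ 1 / 1000 := le_trans hs (by norm_num)
  set q₁ := ε - 3 * ε ^ 2 with hq₁
  set q₂ := 4 * ε - 3 * ε ^ 2 with hq₂
  have hq₁0 : 0 < q₁ := by rw [hq₁]; nlinarith
  have hq₁1 : q₁ ≤ 1 * ε := by rw [hq₁]; nlinarith [sq_nonneg ε]
  have hq₂0 : 0 < q₂ := by rw [hq₂]; nlinarith
  have hq₂1 : q₂ ≤ 4 * ε := by rw [hq₂]; nlinarith [sq_nonneg ε]
  have e1 : ε * (1 - 3 * ε) = q₁ := by rw [hq₁]; ring
  have e2 : (1 - ε) * (1 - 3 * ε) = 1 - q₂ := by rw [hq₂]; ring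
  unfold w0
  rw [e1, e2, binEntropy_one_sub]
  have a1 := be_ge2 hq₁0.le (by linarith)
  have a2 := be_ge2 hq₂0.le (by linarith)
  have b1 := log_inv_ge_sub h0 (by norm_num) hq₁0 hq₁1
  have b2 := log_inv_ge_sub h0 (by norm_num) hq₂0 hq₂1
  rw [log_one] at b1
  have b4 := log_four_le
  rw [← hLdef] at b1 b2
  have c1 : q₁ * L ≤ q₁ * log q₁⁻¹ := mul_le_mul_of_nonneg_left (by linarith) hq₁0.le
  have c2 : q₂ * (L - 1.3864) ≤ q₂ * log q₂⁻¹ :=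
    mul_le_mul_of_nonneg_left (by linarith) hq₂0.le
  have d0 : 0 ≤ ε ^ 3 := by positivity
  have d1 : 0 ≤ ε ^ 4 := by positivity
  have e3 : q₁ * L + q₁ * (1 - q₁) + (q₂ * (L - 1.3864) + q₂ * (1 - q₂)) =
      5 * ε * L - 0.5456 * ε - ε ^ 2 * (6 * L + 18.8408) + 30 * ε ^ 3 - 18 * ε ^ 4 := by
    rw [hq₁, hq₂]
    ring
  have d2 : 18 * ε ^ 4 ≤ ε ^ 2 * 1 := by nlinarith [sq_nonneg ε, sq_nonneg (ε ^ 2)]
  nlinarith

/-- `h ≥ ` a multiple of `ε`. -/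
lemma h_ge_of_L {ε : ℝ} (h0 : 0 < ε) (hs : ε ≤ 1 / 10 ^ 10) : 23 * ε ≤ binEntropy ε := by
  have h1 := (h_bounds h0 (le_trans hs (by norm_num))).1
  have h2 := log_inv_ge_23 h0 hs
  nlinarith

/-- Corner value bound used in region R2. -/
lemma N3' {ε : ℝ} (h0 : 0 < ε) (hs : ε ≤ 1 / 10 ^ 10) :
    binEntropy ε + 16 * ε ≤ w0 ε (1 - 3 * ε) := by
  have h1 := N34 h0 hs
  have h2 := (h_bounds h0 (le_trans hs (by norm_num))).2
  have h3 := log_inv_ge_23 h0 hs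
  have h4 := eps_mul_log_le h0 hs
  set L := log ε⁻¹
  have h5 : ε ^ 2 * (3 * L + 10) ≤ ε * (1 / 1000) := by
    have : ε * (3 * L + 10) ≤ 1 / 1000 := by nlinarith
    calc ε ^ 2 * (3 * L + 10) = ε * (ε * (3 * L + 10)) := by ring
      _ ≤ ε * (1 / 1000) := mul_le_mul_of_nonneg_left this h0.le
  nlinarith

lemma N4 {ε : ℝ} (h0 : 0 < ε) (hs : ε ≤ 1 / 10 ^ 10) :
    binEntropy ε + 3 * ε * ((log ε⁻¹ - 1) / 2 - binEntropy ε) ≤ w0 ε (1 - 3 * ε) := by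
  have h1 := N34 h0 hs
  have h2 := (h_bounds h0 (le_trans hs (by norm_num))).2
  have h3 := log_inv_ge_23 h0 hs
  have h4 := eps_mul_log_le h0 hs
  have h6 : 0 ≤ binEntropy ε := binEntropy_nonneg h0.le (le_trans hs (by norm_num))
  set L := log ε⁻¹
  have h5 : ε ^ 2 * (3 * L + 10) ≤ ε * (1 / 1000) := by
    have : ε * (3 * L + 10) ≤ 1 / 1000 := by nlinarith
    calc ε ^ 2 * (3 * L + 10) = ε * (ε * (3 * L + 10)) := by ring
      _ ≤ ε * (1 / 1000) := mul_le_mul_of_nonneg_left this h0.le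
  have h7 : 0 ≤ 3 * ε * binEntropy ε := by positivity
  nlinarith

lemma q_small {a L : ℝ} (ha : 1 / 4 ≤ a) (hL : 23 ≤ L) : 2 * exp (-((1 + a) * (L - 1))) ≤ 1 / 3 := by
  have h2 : exp (-((1 + a) * (L - 1))) ≤ exp (-1 * 2) := by
    apply exp_le_exp.mpr
    nlinarith
  have h3 : exp (-1 * 2) = (exp 1)⁻¹ ^ 2 := by
    rw [exp_mul]
    rw [rpow_two, exp_neg]
  have h4 : (exp 1)⁻¹ ≤ 1 / 2.7 := by
    rw [inv_eq_one_div]
    apply one_div_le_one_div_of_le (by norm_num)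
    have := exp_one_gt_d9
    linarith
  have h5 : (exp 1)⁻¹ ^ 2 ≤ (1 / 2.7) ^ 2 := pow_le_pow_left₀ (by positivity) h4 2
  rw [h3] at h2
  have h6 := le_trans h2 h5
  have h7 : (1 / 2.7 : ℝ) ^ 2 ≤ 1 / 7 := by norm_num
  have h8 := le_trans h6 h7
  linarith

lemma exp_two_thirds_lt : exp (2 / 3 : ℝ) < 2 := by
  have h4 : exp (2 / 3 : ℝ) ^ 3 = exp 2 := by
    rw [← exp_nat_mul]
    norm_num
  have h5 : exp 2 = exp 1 ^ 2 := by
    rw [← exp_nat_mul]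
    norm_num
  have h6 := exp_one_lt_d9
  have h7 : exp 1 ^ 2 ≤ 2.7182818286 ^ 2 := pow_le_pow_left₀ (exp_pos 1).le h6.le 2
  by_contra hc
  push Not at hc
  have h8 : (2 : ℝ) ^ 3 ≤ exp (2 / 3 : ℝ) ^ 3 := pow_le_pow_left₀ (by norm_num) hc 3
  rw [h4, h5] at h8
  norm_num at h7 h8
  linarith

lemma corner_R1 {ε a h q U : ℝ} (h0 : 0 < ε) (hs : ε ≤ 1 / 10 ^ 10) (ha : 1 / 4 ≤ a)
    (hh : h = binEntropy ε) (hq0 : 0 ≤ q) (hU0 : 0 ≤ U) (hU1 : U ≤ 1)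
    (hd0 : 0 ≤ ent ((1 - 2 * ε) * U) - ent U) (r1 : U ≤ 1 - 12 * ε) :
    ((1 + a) * h - q) * U ≤ a * w0 ε U + (ent ((1 - 2 * ε) * U) - ent U) := by
  have hε1 : ε ≤ 1 / 1000 := le_trans hs (by norm_num)
  have c1 := w0_chord_zero h0.le (by linarith) hU0 r1 (by linarith) (by linarith)
  have c2 := N1 h0 hs
  rw [← hh] at c2
  have hh0 : 0 ≤ h := by
    rw [hh]
    exact binEntropy_nonneg h0.le (by linarith)
  have c3 : U * (5 * h) ≤ w0 ε U := by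
    have : U * (5 * h) ≤ U * w0 ε (1 - 12 * ε) := mul_le_mul_of_nonneg_left c2 hU0
    have h1 : 0 ≤ w0 ε U := by
      have := w0_ge_mul h0.le (by linarith) hU0 hU1
      have : 0 ≤ binEntropy ε * U := by
        rw [← hh]
        positivity
      linarith
    nlinarith
  have c4 : 0 ≤ U * h := by positivity
  have c5 := mul_le_mul_of_nonneg_left c3 (by linarith : 0 ≤ a)
  have c6 : 0 ≤ q * U := by positivity
  nlinarith

lemma corner_R2 {ε a h q U L : ℝ} (h0 : 0 < ε) (hs : ε ≤ 1 / 10 ^ 10) (ha : 1 / 4 ≤ a)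
    (hh : h = binEntropy ε) (hLdef : L = log ε⁻¹) (hq0 : 0 ≤ q) (hU0 : 0 ≤ U) (hU1 : U ≤ 1)
    (hdT : 2 * ε * U * A ((1 - 2 * ε) * U) ≤ ent ((1 - 2 * ε) * U) - ent U)
    (r1 : 1 - 12 * ε < U) (r2 : U ≤ 1 - 3 * ε) :
    ((1 + a) * h - q) * U ≤ a * w0 ε U + (ent ((1 - 2 * ε) * U) - ent U) := by
  have hε1 : ε ≤ 1 / 1000 := le_trans hs (by norm_num)
  have hb := h_bounds h0 (by linarith)
  have hh23 := h_ge_of_L h0 hs
  rw [← hh] at hb hh23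
  rw [← hLdef] at hb
  have hh0 : 0 ≤ h := by linarith
  have c1 := N1 h0 hs
  have c2 := N3' h0 hs
  rw [← hh] at c1 c2
  have c3 : h + 16 * ε ≤ w0 ε U :=
    w0_ge_of_endpoints h0.le (by linarith) (by linarith) (by linarith) r1.le r2
      (by linarith) c2
  have c4 : (1 - 2 * ε) * U < 1 := by nlinarith
  have c5 : 0 ≤ (1 - 2 * ε) * U := mul_nonneg (by linarith) hU0
  have c6 := two_A_ge (t := 14 * ε) c5 c4 (by nlinarith)
  have c8 := log_fourteen_le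
  rw [log_mul (by norm_num) h0.ne'] at c6
  have c9 : log ε = -L := by rw [hLdef, log_inv, neg_neg]
  rw [c9] at c6
  have c10 : L - 2.65 ≤ 2 * A ((1 - 2 * ε) * U) := by linarith
  have c11 : ε * U * (L - 2.65) ≤ 2 * ε * U * A ((1 - 2 * ε) * U) := by
    have : 0 ≤ ε * U := by positivity
    nlinarith
  have c12 := mul_le_mul_of_nonneg_left c3 (by linarith : 0 ≤ a)
  have c13 : 0 ≤ q * U := by positivity
  have c14 : h * U ≤ h := by nlinarith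
  have c15 : h * U ≤ ε * (L + 1) * U := mul_le_mul_of_nonneg_right hb.2 hU0
  have c16 : a * h * U ≤ a * h := by nlinarith
  have c17 : a * (16 * ε) ≥ 4 * ε := by nlinarith
  have c18 : ε * U * 3.65 ≤ 3.65 * ε := by nlinarith
  nlinarith

lemma corner_R3 {ε a h q U L : ℝ} (h0 : 0 < ε) (hs : ε ≤ 1 / 10 ^ 10) (ha : 1 / 4 ≤ a)
    (hh : h = binEntropy ε) (hLdef : L = log ε⁻¹) (hq : q = 2 * exp (-((1 + a) * (L - 1))))
    (hU0 : 0 ≤ U) (hU1 : U ≤ 1) (r2 : 1 - 3 * ε < U) :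
    ((1 + a) * h - q) * U ≤ a * w0 ε U + (ent ((1 - 2 * ε) * U) - ent U) := by
  have hε1 : ε ≤ 1 / 1000 := le_trans hs (by norm_num)
  have hL := log_inv_ge_23 h0 hs
  rw [← hLdef] at hL
  have hq1 : q ≤ 1 / 3 := by
    rw [hq]
    exact q_small ha hL
  have hq0 : 0 < q := by
    rw [hq]
    positivity
  obtain ⟨σ, hσ⟩ : ∃ σ, σ = 1 - U := ⟨_, rfl⟩
  have hσ0 : 0 ≤ σ := by rw [hσ]; linarith
  have hσ3 : σ ≤ 3 * ε := by rw [hσ]; linarith
  have hUσ : U = 1 - σ := by rw [hσ]; ring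
  obtain ⟨γ, hγ⟩ : ∃ γ, γ = (L - 1) / 2 - h := ⟨_, rfl⟩
  have c1 := N4 h0 hs
  rw [← hLdef, ← hh, ← hγ] at c1
  have c2 := w0_chord_one (σ := σ) (τ := 3 * ε) h0.le (by linarith) hσ0 hσ3 (by linarith)
    (by positivity)
  rw [← hh] at c2
  have c3 : h + γ * σ ≤ w0 ε (1 - σ) := by
    have : 3 * ε * (h + γ * σ) ≤ 3 * ε * w0 ε (1 - σ) := by
      have e : 3 * ε * (h + γ * σ) = (3 * ε - σ) * h + σ * (h + 3 * ε * γ) := by ring
      rw [e]
      have := mul_le_mul_of_nonneg_left c1 hσ0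
      linarith
    exact le_of_mul_le_mul_left this (by positivity)
  have c4 : w0 ε U ≤ ent ((1 - 2 * ε) * U) := w0_le_ent h0.le (by linarith) hU0 hU1
  rw [← hUσ] at c3
  have c5 : ent U = binEntropy (σ / 2) := by
    rw [← ent_one_sub_two]
    congr 1
    rw [hσ]
    ring
  obtain ⟨C, hC⟩ : ∃ C, C = (1 + a) * (L - 1) / 2 - q := ⟨_, rfl⟩
  have hC0 : 0 < exp (2 * C) := exp_pos _
  have c6 := be_le_tangent (q := σ / 2) (T := exp (2 * C)) (by positivity) (by linarith) hC0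
  rw [log_exp] at c6
  have c7 : 1 / exp (2 * C) ≤ q := by
    have e1 : 2 * C = (1 + a) * (L - 1) - 2 * q := by
      rw [hC]
      ring
    rw [e1, one_div, ← exp_neg]
    have e2 : -((1 + a) * (L - 1) - 2 * q) = -((1 + a) * (L - 1)) + 2 * q := by ring
    rw [e2, exp_add]
    have e3 : exp (2 * q) ≤ 2 := by
      have h1 : exp (2 * q) ≤ exp (2 / 3) := exp_le_exp.mpr (by linarith)
      have h3 := exp_two_thirds_lt
      linarith
    have e4 : 0 < exp (-((1 + a) * (L - 1))) := exp_pos _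
    have e6 := mul_le_mul_of_nonneg_left e3 e4.le
    calc _ ≤ exp (-((1 + a) * (L - 1))) * 2 := e6
      _ = q := by rw [hq]; ring
  have c8 := mul_le_mul_of_nonneg_left c3 (by linarith : 0 ≤ 1 + a)
  rw [c5]
  have c9 : ((1 + a) * h - q) * U = ((1 + a) * h - q) * (1 - σ) := by rw [hUσ]
  rw [c9]
  have c10 : (1 + a) * (h + γ * σ) - (σ / 2 * (2 * C) + q) - ((1 + a) * h - q) * (1 - σ) = 0 := by
    rw [hγ, hC]
    ring
  have c11 : (1 + a) * w0 ε U ≤ a * w0 ε U + ent ((1 - 2 * ε) * U) := by linarith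
  linarith

/-- The corner pairs. -/
theorem pair_corner {ε a : ℝ} (h0 : 0 < ε) (hs : ε ≤ 1 / 10 ^ 10) (ha : 1 / 4 ≤ a) :
    Valid (1 - 2 * ε) a ((1 + a) * binEntropy ε - 2 * exp (-((1 + a) * (log ε⁻¹ - 1)))) := by
  have hε1 : ε ≤ 1 / 1000 := le_trans hs (by norm_num)
  apply valid_of_1d h0.le (by linarith) (by linarith)
  intro U hU0 hU1
  have hd0 := d_nonneg h0 (by linarith) hU0 hU1
  have hdT := d_ge_tangent h0 (by linarith) hU0 hU1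
  by_cases r1 : U ≤ 1 - 12 * ε
  · exact corner_R1 h0 hs ha rfl (by positivity) hU0 hU1 hd0 r1
  push Not at r1
  by_cases r2 : U ≤ 1 - 3 * ε
  · exact corner_R2 h0 hs ha rfl rfl (by positivity) hU0 hU1 hdT r1 r2
  push Not at r2
  exact corner_R3 h0 hs ha rfl rfl rfl hU0 hU1 r2

end Vale.Agent.P322
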