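import Vale.Agent.P322.Num2

open Real Finset

namespace Vale.Agent.P322

lemma amgm_pair {W D δ p : ℝ} (hW : 0 ≤ W) (hD : 0 ≤ D)
    (hWD : p ^ 2 ≤ W * D) : 2 * δ * p ≤ δ ^ 2 * W + D := by
  have h0 : 0 ≤ δ ^ 2 * W + D := by positivity
  have h1 : (2 * δ * p) ^ 2 ≤ (δ ^ 2 * W + D) ^ 2 := by
    have h2 := mul_le_mul_of_nonneg_left hWD (by positivity : 0 ≤ 4 * δ ^ 2)
    nlinarith [sq_nonneg (δ ^ 2 * W - D)]
  exact (abs_le_of_sq_le_sq' h1 h0).2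

lemma eps_L_sq {ε : ℝ} (h0 : 0 < ε) (hs : ε ≤ 1 / 10 ^ 10) :
    ε * (log ε⁻¹ + 1) ^ 2 ≤ 4 / 9 := by
  have hL := log_inv_ge_23 h0 hs
  set L := log ε⁻¹ with hLdef
  have h3 : exp L = ε⁻¹ := by
    rw [hLdef, exp_log (inv_pos.mpr h0)]
  have h1 : 1 + L / 4 ≤ exp (L / 4) := by
    have := add_one_le_exp (L / 4)
    linarith
  have h2 : (1 + L / 4) ^ 2 ≤ exp (L / 2) := by
    have e : exp (L / 2) = exp (L / 4) ^ 2 := by
      rw [← exp_nat_mul]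
      congr 1
      push_cast
      ring
    rw [e]
    exact pow_le_pow_left₀ (by positivity) h1 2
  have h4 : 3 / 2 * (L + 1) ≤ exp (L / 2) := by nlinarith
  have h5 : (3 / 2 * (L + 1)) ^ 2 ≤ exp L := by
    have e : exp L = exp (L / 2) ^ 2 := by
      rw [← exp_nat_mul]
      congr 1
      push_cast
      ring
    rw [e]
    exact pow_le_pow_left₀ (by positivity) h4 2
  rw [h3] at h5
  have h6 := mul_le_mul_of_nonneg_left h5 h0.le
  rw [mul_inv_cancel₀ h0.ne'] at h6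
  nlinarith

lemma hh_sq_le {ε : ℝ} (h0 : 0 < ε) (hs : ε ≤ 1 / 10 ^ 10) :
    binEntropy ε ^ 2 ≤ 8 / 9 * ε * (1 - ε) := by
  have hε1 : ε ≤ 1 / 1000 := le_trans hs (by norm_num)
  have hb := h_bounds h0 (by linarith)
  have hh0 : 0 ≤ binEntropy ε := binEntropy_nonneg h0.le (by linarith)
  have hq := eps_L_sq h0 hs
  have h3 : binEntropy ε ^ 2 ≤ (ε * (log ε⁻¹ + 1)) ^ 2 := pow_le_pow_left₀ hh0 hb.2 2
  have h4 : (ε * (log ε⁻¹ + 1)) ^ 2 = ε * (ε * (log ε⁻¹ + 1) ^ 2) := by ring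
  have h5 : ε * (ε * (log ε⁻¹ + 1) ^ 2) ≤ ε * (4 / 9) := mul_le_mul_of_nonneg_left hq h0.le
  have h6 : ε * (4 / 9) ≤ 8 / 9 * ε * (1 - ε) := by nlinarith
  linarith

/-- Lower bound for `W` when `U ≤ 1/2`. -/
lemma W_ge_of_low {ρ z U W : ℝ} (hρ0 : 0 ≤ ρ) (hρ1 : ρ ≤ 1) (hU0 : 0 ≤ U) (hU : U ≤ 1 / 2)
    (hzU : |z| + U ≤ 1) (hEq : W = (ent (z + ρ * U) + ent (z - ρ * U)) / 2) :
    4 / 9 * (1 - z ^ 2) ≤ W ∧ 3 / 2 * U ≤ 1 - z ^ 2 := by
  have hzabs := abs_nonneg z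
  have hz' := abs_le.mp (le_refl |z|)
  have hsq : z ^ 2 ≤ (1 - U) ^ 2 := by
    rw [← sq_abs z]
    exact pow_le_pow_left₀ hzabs (by linarith) 2
  have hρU0 : 0 ≤ ρ * U := by positivity
  have hρU1 : ρ * U ≤ U := by nlinarith
  have b1 : |z + ρ * U| ≤ 1 := by
    rw [abs_le]
    constructor <;> linarith
  have b2 : |z - ρ * U| ≤ 1 := by
    rw [abs_le]
    constructor <;> linarith
  have c1 := ent_ge_log_two b1
  have c2 := ent_ge_log_two b2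
  have hl := log_two_gt_d9
  have hl2 : (0.6931 : ℝ) ≤ log 2 := by
    norm_num at hl ⊢
    linarith
  obtain ⟨V, hV⟩ : ∃ V, V = 1 - z ^ 2 := ⟨_, rfl⟩
  rw [← hV]
  have hV1 : 3 / 2 * U ≤ V := by
    rw [hV]
    nlinarith
  have hV0 : 0 ≤ V := le_trans (by positivity) hV1
  have hU2 : U ^ 2 ≤ V / 3 := by nlinarith
  have hρ2 : (ρ * U) ^ 2 ≤ U ^ 2 := pow_le_pow_left₀ hρU0 hρU1 2
  have c3 : log 2 * (V - (ρ * U) ^ 2) ≤ W := by
    rw [hEq]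
    have e : log 2 * (1 - (z + ρ * U) ^ 2) + log 2 * (1 - (z - ρ * U) ^ 2) =
        2 * (log 2 * (V - (ρ * U) ^ 2)) := by
      rw [hV]
      ring
    linarith
  refine ⟨?_, hV1⟩
  have h3 : 2 / 3 * V ≤ V - (ρ * U) ^ 2 := by linarith
  have h4 : log 2 * (2 / 3 * V) ≤ log 2 * (V - (ρ * U) ^ 2) :=
    mul_le_mul_of_nonneg_left h3 (by linarith)
  have h5 : 0.6931 * (2 / 3 * V) ≤ log 2 * (2 / 3 * V) :=
    mul_le_mul_of_nonneg_right hl2 (by positivity)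
  linarith

/-- First region of the hyperbola pair. -/
lemma hyper_low {ε x y : ℝ} (h0 : 0 < ε) (hs : ε ≤ 1 / 10 ^ 10) (hx : |x| ≤ 1) (hy : |y| ≤ 1)
    (hU : |(x - y) / 2| ≤ 1 / 2) :
    (binEntropy ε * |(x - y) / 2|) ^ 2 ≤
      WW (1 - 2 * ε) x y * (WW (1 - 2 * ε) x y - (ent x + ent y) / 2) := by
  have hε1 : ε ≤ 1 / 1000 := le_trans hs (by norm_num)
  have hT := T3_bound (ρ := 1 - 2 * ε) (by linarith) (by linarith) hx hy
  have hD := DD_nonneg (ρ := 1 - 2 * ε) (by linarith) (by linarith) hx hy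
  have hzU := abs_mid_le hx hy
  have hEq := WW_eq_abs (1 - 2 * ε) x y
  rw [← sq_abs ((x - y) / 2)] at hT
  have hU0 := abs_nonneg ((x - y) / 2)
  obtain ⟨h4, h3⟩ := W_ge_of_low (ρ := 1 - 2 * ε) (by linarith) (by linarith) hU0 hU hzU hEq
  have hκ : 1 - (1 - 2 * ε) ^ 2 = 4 * ε * (1 - ε) := by ring
  rw [hκ] at hT
  have hh2 := hh_sq_le h0 hs
  obtain ⟨U, hUd⟩ : ∃ U, U = |(x - y) / 2| := ⟨_, rfl⟩
  obtain ⟨z, hz⟩ : ∃ z, z = (x + y) / 2 := ⟨_, rfl⟩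
  obtain ⟨W, hW⟩ : ∃ W, W = WW (1 - 2 * ε) x y := ⟨_, rfl⟩
  obtain ⟨D, hDd⟩ : ∃ D, D = W - (ent x + ent y) / 2 := ⟨_, rfl⟩
  rw [← hUd, ← hz, ← hW, ← hDd] at hT
  rw [← hz, ← hW] at h4
  rw [← hUd, ← hz] at h3
  rw [← hW, ← hDd] at hD
  rw [← hUd, ← hW, ← hDd]
  obtain ⟨V, hV⟩ : ∃ V, V = 1 - z ^ 2 := ⟨_, rfl⟩
  rw [← hV] at hT h4 h3
  have main : 4 / 9 * V * D ≤ W * D := mul_le_mul_of_nonneg_right h4 hD
  have h6 : 4 / 9 * (4 * ε * (1 - ε) * U ^ 2 / 2) ≤ 4 / 9 * (D * V) :=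
    mul_le_mul_of_nonneg_left hT (by norm_num)
  have h7 : binEntropy ε ^ 2 * U ^ 2 ≤ 8 / 9 * ε * (1 - ε) * U ^ 2 :=
    mul_le_mul_of_nonneg_right hh2 (sq_nonneg U)
  have e : (binEntropy ε * U) ^ 2 = binEntropy ε ^ 2 * U ^ 2 := by ring
  rw [e]
  linarith

/-- The value of `w0` at distance `3 ε L` from the corner. -/
lemma N6 {ε : ℝ} (h0 : 0 < ε) (hs : ε ≤ 1 / 10 ^ 10) :
    (3 / 2 * ε * log ε⁻¹) * (log ε⁻¹ - log (3 * log ε⁻¹ + 1)) ≤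
      w0 ε (1 - 3 * ε * log ε⁻¹) := by
  have hL := log_inv_ge_23 h0 hs
  have hεL := eps_mul_log_le h0 hs
  have hε1 : ε ≤ 1 / 1000 := le_trans hs (by norm_num)
  set L := log ε⁻¹ with hLdef
  set σ := 3 * ε * L with hσ
  have hσ0 : 0 ≤ σ := by positivity
  have hσ1 : σ ≤ 1 / 1000 := by
    rw [hσ]
    nlinarith
  set q := ε + σ - ε * σ with hq
  have hq1 : σ ≤ q := by
    rw [hq]
    nlinarith
  have hq2 : q ≤ (3 * L + 1) * ε := by
    rw [hq, hσ]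
    nlinarith [mul_nonneg h0.le hσ0]
  have hq0 : 0 < q := by
    rw [hq]
    nlinarith
  have hq3 : q ≤ 1 := by
    rw [hq]
    nlinarith
  have e1 : (1 - ε) * (1 - σ) = 1 - q := by
    rw [hq]
    ring
  have hn : 0 ≤ binEntropy (ε * (1 - σ)) := by
    apply binEntropy_nonneg
    · apply mul_nonneg h0.le
      linarith
    · nlinarith
  unfold w0
  rw [e1, binEntropy_one_sub]
  have a1 := be_ge_mul_log hq0.le hq3
  have a2 := log_inv_ge_sub h0 (c := 3 * L + 1) (by linarith) hq0 hq2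
  rw [← hLdef] at a2
  have hlt := log_le_tangent (y := 3 * L + 1) (c := 64) (by linarith) (by norm_num)
  have h64 := log_sixtyfour_le
  have a3 : 0 ≤ L - log (3 * L + 1) := by linarith
  have a4 : σ * (L - log (3 * L + 1)) ≤ q * log q⁻¹ :=
    le_trans (mul_le_mul_of_nonneg_right hq1 a3) (mul_le_mul_of_nonneg_left a2 hq0.le)
  have e2 : 3 / 2 * ε * L * (L - log (3 * L + 1)) = σ * (L - log (3 * L + 1)) / 2 := by
    rw [hσ]
    ring
  rw [e2]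
  linarith

/-- The hyperbola bound in the middle region. -/
lemma hyper_mid_num {ε : ℝ} (h0 : 0 < ε) (hs : ε ≤ 1 / 10 ^ 10) :
    binEntropy ε ^ 2 ≤ (1 - 2 * ε) * ε * w0 ε (1 - 3 * ε * log ε⁻¹) := by
  have hL := log_inv_ge_23 h0 hs
  have hε1 : ε ≤ 1 / 1000 := le_trans hs (by norm_num)
  have hN := N6 h0 hs
  have hb := h_bounds h0 (by linarith)
  have hh0 : 0 ≤ binEntropy ε := binEntropy_nonneg h0.le (by linarith)
  set L := log ε⁻¹ with hLdef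
  have hlt := log_le_tangent (y := 3 * L + 1) (c := 64) (by linarith) (by norm_num)
  have h64 := log_sixtyfour_le
  have a1 : 61 / 64 * L - 3.175 ≤ L - log (3 * L + 1) := by linarith
  have a2 : (3 / 2 * ε * L) * (61 / 64 * L - 3.175) ≤ w0 ε (1 - 3 * ε * L) :=
    le_trans (mul_le_mul_of_nonneg_left a1 (by positivity)) hN
  have a3 : binEntropy ε ^ 2 ≤ (ε * (L + 1)) ^ 2 := pow_le_pow_left₀ hh0 hb.2 2
  have a4 : (1 - 2 * ε) * ε * ((3 / 2 * ε * L) * (61 / 64 * L - 3.175)) ≤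
      (1 - 2 * ε) * ε * w0 ε (1 - 3 * ε * L) :=
    mul_le_mul_of_nonneg_left a2 (mul_nonneg (by linarith) h0.le)
  refine le_trans a3 (le_trans ?_ a4)
  have a5 : (L + 1) ^ 2 ≤ (1 - 2 * ε) * ((3 / 2 * L) * (61 / 64 * L - 3.175)) := by
    have a6 : 0 ≤ (3 / 2 * L) * (61 / 64 * L - 3.175) := by
      apply mul_nonneg <;> linarith
    have a7 : (L + 1) ^ 2 ≤ (1 - 2 / 1000) * ((3 / 2 * L) * (61 / 64 * L - 3.175)) := by
      nlinarith
    have a8 : (1 - 2 / 1000) * ((3 / 2 * L) * (61 / 64 * L - 3.175)) ≤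
        (1 - 2 * ε) * ((3 / 2 * L) * (61 / 64 * L - 3.175)) :=
      mul_le_mul_of_nonneg_right (by linarith) a6
    linarith
  have a9 := mul_le_mul_of_nonneg_left a5 (by positivity : 0 ≤ ε ^ 2)
  nlinarith

lemma hyper_mid {ε x y : ℝ} (h0 : 0 < ε) (hs : ε ≤ 1 / 10 ^ 10) (hx : |x| ≤ 1) (hy : |y| ≤ 1)
    (hU : 1 / 2 ≤ |(x - y) / 2|) (hU2 : |(x - y) / 2| ≤ 1 - 3 * ε * log ε⁻¹) :
    (binEntropy ε * |(x - y) / 2|) ^ 2 ≤
      WW (1 - 2 * ε) x y * (WW (1 - 2 * ε) x y - (ent x + ent y) / 2) := by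
  have hε1 : ε ≤ 1 / 1000 := le_trans hs (by norm_num)
  have hw := w0_le_WW h0.le (by linarith) hx hy
  have hd := d_le_DD (ρ := 1 - 2 * ε) (by linarith) (by linarith) hx hy
  have hD := DD_nonneg (ρ := 1 - 2 * ε) (by linarith) (by linarith) hx hy
  have hW0 := WW_nonneg (ρ := 1 - 2 * ε) (by linarith) (by linarith) hx hy
  have hn := hyper_mid_num h0 hs
  have hεL := eps_mul_log_le h0 hs
  have hL := log_inv_ge_23 h0 hs
  obtain ⟨U, hUd⟩ : ∃ U, U = |(x - y) / 2| := ⟨_, rfl⟩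
  rw [← hUd] at hw hd hU hU2 ⊢
  obtain ⟨W, hWd⟩ : ∃ W, W = WW (1 - 2 * ε) x y := ⟨_, rfl⟩
  rw [← hWd] at hw hd hD hW0 ⊢
  obtain ⟨D, hDd⟩ : ∃ D, D = W - (ent x + ent y) / 2 := ⟨_, rfl⟩
  rw [← hDd] at hd hD ⊢
  set L := log ε⁻¹ with hLdef
  obtain ⟨V, hVd⟩ : ∃ V, V = 1 - 3 * ε * L := ⟨_, rfl⟩
  rw [← hVd] at hU2 hn
  have hU1 : U ≤ 1 := by
    rw [hVd] at hU2
    nlinarith
  have hV1 : V ≤ 1 := by
    rw [hVd]
    nlinarith
  have hU0 : 0 < U := by linarith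
  have c1 := w0_chord_zero h0.le (by linarith) hU0.le hU2 hV1 (by linarith)
  have c0 : 0 ≤ w0 ε U := by
    have h2 := w0_ge_mul h0.le (by linarith) hU0.le hU1
    have h3 : 0 ≤ binEntropy ε * U := mul_nonneg (binEntropy_nonneg h0.le (by linarith)) hU0.le
    linarith
  have c2 : U * w0 ε V ≤ W := by nlinarith
  have hρ : 0 ≤ 1 - 2 * ε := by linarith
  have c3 := d_ge_tangent h0 (by linarith) hU0.le hU1
  have c4 : (1 - 2 * ε) * U < 1 := by nlinarith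
  have c5 := A_ge_self (c := (1 - 2 * ε) * U) (by positivity) c4
  have c6 : 2 * ε * U * ((1 - 2 * ε) * U) ≤ D := by
    have : 2 * ε * U * ((1 - 2 * ε) * U) ≤ 2 * ε * U * A ((1 - 2 * ε) * U) :=
      mul_le_mul_of_nonneg_left c5 (by positivity)
    linarith
  have c7 : 0 ≤ w0 ε V := by
    have h2 := w0_ge_mul (U := V) h0.le (by linarith) (by linarith) hV1
    have h3 : 0 ≤ binEntropy ε * V :=
      mul_nonneg (binEntropy_nonneg h0.le (by linarith)) (by linarith)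
    linarith
  have c8 : (U * w0 ε V) * (2 * ε * U * ((1 - 2 * ε) * U)) ≤ W * D :=
    mul_le_mul c2 c6 (by positivity) hW0
  have c9 : binEntropy ε ^ 2 * U ^ 2 ≤ (1 - 2 * ε) * ε * w0 ε V * U ^ 2 :=
    mul_le_mul_of_nonneg_right hn (by positivity)
  have c10 : (1 - 2 * ε) * ε * w0 ε V * U ^ 2 ≤ (U * w0 ε V) * (2 * ε * U * ((1 - 2 * ε) * U)) := by
    have h5 : 0 ≤ (1 - 2 * ε) * ε * w0 ε V * U ^ 2 := by positivity
    have e : (U * w0 ε V) * (2 * ε * U * ((1 - 2 * ε) * U)) =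
        (2 * U) * ((1 - 2 * ε) * ε * w0 ε V * U ^ 2) := by ring
    rw [e]
    nlinarith
  calc (binEntropy ε * U) ^ 2 = binEntropy ε ^ 2 * U ^ 2 := by ring
    _ ≤ _ := c9
    _ ≤ _ := c10
    _ ≤ _ := c8

lemma hyper_top {ε x y δ : ℝ} (h0 : 0 < ε) (hs : ε ≤ 1 / 10 ^ 10) (hx : |x| ≤ 1) (hy : |y| ≤ 1)
    (hδ : δ ≤ 1 / 2) (hU2 : 1 - 3 * ε * log ε⁻¹ ≤ |(x - y) / 2|) :
    2 * binEntropy ε * δ * |(x - y) / 2| ≤
      δ ^ 2 * WW (1 - 2 * ε) x y + (WW (1 - 2 * ε) x y - (ent x + ent y) / 2) := by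
  have hε1 : ε ≤ 1 / 1000 := le_trans hs (by norm_num)
  have hw := w0_le_WW h0.le (by linarith) hx hy
  have hd := d_le_DD (ρ := 1 - 2 * ε) (by linarith) (by linarith) hx hy
  have hzU := abs_mid_le hx hy
  have hzabs := abs_nonneg ((x + y) / 2)
  have hεL := eps_mul_log_le h0 hs
  have hL := log_inv_ge_23 h0 hs
  have hb := h_bounds h0 (by linarith)
  have hh0 : 0 ≤ binEntropy ε := binEntropy_nonneg h0.le (by linarith)
  set L := log ε⁻¹ with hLdef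
  obtain ⟨U, hUd⟩ : ∃ U, U = |(x - y) / 2| := ⟨_, rfl⟩
  rw [← hUd] at hw hd hU2 hzU ⊢
  obtain ⟨W, hWd⟩ : ∃ W, W = WW (1 - 2 * ε) x y := ⟨_, rfl⟩
  rw [← hWd] at hw hd ⊢
  have hU1 : U ≤ 1 := by linarith
  have hU0 : 0 ≤ U := by nlinarith
  have c1 := w0_ge_mul h0.le (by linarith) hU0 hU1
  have c3 := d_ge_tangent h0 (by linarith) hU0 hU1
  have c4 : (1 - 2 * ε) * U < 1 := by nlinarith
  have c5 : 0 ≤ (1 - 2 * ε) * U := mul_nonneg (by linarith) hU0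
  have c6 := two_A_ge (t := (3 * L + 2) * ε) c5 c4 (by nlinarith)
  rw [log_mul (by nlinarith) h0.ne'] at c6
  have c9 : log ε = -L := by rw [hLdef, log_inv, neg_neg]
  rw [c9] at c6
  have hlt := log_le_tangent (y := 3 * L + 2) (c := 64) (by linarith) (by norm_num)
  have h64 := log_sixtyfour_le
  have c10 : 3 / 4 * (L + 1) ≤ 2 * A ((1 - 2 * ε) * U) := by linarith
  have c11 : 3 / 4 * (binEntropy ε * U) ≤ 2 * ε * U * A ((1 - 2 * ε) * U) := by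
    have a1 : binEntropy ε * U ≤ ε * (L + 1) * U := mul_le_mul_of_nonneg_right hb.2 hU0
    have a2 : ε * U * (3 / 4 * (L + 1)) ≤ ε * U * (2 * A ((1 - 2 * ε) * U)) :=
      mul_le_mul_of_nonneg_left c10 (by positivity)
    nlinarith
  have c12 : δ ^ 2 * (binEntropy ε * U) ≤ δ ^ 2 * W :=
    mul_le_mul_of_nonneg_left (le_trans c1 hw) (by positivity)
  have c13 : 0 ≤ (binEntropy ε * U) * (δ ^ 2 - 2 * δ + 3 / 4) :=
    mul_nonneg (by positivity) (by nlinarith)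
  nlinarith

/-- The hyperbola pairs. -/
theorem pair_hyper {ε δ : ℝ} (h0 : 0 < ε) (hs : ε ≤ 1 / 10 ^ 10) (hδ : δ ≤ 1 / 2) :
    Valid (1 - 2 * ε) (δ ^ 2) (2 * binEntropy ε * δ) := by
  intro x y hx hy
  have hε1 : ε ≤ 1 / 1000 := le_trans hs (by norm_num)
  have hD := DD_nonneg (ρ := 1 - 2 * ε) (by linarith) (by linarith) hx hy
  have hW0 := WW_nonneg (ρ := 1 - 2 * ε) (by linarith) (by linarith) hx hy
  by_cases c1 : |(x - y) / 2| ≤ 1 - 3 * ε * log ε⁻¹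
  · have key : (binEntropy ε * |(x - y) / 2|) ^ 2 ≤
        WW (1 - 2 * ε) x y * (WW (1 - 2 * ε) x y - (ent x + ent y) / 2) := by
      by_cases c2 : |(x - y) / 2| ≤ 1 / 2
      · exact hyper_low h0 hs hx hy c2
      · push Not at c2
        exact hyper_mid h0 hs hx hy c2.le c1
    have := amgm_pair (δ := δ) hW0 hD key
    nlinarith
  · push Not at c1
    exact hyper_top h0 hs hx hy hδ c1.le

end Vale.Agent.P322
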