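import Vale.Agent.P322.Rec

open Real Finset

namespace Vale.Agent.P322

/-- Value comparison from a nonnegative derivative on the open interval. -/
lemma le_of_hasDeriv_nonneg {f f' : ℝ → ℝ} {a b : ℝ} (hab : a ≤ b) (hc : ContinuousOn f (Set.Icc a b))
    (hd : ∀ t ∈ Set.Ioo a b, HasDerivAt f (f' t) t) (hp : ∀ t ∈ Set.Ioo a b, 0 ≤ f' t) :
    f a ≤ f b := by
  rcases eq_or_lt_of_le hab with h | h
  · rw [h]
  obtain ⟨c, hc1, hc2⟩ := exists_hasDerivAt_eq_slope f f' h hc hd
  have h1 := hp c hc1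
  rw [hc2] at h1
  have h2 : 0 < b - a := by linarith
  have := (div_nonneg_iff.mp h1)
  rcases this with ⟨h3, _⟩ | ⟨_, h3⟩
  · linarith
  · linarith

lemma continuous_ent : Continuous ent := by
  unfold ent
  exact binEntropy_continuous.comp ((continuous_const.add continuous_id).div_const 2)

lemma binEntropy_concave_ineq {x y a b : ℝ} (hx : x ∈ Set.Icc (0 : ℝ) 1) (hy : y ∈ Set.Icc (0 : ℝ) 1)
    (ha : 0 ≤ a) (hb : 0 ≤ b) (hab : a + b = 1) :
    a * binEntropy x + b * binEntropy y ≤ binEntropy (a * x + b * y) := by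
  have h := strictConcave_binEntropy.concaveOn.2 hx hy ha hb hab
  simpa [smul_eq_mul] using h

lemma ent_concave_ineq {x y a b : ℝ} (hx : |x| ≤ 1) (hy : |y| ≤ 1) (ha : 0 ≤ a) (hb : 0 ≤ b)
    (hab : a + b = 1) : a * ent x + b * ent y ≤ ent (a * x + b * y) := by
  have hx' := abs_le.mp hx
  have hy' := abs_le.mp hy
  unfold ent
  have h := binEntropy_concave_ineq (x := (1 + x) / 2) (y := (1 + y) / 2)
    ⟨by linarith, by linarith⟩ ⟨by linarith, by linarith⟩ ha hb hab
  have e : a * ((1 + x) / 2) + b * ((1 + y) / 2) = (1 + (a * x + b * y)) / 2 := by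
    have : b = 1 - a := by linarith
    subst this
    ring
  rwa [e] at h

/-- `ent` at `1 - 2 q`. -/
lemma ent_one_sub_two (q : ℝ) : ent (1 - 2 * q) = binEntropy q := by
  unfold ent
  have : (1 + (1 - 2 * q)) / 2 = 1 - q := by ring
  rw [this, binEntropy_one_sub]

/-- Lower concave envelope of `W` at fixed half-difference. -/
noncomputable def w0 (ε U : ℝ) : ℝ := (binEntropy (ε * U) + binEntropy ((1 - ε) * U)) / 2

lemma WW_eq (ρ x y : ℝ) :
    WW ρ x y = (ent ((x + y) / 2 + ρ * ((x - y) / 2)) + ent ((x + y) / 2 - ρ * ((x - y) / 2))) / 2 := by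
  unfold WW
  congr 2
  · congr 1
    ring
  · congr 1
    ring

/-- The `abs` form of `WW`. -/
lemma WW_eq_abs (ρ x y : ℝ) :
    WW ρ x y = (ent ((x + y) / 2 + ρ * |(x - y) / 2|) + ent ((x + y) / 2 - ρ * |(x - y) / 2|)) / 2 := by
  rw [WW_eq]
  rcases abs_cases ((x - y) / 2) with ⟨h, _⟩ | ⟨h, _⟩
  · rw [h]
  · rw [h]
    have e1 : (x + y) / 2 + ρ * -((x - y) / 2) = (x + y) / 2 - ρ * ((x - y) / 2) := by ring
    have e2 : (x + y) / 2 - ρ * -((x - y) / 2) = (x + y) / 2 + ρ * ((x - y) / 2) := by ring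
    rw [e1, e2, add_comm]

/-- Midpoint range. -/
lemma abs_mid_le {x y : ℝ} (hx : |x| ≤ 1) (hy : |y| ≤ 1) :
    |(x + y) / 2| + |(x - y) / 2| ≤ 1 := by
  have hx' := abs_le.mp hx
  have hy' := abs_le.mp hy
  rcases abs_cases ((x + y) / 2) with ⟨h, _⟩ | ⟨h, _⟩ <;>
  rcases abs_cases ((x - y) / 2) with ⟨h', _⟩ | ⟨h', _⟩ <;> rw [h, h'] <;> linarith

/-- `W` is bounded below by its value at the boundary point. -/
lemma w0_le_WW {ε x y : ℝ} (h0 : 0 ≤ ε) (h1 : ε ≤ 1) (hx : |x| ≤ 1) (hy : |y| ≤ 1) :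
    w0 ε |(x - y) / 2| ≤ WW (1 - 2 * ε) x y := by
  rw [WW_eq_abs]
  set U := |(x - y) / 2| with hU
  set z := (x + y) / 2 with hz
  have hU0 : 0 ≤ U := abs_nonneg _
  have hzU : |z| + U ≤ 1 := abs_mid_le hx hy
  have hU1 : U ≤ 1 := by
    have := abs_nonneg z
    linarith
  have hz' := abs_le.mp (le_refl |z|)
  set c := 1 - U with hc
  have hc0 : 0 ≤ c := by
    rw [hc]
    linarith
  -- the mixing parameter
  obtain ⟨θ, hθ0, hθ1, hθz⟩ : ∃ θ : ℝ, 0 ≤ θ ∧ θ ≤ 1 ∧ z = (2 * θ - 1) * c := by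
    rcases eq_or_lt_of_le hc0 with h | h
    · refine ⟨1 / 2, by norm_num, by norm_num, ?_⟩
      have : |z| ≤ 0 := by
        have : |z| ≤ c := by
          rw [hc]
          linarith
        rw [← h] at this
        exact this
      have hz0 : z = 0 := abs_nonpos_iff.mp this
      rw [hz0]
      norm_num
    · refine ⟨(c + z) / (2 * c), ?_, ?_, ?_⟩
      · apply div_nonneg _ (by positivity)
        have : |z| ≤ c := by
          rw [hc]
          linarith
        have := (abs_le.mp this).1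
        linarith
      · rw [div_le_one (by positivity)]
        have : |z| ≤ c := by
          rw [hc]
          linarith
        have := (abs_le.mp this).2
        linarith
      · field_simp
        ring
  set ρ := 1 - 2 * ε with hρ
  set p₁ := c + ρ * U with hp₁
  set p₂ := c - ρ * U with hp₂
  have ep1 : p₁ = 1 - 2 * (ε * U) := by
    rw [hp₁, hc, hρ]
    ring
  have ep2 : p₂ = 1 - 2 * ((1 - ε) * U) := by
    rw [hp₂, hc, hρ]
    ring
  have hεU : ε * U ≤ 1 := by nlinarith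
  have hεU0 : 0 ≤ ε * U := by positivity
  have hεU' : (1 - ε) * U ≤ 1 := by nlinarith
  have hεU0' : 0 ≤ (1 - ε) * U := mul_nonneg (by linarith) hU0
  have hp1 : |p₁| ≤ 1 := by
    rw [ep1, abs_le]
    constructor <;> linarith
  have hp2 : |p₂| ≤ 1 := by
    rw [ep2, abs_le]
    constructor <;> linarith
  have hp1' : |-p₁| ≤ 1 := by rwa [abs_neg]
  have hp2' : |-p₂| ≤ 1 := by rwa [abs_neg]
  have h3 := ent_concave_ineq hp1 hp2' hθ0 (by linarith : 0 ≤ 1 - θ) (by ring)
  have h4 := ent_concave_ineq hp2 hp1' hθ0 (by linarith : 0 ≤ 1 - θ) (by ring)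
  rw [ent_symm] at h3 h4
  have e3 : θ * p₁ + (1 - θ) * -p₂ = z + ρ * U := by
    rw [hθz, hp₁, hp₂]
    ring
  have e4 : θ * p₂ + (1 - θ) * -p₁ = z - ρ * U := by
    rw [hθz, hp₁, hp₂]
    ring
  rw [e3] at h3
  rw [e4] at h4
  have e5 : ent p₁ = binEntropy (ε * U) := by rw [ep1, ent_one_sub_two]
  have e6 : ent p₂ = binEntropy ((1 - ε) * U) := by rw [ep2, ent_one_sub_two]
  rw [e5, e6] at h3 h4
  unfold w0
  nlinarith

lemma hasDerivAt_A {x : ℝ} (hx : |x| < 1) : HasDerivAt A (1 / (1 - x ^ 2)) x := by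
  have hx' := abs_lt.mp hx
  have h1 : HasDerivAt (fun t : ℝ => log (1 + t)) (1 / (1 + x)) x := by
    have := ((hasDerivAt_id x).const_add 1).log (by simp; linarith)
    simpa using this
  have h2 : HasDerivAt (fun t : ℝ => log (1 - t)) (-1 / (1 - x)) x := by
    have := ((hasDerivAt_id x).const_sub 1).log (by simp; linarith)
    simpa using this
  have h3 := (h1.fun_sub h2).div_const 2
  have hne1 : 1 + x ≠ 0 := by linarith
  have hne2 : 1 - x ≠ 0 := by linarith
  have hne3 : 1 - x ^ 2 ≠ 0 := by nlinarith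
  refine h3.congr_deriv ?_
  have : 1 - x ^ 2 = (1 + x) * (1 - x) := by ring
  rw [this]
  field_simp
  ring

/-- Difference quotient of `A` against the midpoint. -/
lemma A_diff_ge {z w : ℝ} (hw : 0 ≤ w) (hzw : |z| + w < 1) :
    2 * A w ≤ A (z + w) - A (z - w) := by
  have hz := abs_le.mp (le_refl |z|)
  have hw1 : w < 1 := by
    have := abs_nonneg z
    linarith
  have h1 : 0 < 1 + z + w := by linarith
  have h2 : 0 < 1 - z - w := by linarith
  have h3 : 0 < 1 + z - w := by linarith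
  have h4 : 0 < 1 - z + w := by linarith
  unfold A
  have e1 : (1 + (z + w)) = 1 + z + w := by ring
  have e2 : (1 - (z + w)) = 1 - z - w := by ring
  have e3 : (1 + (z - w)) = 1 + z - w := by ring
  have e4 : (1 - (z - w)) = 1 - z + w := by ring
  rw [e1, e2, e3, e4]
  have key : (1 + w) ^ 2 * ((1 - z - w) * (1 + z - w)) ≤ (1 - w) ^ 2 * ((1 + z + w) * (1 - z + w)) := by
    nlinarith [mul_nonneg (sq_nonneg z) hw, sq_nonneg (z * w)]
  have hw2 : 0 < 1 - w := by linarith
  have hw3 : 0 < 1 + w := by linarith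
  have hl := log_le_log (by positivity) key
  rw [log_mul (by positivity) (by positivity), log_mul (by positivity) (by positivity),
    log_mul (by positivity) (by positivity), log_mul (by positivity) (by positivity),
    log_pow, log_pow] at hl
  push_cast at hl
  linarith

/-- Second difference-quotient bound of `A`. -/
lemma A_diff_ge_two {z w : ℝ} (hw : 0 ≤ w) (hzw : |z| + w < 1) :
    2 * w ≤ (1 - z ^ 2) * (A (z + w) - A (z - w)) := by
  have hz := abs_le.mp (le_refl |z|)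
  have hzabs : 0 ≤ |z| := abs_nonneg z
  set f : ℝ → ℝ := fun t => (1 - z ^ 2) * (A (z + t) - A (z - t)) - 2 * t with hf
  have hab : ∀ t ∈ Set.Icc 0 w, |z + t| < 1 ∧ |z - t| < 1 := by
    intro t ht
    constructor <;> rw [abs_lt] <;> constructor <;> linarith [ht.1, ht.2]
  have hder : ∀ t ∈ Set.Icc 0 w, HasDerivAt f
      ((1 - z ^ 2) * (1 / (1 - (z + t) ^ 2) + 1 / (1 - (z - t) ^ 2)) - 2) t := by
    intro t ht
    obtain ⟨h1, h2⟩ := hab t ht
    have i1 : HasDerivAt (fun s : ℝ => z + s) 1 t := (hasDerivAt_id' t).const_add z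
    have i2 : HasDerivAt (fun s : ℝ => z - s) (-1) t := (hasDerivAt_id' t).const_sub z
    have d1 : HasDerivAt (fun s => A (z + s)) (1 / (1 - (z + t) ^ 2) * 1) t :=
      (hasDerivAt_A h1).comp t i1
    have d2 : HasDerivAt (fun s => A (z - s)) (1 / (1 - (z - t) ^ 2) * (-1)) t :=
      (hasDerivAt_A h2).comp t i2
    have d3 : HasDerivAt (fun s : ℝ => 2 * s) 2 t := by
      simpa using (hasDerivAt_id t).const_mul (2 : ℝ)
    have d4 := ((d1.fun_sub d2).const_mul (1 - z ^ 2)).fun_sub d3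
    refine d4.congr_deriv ?_
    ring
  have hmono := le_of_hasDeriv_nonneg (f := f)
    (f' := fun t => (1 - z ^ 2) * (1 / (1 - (z + t) ^ 2) + 1 / (1 - (z - t) ^ 2)) - 2) hw
    (fun t ht => (hder t ht).continuousAt.continuousWithinAt)
    (fun t ht => hder t ⟨ht.1.le, ht.2.le⟩)
    (by
      intro t ht
      obtain ⟨h1, h2⟩ := hab t ⟨ht.1.le, ht.2.le⟩
      have h1' := abs_lt.mp h1
      have h2' := abs_lt.mp h2
      have a1 : 0 < 1 - (z + t) ^ 2 := by nlinarith
      have a2 : 0 < 1 - (z - t) ^ 2 := by nlinarith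
      have hV : 0 ≤ 1 - z ^ 2 - t ^ 2 := by
        have : 0 < (1 - (z + t) ^ 2) + (1 - (z - t) ^ 2) := by positivity
        nlinarith
      have e : (1 - z ^ 2) * (1 / (1 - (z + t) ^ 2) + 1 / (1 - (z - t) ^ 2)) - 2 =
          ((1 - z ^ 2) * ((1 - (z + t) ^ 2) + (1 - (z - t) ^ 2)) -
            2 * ((1 - (z + t) ^ 2) * (1 - (z - t) ^ 2))) /
            ((1 - (z + t) ^ 2) * (1 - (z - t) ^ 2)) := by
        field_simp
        ring
      rw [e]
      apply div_nonneg _ (by positivity)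
      have : (1 - z ^ 2) * ((1 - (z + t) ^ 2) + (1 - (z - t) ^ 2)) -
          2 * ((1 - (z + t) ^ 2) * (1 - (z - t) ^ 2)) =
          2 * t ^ 2 * (1 - z ^ 2 - t ^ 2) + 8 * z ^ 2 * t ^ 2 := by ring
      rw [this]
      positivity)
  have hf0 : f 0 = 0 := by
    simp [hf]
  rw [hf0] at hmono
  simp only [hf] at hmono
  linarith

end Vale.Agent.P322
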