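import Vale.Agent.P322.Pt

open Real Finset

namespace Vale.Agent.P322

/-- The sum of entropies in the midpoint coordinates. -/
lemma ent_add_eq_abs (x y : ℝ) :
    ent x + ent y = ent ((x + y) / 2 + |(x - y) / 2|) + ent ((x + y) / 2 - |(x - y) / 2|) := by
  rcases abs_cases ((x - y) / 2) with ⟨h, _⟩ | ⟨h, _⟩
  · rw [h]
    have e1 : (x + y) / 2 + (x - y) / 2 = x := by ring
    have e2 : (x + y) / 2 - (x - y) / 2 = y := by ring
    rw [e1, e2]
  · rw [h]
    have e1 : (x + y) / 2 + -((x - y) / 2) = y := by ring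
    have e2 : (x + y) / 2 - -((x - y) / 2) = x := by ring
    rw [e1, e2, add_comm]

/-- derivative of the shifted entropies -/
lemma hasDerivAt_ent_add {z t : ℝ} (h : |z + t| < 1) :
    HasDerivAt (fun s => ent (z + s)) (-A (z + t) * 1) t :=
  (hasDerivAt_ent h).comp t ((hasDerivAt_id' t).const_add z)

lemma hasDerivAt_ent_sub {z t : ℝ} (h : |z - t| < 1) :
    HasDerivAt (fun s => ent (z - s)) (-A (z - t) * (-1)) t :=
  (hasDerivAt_ent h).comp t ((hasDerivAt_id' t).const_sub z)

/-- The Jensen gap monotonicity behind `D ≥ d`. -/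
lemma gap_mono {z w₁ w₂ : ℝ} (h0 : 0 ≤ w₁) (h12 : w₁ ≤ w₂) (h2 : |z| + w₂ ≤ 1) :
    ent w₁ - (ent (z + w₁) + ent (z - w₁)) / 2 ≤ ent w₂ - (ent (z + w₂) + ent (z - w₂)) / 2 := by
  have hz := abs_le.mp (le_refl |z|)
  have hzabs := abs_nonneg z
  have hder : ∀ t ∈ Set.Ioo w₁ w₂, HasDerivAt
      (fun s => ent s - (ent (z + s) + ent (z - s)) / 2)
      (-A t - (-A (z + t) * 1 + -A (z - t) * (-1)) / 2) t := by
    intro t ht
    have ht1 : |t| < 1 := by
      rw [abs_lt]
      constructor <;> linarith [ht.1, ht.2]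
    have ht2 : |z + t| < 1 := by
      rw [abs_lt]
      constructor <;> linarith [ht.1, ht.2]
    have ht3 : |z - t| < 1 := by
      rw [abs_lt]
      constructor <;> linarith [ht.1, ht.2]
    exact (hasDerivAt_ent ht1).fun_sub
      (((hasDerivAt_ent_add ht2).fun_add (hasDerivAt_ent_sub ht3)).div_const 2)
  exact le_of_hasDeriv_nonneg (f := fun s => ent s - (ent (z + s) + ent (z - s)) / 2) h12
    ((continuous_ent.sub (((continuous_ent.comp (continuous_const.add continuous_id)).add
      (continuous_ent.comp (continuous_const.sub continuous_id))).div_const 2)).continuousOn)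
    hder
    (by
      intro t ht
      have := A_diff_ge (z := z) (w := t) (by linarith [ht.1]) (by linarith [ht.2])
      linarith)

/-- `D ≥ d`: the difference of the two-point average against the entropy average is smallest on
the antidiagonal. -/
lemma d_le_DD {ρ x y : ℝ} (h0 : 0 ≤ ρ) (h1 : ρ ≤ 1) (hx : |x| ≤ 1) (hy : |y| ≤ 1) :
    ent (ρ * |(x - y) / 2|) - ent |(x - y) / 2| ≤ WW ρ x y - (ent x + ent y) / 2 := by
  rw [WW_eq_abs, ent_add_eq_abs x y]
  set U := |(x - y) / 2| with hU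
  set z := (x + y) / 2 with hz
  have hU0 : 0 ≤ U := abs_nonneg _
  have hzU : |z| + U ≤ 1 := abs_mid_le hx hy
  have := gap_mono (z := z) (w₁ := ρ * U) (w₂ := U) (mul_nonneg h0 hU0)
    (by nlinarith) hzU
  linarith

/-- `D (1 - z²) ≥ κ U² / 2`. -/
lemma T3_bound {ρ x y : ℝ} (h0 : 0 ≤ ρ) (h1 : ρ ≤ 1) (hx : |x| ≤ 1) (hy : |y| ≤ 1) :
    (1 - ρ ^ 2) * ((x - y) / 2) ^ 2 / 2 ≤
      (WW ρ x y - (ent x + ent y) / 2) * (1 - ((x + y) / 2) ^ 2) := by
  rw [WW_eq_abs, ent_add_eq_abs x y, ← sq_abs ((x - y) / 2)]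
  set U := |(x - y) / 2| with hU
  set z := (x + y) / 2 with hz
  have hU0 : 0 ≤ U := abs_nonneg _
  have hzU : |z| + U ≤ 1 := abs_mid_le hx hy
  have hzz := abs_le.mp (le_refl |z|)
  have hzabs := abs_nonneg z
  have hρU : ρ * U ≤ U := by nlinarith
  have hρU0 : 0 ≤ ρ * U := mul_nonneg h0 hU0
  have hder : ∀ t ∈ Set.Ioo (ρ * U) U, HasDerivAt
      (fun s => -((1 - z ^ 2) * (ent (z + s) + ent (z - s)) + s ^ 2))
      (-((1 - z ^ 2) * (-A (z + t) * 1 + -A (z - t) * (-1)) + 2 * t)) t := by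
    intro t ht
    have ht2 : |z + t| < 1 := by
      rw [abs_lt]
      constructor <;> linarith [ht.1, ht.2]
    have ht3 : |z - t| < 1 := by
      rw [abs_lt]
      constructor <;> linarith [ht.1, ht.2]
    have d1 := ((hasDerivAt_ent_add ht2).fun_add (hasDerivAt_ent_sub ht3)).const_mul (1 - z ^ 2)
    have d2 : HasDerivAt (fun s : ℝ => s ^ 2) (2 * t) t := by
      simpa using hasDerivAt_pow 2 t
    exact (d1.fun_add d2).fun_neg
  have key := le_of_hasDeriv_nonneg
    (f := fun s => -((1 - z ^ 2) * (ent (z + s) + ent (z - s)) + s ^ 2)) hρU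
    (by
      apply Continuous.continuousOn
      exact (((continuous_const.mul ((continuous_ent.comp (continuous_const.add continuous_id)).add
        (continuous_ent.comp (continuous_const.sub continuous_id)))).add
        (continuous_pow 2)).neg))
    hder
    (by
      intro t ht
      have := A_diff_ge_two (z := z) (w := t) (by linarith [ht.1]) (by linarith [ht.2])
      nlinarith)
  have e : (ρ * U) ^ 2 = ρ ^ 2 * U ^ 2 := by ring
  rw [e] at key
  nlinarith

/-- Tangent line of the entropy (Gibbs inequality). -/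
lemma ent_tangent {p q : ℝ} (hp : |p| < 1) (hq : |q| ≤ 1) : ent q ≤ ent p - A p * (q - p) := by
  have hp' := abs_lt.mp hp
  have hq' := abs_le.mp hq
  set P := (1 + p) / 2 with hP
  set R := (1 - p) / 2 with hR
  set Q := (1 + q) / 2 with hQ
  set S := (1 - q) / 2 with hS
  have hP0 : 0 < P := by rw [hP]; linarith
  have hR0 : 0 < R := by rw [hR]; linarith
  have hQ0 : 0 ≤ Q := by rw [hQ]; linarith
  have hS0 : 0 ≤ S := by rw [hS]; linarith
  have gibbs : ∀ c d : ℝ, 0 < c → 0 ≤ d → d * log c - d * log d ≤ c - d := by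
    intro c d hc hd
    rcases eq_or_lt_of_le hd with h | h
    · rw [← h]
      simp
      linarith
    · have := log_le_sub_one_of_pos (div_pos hc h)
      rw [log_div hc.ne' h.ne'] at this
      have h2 := mul_le_mul_of_nonneg_left this h.le
      have e : d * (c / d - 1) = c - d := by
        field_simp
      rw [e] at h2
      linarith
  have g1 := gibbs P Q hP0 hQ0
  have g2 := gibbs R S hR0 hS0
  have eA : A p = (log P - log R) / 2 := by
    unfold A
    have e1 : 1 + p = 2 * P := by rw [hP]; ring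
    have e2 : 1 - p = 2 * R := by rw [hR]; ring
    rw [e1, e2, log_mul (by norm_num) hP0.ne', log_mul (by norm_num) hR0.ne']
    ring
  rw [ent_eq q, ent_eq p, eA]
  have e3 : q - p = 2 * (Q - P) := by
    rw [hQ, hP]
    ring
  have e4 : S = 1 - Q := by rw [hS, hQ]; ring
  have e5 : R = 1 - P := by rw [hR, hP]; ring
  rw [e3]
  simp only [← hQ, ← hS, ← hP, ← hR]
  have e6 : P * log P + R * log R + ((log P - log R) / 2) * (2 * (Q - P)) =
      Q * log P + S * log R := by
    rw [e4, e5]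
    ring
  have hPR : P + R = 1 := by rw [hP, hR]; ring
  have hQS : Q + S = 1 := by rw [hQ, hS]; ring
  nlinarith

/-- Convexity-type comparison for `A`. -/
lemma A_ratio_mono {x y : ℝ} (hx : 0 < x) (hxy : x ≤ y) (hy : y < 1) : A x * y ≤ A y * x := by
  rcases eq_or_lt_of_le hxy with h | h
  · rw [h]
  have hA0 : A 0 = 0 := by simp [A]
  have hdA : ∀ t, |t| < 1 → HasDerivAt A (1 / (1 - t ^ 2)) t := fun t ht => hasDerivAt_A ht
  have hc : ∀ a b : ℝ, 0 ≤ a → b < 1 → ContinuousOn A (Set.Icc a b) := by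
    intro a b ha hb t ht
    have : |t| < 1 := by
      rw [abs_lt]
      constructor <;> linarith [ht.1, ht.2]
    exact (hasDerivAt_A this).continuousAt.continuousWithinAt
  obtain ⟨c₁, hc₁, he₁⟩ := exists_hasDerivAt_eq_slope A (fun t => 1 / (1 - t ^ 2)) hx
    (hc 0 x le_rfl (by linarith)) (fun t ht => hdA t (by
      rw [abs_lt]
      constructor <;> linarith [ht.1, ht.2]))
  obtain ⟨c₂, hc₂, he₂⟩ := exists_hasDerivAt_eq_slope A (fun t => 1 / (1 - t ^ 2)) h
    (hc x y hx.le hy) (fun t ht => hdA t (by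
      rw [abs_lt]
      constructor <;> linarith [ht.1, ht.2]))
  have hle : 1 / (1 - c₁ ^ 2) ≤ 1 / (1 - c₂ ^ 2) := by
    apply one_div_le_one_div_of_le
    · nlinarith [hc₂.1, hc₂.2]
    · nlinarith [hc₁.1, hc₁.2, hc₂.1, hc₂.2]
  rw [he₁, he₂, hA0, sub_zero, sub_zero, div_le_div_iff₀ hx (by linarith)] at hle
  nlinarith

/-- The key entropy lower bound: `log 2 (1 - a²) ≤ ent a`. -/
lemma ent_ge_log_two {a : ℝ} (ha : |a| ≤ 1) : log 2 * (1 - a ^ 2) ≤ ent a := by
  have hl : 0 < log 2 := log_pos (by norm_num)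
  have key : ∀ b : ℝ, 0 < b → b < 1 → log 2 * (1 - b ^ 2) ≤ ent b := by
    intro b hb0 hb1
    by_contra hneg
    push Not at hneg
    set f : ℝ → ℝ := fun t => ent t - log 2 * (1 - t ^ 2) with hf
    have hcont : Continuous f := continuous_ent.sub (continuous_const.mul
      (continuous_const.sub (continuous_pow 2)))
    have hd : ∀ t, 0 < t → t < 1 → HasDerivAt f (-A t - log 2 * (-(2 * t))) t := by
      intro t ht0 ht1
      have ht : |t| < 1 := by
        rw [abs_lt]
        constructor <;> linarith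
      have d1 := hasDerivAt_ent ht
      have d2 : HasDerivAt (fun s : ℝ => 1 - s ^ 2) (-(2 * t)) t := by
        have := (hasDerivAt_pow 2 t).const_sub 1
        simpa using this
      exact d1.fun_sub (d2.const_mul (log 2))
    have hf0 : f 0 = 0 := by
      simp only [hf]
      unfold ent
      have : (1 + (0 : ℝ)) / 2 = 2⁻¹ := by norm_num
      rw [this, binEntropy_two_inv]
      ring
    have hf1 : f 1 = 0 := by
      simp only [hf, ent_one]
      ring
    have hfb : f b < 0 := by
      simp only [hf]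
      linarith
    obtain ⟨c₁, hc₁, he₁⟩ := exists_hasDerivAt_eq_slope f (fun t => -A t - log 2 * (-(2 * t))) hb0
      hcont.continuousOn (fun t ht => hd t ht.1 (by linarith [ht.2]))
    obtain ⟨c₂, hc₂, he₂⟩ := exists_hasDerivAt_eq_slope f (fun t => -A t - log 2 * (-(2 * t))) hb1
      hcont.continuousOn (fun t ht => hd t (by linarith [ht.1]) ht.2)
    rw [hf0, sub_zero, sub_zero] at he₁
    rw [hf1] at he₂
    have h1 : -A c₁ + log 2 * (2 * c₁) < 0 := by
      have : f b / b < 0 := div_neg_of_neg_of_pos hfb hb0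
      have e : -A c₁ - log 2 * (-(2 * c₁)) = -A c₁ + log 2 * (2 * c₁) := by ring
      rw [e] at he₁
      rw [he₁]
      exact this
    have h2 : 0 < -A c₂ + log 2 * (2 * c₂) := by
      have : 0 < (0 - f b) / (1 - b) := div_pos (by linarith) (by linarith)
      have e : -A c₂ - log 2 * (-(2 * c₂)) = -A c₂ + log 2 * (2 * c₂) := by ring
      rw [e] at he₂
      rw [he₂]
      exact this
    have h3 := A_ratio_mono hc₁.1 (by linarith [hc₁.2, hc₂.1] : c₁ ≤ c₂) hc₂.2
    have hc10 := hc₁.1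
    have hc20 : 0 < c₂ := by linarith [hc₂.1]
    nlinarith [mul_pos hc10 hc20]
  have key0 : ∀ b : ℝ, 0 ≤ b → b ≤ 1 → log 2 * (1 - b ^ 2) ≤ ent b := by
    intro b h0 h1
    rcases eq_or_lt_of_le h0 with h | h
    · rw [← h]
      unfold ent
      have : (1 + (0 : ℝ)) / 2 = 2⁻¹ := by norm_num
      rw [this, binEntropy_two_inv]
      norm_num
    rcases eq_or_lt_of_le h1 with h' | h'
    · rw [h', ent_one]
      norm_num
    exact key b h h'
  rcases le_total 0 a with h | h
  · exact key0 a h (abs_le.mp ha).2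
  · have := key0 (-a) (by linarith) (by linarith [(abs_le.mp ha).1])
    rw [ent_symm] at this
    have e : (-a) ^ 2 = a ^ 2 := by ring
    rwa [e] at this

/-- Product with a logarithm of a quotient. -/
lemma mul_log_div' (t c : ℝ) (hc : c ≠ 0) :
    t / c * log (t / c) = t / c * log t - t / c * log c := by
  rcases eq_or_ne t 0 with h | h
  · simp [h]
  · rw [log_div h hc]
    ring

/-- The second-difference bound (a Jensen-Shannon estimate). -/
lemma J_bound {m δ : ℝ} (hm : |m| < 1) (hδ : 0 ≤ δ) (hmδ : |m| + δ ≤ 1) :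
    (ent m - (ent (m + δ) + ent (m - δ)) / 2) * (1 - m ^ 2) ≤ log 2 * δ ^ 2 := by
  have hm' := abs_lt.mp hm
  have hmabs := abs_le.mp (le_refl |m|)
  have hp : 0 < 1 + m := by linarith
  have hq : 0 < 1 - m := by linarith
  set a := δ / (1 + m) with ha
  set b := δ / (1 - m) with hb
  have ha1 : |a| ≤ 1 := by
    rw [ha, abs_le]
    constructor
    · have := div_nonneg hδ hp.le
      linarith
    · rw [div_le_one hp]
      linarith
  have hb1 : |b| ≤ 1 := by
    rw [hb, abs_le]
    constructor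
    · have := div_nonneg hδ hq.le
      linarith
    · rw [div_le_one hq]
      linarith
  have e1 := ent_ge_log_two ha1
  have e2 := ent_ge_log_two hb1
  -- the identity
  have hid : ent m - (ent (m + δ) + ent (m - δ)) / 2 =
      (1 + m) / 2 * (log 2 - ent a) + (1 - m) / 2 * (log 2 - ent b) := by
    rw [ent_eq m, ent_eq (m + δ), ent_eq (m - δ), ent_eq a, ent_eq b]
    have q1 : (1 + a) / 2 = ((1 + m + δ) / 2) / (1 + m) := by
      rw [ha]
      field_simp
    have q2 : (1 - a) / 2 = ((1 + m - δ) / 2) / (1 + m) := by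
      rw [ha]
      field_simp
    have q3 : (1 + b) / 2 = ((1 - m + δ) / 2) / (1 - m) := by
      rw [hb]
      field_simp
    have q4 : (1 - b) / 2 = ((1 - m - δ) / 2) / (1 - m) := by
      rw [hb]
      field_simp
    have r1 : (1 + (m + δ)) / 2 = (1 + m + δ) / 2 := by ring
    have r2 : (1 - (m + δ)) / 2 = (1 - m - δ) / 2 := by ring
    have r3 : (1 + (m - δ)) / 2 = (1 + m - δ) / 2 := by ring
    have r4 : (1 - (m - δ)) / 2 = (1 - m + δ) / 2 := by ring
    rw [r1, r2, r3, r4, q1, q2, q3, q4]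
    set u₁ := (1 + m + δ) / 2 with hu₁
    set u₂ := (1 + m - δ) / 2 with hu₂
    set u₃ := (1 - m + δ) / 2 with hu₃
    set u₄ := (1 - m - δ) / 2 with hu₄
    rw [mul_log_div' _ _ hp.ne', mul_log_div' _ _ hp.ne', mul_log_div' _ _ hq.ne',
      mul_log_div' _ _ hq.ne']
    have l1 : log ((1 + m) / 2) = log (1 + m) - log 2 := log_div hp.ne' (by norm_num)
    have l2 : log ((1 - m) / 2) = log (1 - m) - log 2 := log_div hq.ne' (by norm_num)
    rw [l1, l2]
    have s1 : u₁ + u₂ = 1 + m := by rw [hu₁, hu₂]; ring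
    have s2 : u₃ + u₄ = 1 - m := by rw [hu₃, hu₄]; ring
    have d1 : (1 + m) / 2 * (u₁ / (1 + m) * log u₁) = u₁ * log u₁ / 2 := by field_simp
    have d2 : (1 + m) / 2 * (u₂ / (1 + m) * log u₂) = u₂ * log u₂ / 2 := by field_simp
    have d3 : (1 - m) / 2 * (u₃ / (1 - m) * log u₃) = u₃ * log u₃ / 2 := by field_simp
    have d4 : (1 - m) / 2 * (u₄ / (1 - m) * log u₄) = u₄ * log u₄ / 2 := by field_simp
    have d5 : (1 + m) / 2 * (u₁ / (1 + m) * log (1 + m) + u₂ / (1 + m) * log (1 + m)) =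
        (1 + m) / 2 * log (1 + m) := by
      have : u₁ / (1 + m) * log (1 + m) + u₂ / (1 + m) * log (1 + m) =
          (u₁ + u₂) / (1 + m) * log (1 + m) := by ring
      rw [this, s1, div_self hp.ne', one_mul]
    have d6 : (1 - m) / 2 * (u₃ / (1 - m) * log (1 - m) + u₄ / (1 - m) * log (1 - m)) =
        (1 - m) / 2 * log (1 - m) := by
      have : u₃ / (1 - m) * log (1 - m) + u₄ / (1 - m) * log (1 - m) =
          (u₃ + u₄) / (1 - m) * log (1 - m) := by ring
      rw [this, s2, div_self hq.ne', one_mul]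
    linear_combination (-1 : ℝ) * d1 - d2 - d3 - d4 + d5 + d6
  rw [hid]
  have hv : 0 < 1 - m ^ 2 := by nlinarith
  have e3 : (1 + m) / 2 * (log 2 * a ^ 2) + (1 - m) / 2 * (log 2 * b ^ 2) =
      log 2 * δ ^ 2 / (1 - m ^ 2) := by
    rw [ha, hb]
    have : 1 - m ^ 2 = (1 + m) * (1 - m) := by ring
    rw [this]
    field_simp
    ring
  have e4 : (1 + m) / 2 * (log 2 - ent a) + (1 - m) / 2 * (log 2 - ent b) ≤
      log 2 * δ ^ 2 / (1 - m ^ 2) := by
    rw [← e3]
    have : 0 ≤ (1 + m) / 2 := by linarith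
    have : 0 ≤ (1 - m) / 2 := by linarith
    nlinarith
  calc _ ≤ log 2 * δ ^ 2 / (1 - m ^ 2) * (1 - m ^ 2) := mul_le_mul_of_nonneg_right e4 hv.le
    _ = log 2 * δ ^ 2 := by field_simp

end Vale.Agent.P322
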