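import Mathlib

open Real

namespace Vale.Agent.P322

/-- The function `t * log (1 + κ * t / H)`. -/
noncomputable def LL (κ t H : ℝ) : ℝ := t * log (1 + κ * t / H)

lemma LL_eq {κ t H : ℝ} (hκ : 0 < κ) (ht : 0 ≤ t) (hH : 0 < H) :
    LL κ t H = t * (log (H + κ * t) - log H) := by
  unfold LL
  have h1 : 1 + κ * t / H = (H + κ * t) / H := by field_simp
  rw [h1, log_div (by positivity) hH.ne']

lemma LL_nonneg {κ t H : ℝ} (hκ : 0 < κ) (ht : 0 ≤ t) (hH : 0 < H) : 0 ≤ LL κ t H := by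
  unfold LL
  apply mul_nonneg ht
  apply log_nonneg
  have : 0 ≤ κ * t / H := by positivity
  linarith

/-- Tangent inequality for `v * log (1 + κ v)`. -/
lemma tangent_ineq {κ v v₀ : ℝ} (hκ : 0 < κ) (hv : 0 ≤ v) (hv₀ : 0 ≤ v₀) :
    v₀ * log (1 + κ * v₀) + (log (1 + κ * v₀) + κ * v₀ / (1 + κ * v₀)) * (v - v₀)
      ≤ v * log (1 + κ * v) := by
  have h1 : 0 < 1 + κ * v := by positivity
  have h0 : 0 < 1 + κ * v₀ := by positivity
  have hu : 0 < (1 + κ * v) / (1 + κ * v₀) := by positivity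
  have hlog := Real.one_sub_inv_le_log_of_pos hu
  rw [log_div h1.ne' h0.ne', inv_div] at hlog
  have hdiff : 1 - (1 + κ * v₀) / (1 + κ * v) = κ * (v - v₀) / (1 + κ * v) := by
    field_simp
    ring
  rw [hdiff] at hlog
  have hmul : v * (κ * (v - v₀) / (1 + κ * v)) ≤ v * (log (1 + κ * v) - log (1 + κ * v₀)) :=
    mul_le_mul_of_nonneg_left hlog hv
  have hsq : κ * v₀ / (1 + κ * v₀) * (v - v₀) ≤ v * (κ * (v - v₀) / (1 + κ * v)) := by
    have : v * (κ * (v - v₀) / (1 + κ * v)) - κ * v₀ / (1 + κ * v₀) * (v - v₀)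
        = κ * (v - v₀) ^ 2 / ((1 + κ * v) * (1 + κ * v₀)) := by
      field_simp
      ring
    have h2 : 0 ≤ κ * (v - v₀) ^ 2 / ((1 + κ * v) * (1 + κ * v₀)) := by positivity
    linarith
  nlinarith [hmul, hsq]

/-- Auxiliary inequality: `x (log E - log (1 + x)) ≤ (E + 1/E)/2 - 1`. -/
lemma aux_cosh {x E : ℝ} (hx : 0 ≤ x) (hE : 0 < E) :
    x * (log E - log (1 + x)) ≤ (E + E⁻¹) / 2 - 1 := by
  set s := √(1 + x ^ 2) with hs
  have hs2 : s ^ 2 = 1 + x ^ 2 := Real.sq_sqrt (by positivity)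
  have hs1 : 1 ≤ s := by
    rw [hs]
    exact Real.one_le_sqrt.mpr (by nlinarith [sq_nonneg x])
  have hsx : x ≤ s := by nlinarith [sq_nonneg (s - x), sq_nonneg x]
  set E₀ := x + s with hE₀
  have hE₀pos : 0 < E₀ := by rw [hE₀]; linarith
  have hinv : E₀⁻¹ = s - x := by
    rw [hE₀]
    field_simp
    nlinarith
  -- tangent inequalities
  have t1 : 1 + (log E - log E₀) ≤ E / E₀ := by
    have := Real.log_le_sub_one_of_pos (div_pos hE hE₀pos)
    rw [log_div hE.ne' hE₀pos.ne'] at this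
    linarith
  have t2 : 1 - (log E - log E₀) ≤ E₀ / E := by
    have := Real.log_le_sub_one_of_pos (div_pos hE₀pos hE)
    rw [log_div hE₀pos.ne' hE.ne'] at this
    linarith
  have t1' : E₀ * (1 + (log E - log E₀)) ≤ E := by
    have := mul_le_mul_of_nonneg_left t1 hE₀pos.le
    rwa [mul_div_cancel₀ _ hE₀pos.ne'] at this
  have t2' : E₀⁻¹ * (1 - (log E - log E₀)) ≤ E⁻¹ := by
    have := mul_le_mul_of_nonneg_left t2 (inv_pos.mpr hE₀pos).le
    have h3 : E₀⁻¹ * (E₀ / E) = E⁻¹ := by field_simp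
    rwa [h3] at this
  rw [hinv] at t2'
  have main : s + x * (log E - log E₀) ≤ (E + E⁻¹) / 2 := by
    rw [hE₀] at t1'
    nlinarith [t1', t2']
  -- remaining: x log(E₀/(1+x)) ≤ s - 1
  have hx1 : 0 < 1 + x := by linarith
  have t3 : log E₀ - log (1 + x) ≤ E₀ / (1 + x) - 1 := by
    have := Real.log_le_sub_one_of_pos (div_pos hE₀pos hx1)
    rwa [log_div hE₀pos.ne' hx1.ne'] at this
  have t4 : E₀ / (1 + x) - 1 = (s - 1) / (1 + x) := by
    rw [hE₀]
    field_simp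
    ring
  have t5 : x * (log E₀ - log (1 + x)) ≤ s - 1 := by
    have h5 : x * (log E₀ - log (1 + x)) ≤ x * ((s - 1) / (1 + x)) := by
      apply mul_le_mul_of_nonneg_left _ hx
      rw [← t4]
      exact t3
    have h6 : x * ((s - 1) / (1 + x)) ≤ s - 1 := by
      have : x * ((s - 1) / (1 + x)) = (s - 1) * (x / (1 + x)) := by ring
      rw [this]
      have h7 : x / (1 + x) ≤ 1 := by
        rw [div_le_one hx1]
        linarith
      nlinarith [mul_le_mul_of_nonneg_left h7 (by linarith : (0 : ℝ) ≤ s - 1)]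
    linarith
  nlinarith [main, t5]

end Vale.Agent.P322
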