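import Vale.Agent.P322.Final

open Real Finset

namespace Vale.Agent.P322

/-- The two-point entropy average appearing in the one-coordinate recursion. -/
noncomputable def WW (ρ x y : ℝ) : ℝ :=
  (ent ((1 + ρ) / 2 * x + (1 - ρ) / 2 * y) + ent ((1 - ρ) / 2 * x + (1 + ρ) / 2 * y)) / 2

lemma kernel_cons {n : ℕ} (ρ : ℝ) (a b : Bool) (x y : Cube n) :
    kernel ρ (cons' a x) (cons' b y) = fac ρ a b * kernel ρ x y := by
  unfold kernel cons'
  rw [Fin.prod_univ_succ]
  simp

lemma noise_cons {n : ℕ} (F : Cube (n + 1) → ℝ) (ρ : ℝ) (b : Bool) (y : Cube n) :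
    noise F ρ (cons' b y) =
      fac ρ true b * noise (fun x => F (cons' true x)) ρ y +
        fac ρ false b * noise (fun x => F (cons' false x)) ρ y := by
  unfold noise
  rw [sum_succ (fun x => F x * kernel ρ x (cons' b y))]
  simp only [kernel_cons]
  rw [mul_sum, mul_sum]
  congr 1
  · apply sum_congr rfl
    intro x _
    ring
  · apply sum_congr rfl
    intro x _
    ring

lemma Hn_succ {n : ℕ} (F : Cube (n + 1) → ℝ) (ρ : ℝ) :
    Hn F ρ = avg (fun y => WW ρ (noise (fun x => F (cons' true x)) ρ y)
      (noise (fun x => F (cons' false x)) ρ y)) := by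
  unfold Hn
  rw [avg_succ]
  simp only [noise_cons]
  unfold WW
  have e : ∀ y : Cube n, (ent ((1 + ρ) / 2 * noise (fun x => F (cons' true x)) ρ y +
        (1 - ρ) / 2 * noise (fun x => F (cons' false x)) ρ y) +
      ent ((1 - ρ) / 2 * noise (fun x => F (cons' true x)) ρ y +
        (1 + ρ) / 2 * noise (fun x => F (cons' false x)) ρ y)) / 2 =
      (ent (fac ρ true true * noise (fun x => F (cons' true x)) ρ y +
        fac ρ false true * noise (fun x => F (cons' false x)) ρ y) +
      ent (fac ρ true false * noise (fun x => F (cons' true x)) ρ y +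
        fac ρ false false * noise (fun x => F (cons' false x)) ρ y)) / 2 := by
    intro y
    simp [fac]
  simp only [e]
  have e2 : ∀ g h : Cube n → ℝ, avg (fun y => (g y + h y) / 2) = (avg g + avg h) / 2 := by
    intro g h
    have : (fun y => (g y + h y) / 2) = fun y => (1 / 2 : ℝ) * (g y + h y) := by
      funext y
      ring
    rw [this, avg_mul_left, avg_add]
    ring
  rw [e2]

lemma ent_one : ent 1 = 0 := by
  unfold ent
  norm_num

lemma ent_neg_one : ent (-1) = 0 := by
  unfold ent
  norm_num

/-- Reduction of the conditional entropy bound to a two-function closure property. -/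
theorem main_of_closure {ρ : ℝ} (hρ : |ρ| < 1) {B : ℝ → ℝ} (hB1 : B 1 ≤ 0) (hB2 : B (-1) ≤ 0)
    (hC : ∀ (n : ℕ) (X Y : Cube n → ℝ), (∀ y, |X y| ≤ 1) → (∀ y, |Y y| ≤ 1) →
      B (avg X) ≤ avg (fun y => ent (X y)) → B (avg Y) ≤ avg (fun y => ent (Y y)) →
      B ((avg X + avg Y) / 2) ≤ avg (fun y => WW ρ (X y) (Y y))) :
    ∀ (n : ℕ) (F : Cube n → ℝ), (∀ x, F x = 1 ∨ F x = -1) → B (avg F) ≤ Hn F ρ := by
  intro n
  induction n with
  | zero =>
    intro F hF
    have hu : ∀ x : Cube 0, x = default := fun x => Subsingleton.elim _ _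
    have havg : avg F = F default := by
      unfold avg
      rw [Fintype.sum_unique]
      simp
      exact congrArg F (Subsingleton.elim _ _)
    have hker : ∀ x y : Cube 0, kernel ρ x y = 1 := by
      intro x y
      unfold kernel
      simp
    have hn : ∀ y : Cube 0, noise F ρ y = F default := by
      intro y
      unfold noise
      rw [Fintype.sum_unique]
      simp [hker]
      exact congrArg F (Subsingleton.elim _ _)
    have hH : Hn F ρ = ent (F default) := by
      unfold Hn
      simp only [hn]
      rw [avg_const]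
    rw [havg, hH]
    rcases hF default with h | h
    · rw [h, ent_one]
      exact hB1
    · rw [h, ent_neg_one]
      exact hB2
  | succ n ih =>
    intro F hF
    have hF1 : ∀ x, F (cons' true x) = 1 ∨ F (cons' true x) = -1 := fun x => hF _
    have hF0 : ∀ x, F (cons' false x) = 1 ∨ F (cons' false x) = -1 := fun x => hF _
    have h1 := ih _ hF1
    have h0 := ih _ hF0
    rw [Hn_succ]
    have hav : avg F = (avg (noise (fun x => F (cons' true x)) ρ) +
        avg (noise (fun x => F (cons' false x)) ρ)) / 2 := by
      rw [avg_noise, avg_noise, avg_succ]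
    rw [hav]
    apply hC n _ _ (abs_noise_le hF1 hρ) (abs_noise_le hF0 hρ)
    · rw [avg_noise]
      exact h1
    · rw [avg_noise]
      exact h0

end Vale.Agent.P322
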