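import Vale.Agent.P322.Pt2

open Real Finset

namespace Vale.Agent.P322

/-- Validity of a linear lower bound of the two-point average. -/
def Valid (ρ a b : ℝ) : Prop :=
  ∀ x y : ℝ, |x| ≤ 1 → |y| ≤ 1 →
    b * |(x - y) / 2| ≤ a * WW ρ x y + (WW ρ x y - (ent x + ent y) / 2)

lemma avg_div_two {n : ℕ} (g : Cube n → ℝ) : avg (fun y => g y / 2) = avg g / 2 := by
  have : (fun y => g y / 2) = fun y => (1 / 2 : ℝ) * g y := by
    funext y
    ring
  rw [this, avg_mul_left]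
  ring

lemma avg_half_sum {n : ℕ} (g h : Cube n → ℝ) :
    avg (fun y => (g y + h y) / 2) = (avg g + avg h) / 2 := by
  rw [avg_div_two, avg_add]

lemma avg_half_diff {n : ℕ} (g h : Cube n → ℝ) :
    avg (fun y => (g y - h y) / 2) = (avg g - avg h) / 2 := by
  rw [avg_div_two, avg_sub]

/-- Averaging a valid pair. -/
lemma avg_of_valid {ρ a b : ℝ} (hV : Valid ρ a b) (hb : 0 ≤ b) {n : ℕ} (X Y : Cube n → ℝ)
    (hX : ∀ y, |X y| ≤ 1) (hY : ∀ y, |Y y| ≤ 1) :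
    (avg (fun y => ent (X y)) + avg (fun y => ent (Y y))) / 2 + b * (|avg X - avg Y| / 2) ≤
      (1 + a) * avg (fun y => WW ρ (X y) (Y y)) := by
  have h1 : avg (fun y => b * |(X y - Y y) / 2|) ≤
      avg (fun y => a * WW ρ (X y) (Y y) + (WW ρ (X y) (Y y) - (ent (X y) + ent (Y y)) / 2)) :=
    avg_le_avg fun y => hV _ _ (hX y) (hY y)
  rw [avg_mul_left, avg_add, avg_mul_left, avg_sub, avg_half_sum] at h1
  have h2 : |avg X - avg Y| / 2 ≤ avg (fun y => |(X y - Y y) / 2|) := by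
    have := abs_avg_le (fun y => (X y - Y y) / 2)
    rw [avg_half_diff, abs_div, abs_two] at this
    exact this
  have h3 := mul_le_mul_of_nonneg_left h2 hb
  linarith

lemma avg_sq_ge {n : ℕ} (z : Cube n → ℝ) : avg z ^ 2 ≤ avg (fun y => z y ^ 2) := by
  have h : 0 ≤ avg (fun y => (z y - avg z) ^ 2) := avg_nonneg fun y => sq_nonneg _
  have e : (fun y => (z y - avg z) ^ 2) = fun y => z y ^ 2 - (2 * avg z) * z y + avg z ^ 2 := by
    funext y
    ring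
  rw [e, avg_add, avg_sub, avg_mul_left, avg_const] at h
  nlinarith

/-- The entropy of a concave mixture: `ent` is nonnegative. -/
lemma ent_nonneg {x : ℝ} (hx : |x| ≤ 1) : 0 ≤ ent x := by
  have hx' := abs_le.mp hx
  unfold ent
  exact binEntropy_nonneg (by linarith) (by linarith)

lemma WW_nonneg {ρ x y : ℝ} (h0 : 0 ≤ ρ) (h1 : ρ ≤ 1) (hx : |x| ≤ 1) (hy : |y| ≤ 1) :
    0 ≤ WW ρ x y := by
  have hx' := abs_le.mp hx
  have hy' := abs_le.mp hy
  unfold WW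
  have a1 : 0 ≤ (1 + ρ) / 2 := by linarith
  have a2 : 0 ≤ (1 - ρ) / 2 := by linarith
  have hA : |(1 + ρ) / 2 * x + (1 - ρ) / 2 * y| ≤ 1 := by
    rw [abs_le]
    constructor <;> nlinarith
  have hB : |(1 - ρ) / 2 * x + (1 + ρ) / 2 * y| ≤ 1 := by
    rw [abs_le]
    constructor <;> nlinarith
  have := ent_nonneg hA
  have := ent_nonneg hB
  linarith

/-- The difference `D` is nonnegative. -/
lemma DD_nonneg {ρ x y : ℝ} (h0 : 0 ≤ ρ) (h1 : ρ ≤ 1) (hx : |x| ≤ 1) (hy : |y| ≤ 1) :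
    0 ≤ WW ρ x y - (ent x + ent y) / 2 := by
  have hx' := abs_le.mp hx
  have hy' := abs_le.mp hy
  have a1 : 0 ≤ (1 + ρ) / 2 := by linarith
  have a2 : 0 ≤ (1 - ρ) / 2 := by linarith
  have c1 := ent_concave_ineq hx hy a1 a2 (by ring)
  have c2 := ent_concave_ineq hx hy a2 a1 (by ring)
  unfold WW
  nlinarith

/-- Pointwise form used for the Cauchy-Schwarz step. -/
lemma T3_linear {ρ x y θ : ℝ} (h0 : 0 ≤ ρ) (h1 : ρ ≤ 1) (hx : |x| ≤ 1) (hy : |y| ≤ 1) (_hθ : 0 ≤ θ) :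
    (1 - ρ ^ 2) * θ * |(x - y) / 2| ≤
      (WW ρ x y - (ent x + ent y) / 2) + (1 - ρ ^ 2) * θ ^ 2 / 2 * (1 - ((x + y) / 2) ^ 2) := by
  have hT := T3_bound h0 h1 hx hy
  have hD := DD_nonneg h0 h1 hx hy
  set D := WW ρ x y - (ent x + ent y) / 2 with hDdef
  set z := (x + y) / 2 with hz
  set u := (x - y) / 2 with hu
  have hκ : 0 ≤ 1 - ρ ^ 2 := by nlinarith
  have hzU := abs_mid_le hx hy
  rw [← hz, ← hu] at hzU
  have hz1 : z ^ 2 ≤ 1 := by
    have : |z| ≤ 1 := by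
      have := abs_nonneg u
      linarith
    have := abs_le.mp this
    nlinarith
  set V := 1 - z ^ 2 with hV
  have hV0 : 0 ≤ V := by
    rw [hV]
    linarith
  rcases eq_or_lt_of_le hV0 with hV1 | hV1
  · -- V = 0: u = 0
    have hzabs : |z| = 1 := by
      have : z ^ 2 = 1 := by
        rw [hV] at hV1
        linarith
      have h2 : |z| ^ 2 = 1 := by rw [sq_abs]; exact this
      nlinarith [abs_nonneg z, sq_nonneg (|z| - 1)]
    have hu0 : |u| = 0 := by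
      have := abs_nonneg u
      linarith
    rw [hu0, ← hV1]
    simpa using hD
  · have h2 : (1 - ρ ^ 2) * (|u| - θ * V) ^ 2 / 2 ≥ 0 := by positivity
    have h3 : |u| ^ 2 = u ^ 2 := sq_abs u
    have key : (1 - ρ ^ 2) * θ * |u| * V ≤ (D + (1 - ρ ^ 2) * θ ^ 2 / 2 * V) * V := by
      nlinarith
    exact le_of_mul_le_mul_right key hV1

lemma abs_avg_le_one {n : ℕ} {X : Cube n → ℝ} (hX : ∀ y, |X y| ≤ 1) : |avg X| ≤ 1 := by
  refine le_trans (abs_avg_le X) ?_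
  rw [← avg_const (n := n) 1]
  exact avg_le_avg hX

/-- The Cauchy-Schwarz bound for the average difference. -/
lemma avg_T3 {ρ : ℝ} (h0 : 0 ≤ ρ) (h1 : ρ ≤ 1) {n : ℕ} (X Y : Cube n → ℝ)
    (hX : ∀ y, |X y| ≤ 1) (hY : ∀ y, |Y y| ≤ 1) :
    (1 - ρ ^ 2) * (|avg X - avg Y| / 2) ^ 2 / 2 ≤
      (avg (fun y => WW ρ (X y) (Y y)) -
          (avg (fun y => ent (X y)) + avg (fun y => ent (Y y))) / 2) *
        (1 - ((avg X + avg Y) / 2) ^ 2) := by
  set δ := |avg X - avg Y| / 2 with hδ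
  set m := (avg X + avg Y) / 2 with hm
  set v := 1 - m ^ 2 with hv
  set Dw := avg (fun y => WW ρ (X y) (Y y)) -
    (avg (fun y => ent (X y)) + avg (fun y => ent (Y y))) / 2 with hDw
  have hκ : 0 ≤ 1 - ρ ^ 2 := by nlinarith
  have hδ0 : 0 ≤ δ := by positivity
  have a1 := abs_le.mp (abs_avg_le_one hX)
  have a2 := abs_le.mp (abs_avg_le_one hY)
  have hδsq : δ ^ 2 = ((avg X - avg Y) / 2) ^ 2 := by
    rw [hδ, div_pow, sq_abs, div_pow]
  have hδv : δ ^ 2 ≤ v := by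
    rw [hδsq, hv, hm]
    nlinarith [a1.1, a1.2, a2.1, a2.2]
  have main : ∀ θ : ℝ, 0 ≤ θ → (1 - ρ ^ 2) * θ * δ ≤ Dw + (1 - ρ ^ 2) * θ ^ 2 / 2 * v := by
    intro θ hθ
    have h2 : avg (fun y => (1 - ρ ^ 2) * θ * |(X y - Y y) / 2|) ≤
        avg (fun y => (WW ρ (X y) (Y y) - (ent (X y) + ent (Y y)) / 2) +
          (1 - ρ ^ 2) * θ ^ 2 / 2 * (1 - ((X y + Y y) / 2) ^ 2)) :=
      avg_le_avg fun y => T3_linear h0 h1 (hX y) (hY y) hθ
    rw [avg_mul_left, avg_add, avg_sub, avg_half_sum, avg_mul_left, avg_sub, avg_const] at h2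
    have h3 : δ ≤ avg (fun y => |(X y - Y y) / 2|) := by
      have := abs_avg_le (fun y => (X y - Y y) / 2)
      rw [avg_half_diff, abs_div, abs_two] at this
      exact this
    have h4 : m ^ 2 ≤ avg (fun y => ((X y + Y y) / 2) ^ 2) := by
      have := avg_sq_ge (fun y => (X y + Y y) / 2)
      rw [avg_half_sum] at this
      exact this
    have hc : 0 ≤ (1 - ρ ^ 2) * θ := mul_nonneg hκ hθ
    have hc2 : 0 ≤ (1 - ρ ^ 2) * θ ^ 2 / 2 := by positivity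
    have h5 := mul_le_mul_of_nonneg_left h3 hc
    have h6 : (1 - ρ ^ 2) * θ ^ 2 / 2 * (1 - avg (fun y => ((X y + Y y) / 2) ^ 2)) ≤
        (1 - ρ ^ 2) * θ ^ 2 / 2 * v := by
      apply mul_le_mul_of_nonneg_left _ hc2
      rw [hv]
      linarith
    linarith
  have hv0 : 0 ≤ v := le_trans (sq_nonneg δ) hδv
  rcases eq_or_lt_of_le hv0 with hv1 | hv1
  · have : δ = 0 := by
      have : δ ^ 2 ≤ 0 := by
        rw [← hv1] at hδv
        exact hδv
      nlinarith [sq_nonneg δ]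
    rw [this, ← hv1]
    simp
  · have h7 := main (δ / v) (div_nonneg hδ0 hv1.le)
    have e1 : (1 - ρ ^ 2) * (δ / v) ^ 2 / 2 * v = (1 - ρ ^ 2) * δ ^ 2 / 2 / v := by
      field_simp
    have e2 : (1 - ρ ^ 2) * (δ / v) * δ = (1 - ρ ^ 2) * δ ^ 2 / v := by
      field_simp
    rw [e1, e2] at h7
    have e3 : (1 - ρ ^ 2) * δ ^ 2 / v = 2 * ((1 - ρ ^ 2) * δ ^ 2 / 2 / v) := by
      field_simp
    rw [e3] at h7
    have h8 : (1 - ρ ^ 2) * δ ^ 2 / 2 / v ≤ Dw := by linarith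
    rwa [div_le_iff₀ hv1] at h8

end Vale.Agent.P322
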